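import Mathlib

/-!
# A continuously differentiable ramp of almost minimal slope, and its translates
-/

noncomputable section

open MeasureTheory Set Filter Topology

namespace Vale.Agent.P219.CH

/-- The trapezoid of height one on `[0, 1]` with edges of width `ρ`. -/
def trap (ρ s : ℝ) : ℝ := max 0 (min 1 (min (s / ρ) ((1 - s) / ρ)))

lemma continuous_trap (ρ : ℝ) : Continuous (trap ρ) := by unfold trap; fun_prop

lemma trap_nonneg (ρ s : ℝ) : 0 ≤ trap ρ s := le_max_left _ _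

lemma trap_le_one (ρ s : ℝ) : trap ρ s ≤ 1 := max_le zero_le_one (min_le_left _ _)

lemma trap_eq_zero {ρ s : ℝ} (hρ : 0 < ρ) (hs : s ≤ 0 ∨ 1 ≤ s) : trap ρ s = 0 := by
  refine max_eq_left ((min_le_right _ _).trans ?_)
  rcases hs with hs | hs
  · exact (min_le_left _ _).trans (div_nonpos_of_nonpos_of_nonneg hs hρ.le)
  · exact (min_le_right _ _).trans (div_nonpos_of_nonpos_of_nonneg (by linarith) hρ.le)

/-- The mass of the trapezoid. -/
def trapMass (ρ : ℝ) : ℝ := ∫ s in (0 : ℝ)..1, trap ρ s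

lemma one_sub_le_trapMass {ρ : ℝ} (hρ : 0 < ρ) (hρ' : ρ ≤ 1 / 4) : 1 - 2 * ρ ≤ trapMass ρ := by
  have hi : ∀ a b, IntervalIntegrable (trap ρ) volume a b := fun a b =>
    (continuous_trap ρ).intervalIntegrable a b
  have h1 : ∫ s in ρ..(1 - ρ), trap ρ s = 1 - 2 * ρ := by
    rw [intervalIntegral.integral_congr (g := fun _ => (1 : ℝ)) fun s hs => ?_]
    · simp; ring
    · rw [uIcc_of_le (by linarith)] at hs
      refine le_antisymm (trap_le_one ρ s) (le_max_of_le_right (le_min le_rfl (le_min ?_ ?_)))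
      · rw [le_div_iff₀ hρ]; linarith [hs.1]
      · rw [le_div_iff₀ hρ]; linarith [hs.2]
  have h2 : trapMass ρ = (∫ s in (0 : ℝ)..ρ, trap ρ s) + (∫ s in ρ..(1 - ρ), trap ρ s) +
      ∫ s in (1 - ρ)..1, trap ρ s := by
    rw [intervalIntegral.integral_add_adjacent_intervals (hi _ _) (hi _ _),
      intervalIntegral.integral_add_adjacent_intervals (hi _ _) (hi _ _), trapMass]
  have h3 : 0 ≤ ∫ s in (0 : ℝ)..ρ, trap ρ s :=
    intervalIntegral.integral_nonneg hρ.le fun s _ => trap_nonneg ρ s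
  have h4 : 0 ≤ ∫ s in (1 - ρ)..1, trap ρ s :=
    intervalIntegral.integral_nonneg (by linarith) fun s _ => trap_nonneg ρ s
  linarith

/-- The ramp from zero to one. -/
def ramp (ρ x : ℝ) : ℝ := (∫ s in (0 : ℝ)..x, trap ρ s) / trapMass ρ

/-- Its largest slope. -/
def slope (ρ : ℝ) : ℝ := 1 / trapMass ρ

variable {ρ : ℝ} (hρ : 0 < ρ) (hρ' : ρ ≤ 1 / 4)

include hρ hρ'

lemma trapMass_pos : 0 < trapMass ρ := by linarith [one_sub_le_trapMass hρ hρ']

lemma slope_pos : 0 < slope ρ := one_div_pos.2 (trapMass_pos hρ hρ')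

lemma slope_le : slope ρ ≤ 1 + 4 * ρ := by
  rw [slope, div_le_iff₀ (trapMass_pos hρ hρ')]
  have := mul_le_mul_of_nonneg_left (one_sub_le_trapMass hρ hρ') (by linarith : (0:ℝ) ≤ 1 + 4 * ρ)
  nlinarith

lemma one_le_slope : 1 ≤ slope ρ := by
  rw [slope, le_div_iff₀ (trapMass_pos hρ hρ'), one_mul]
  have h := intervalIntegral.integral_mono_on zero_le_one
    ((continuous_trap ρ).intervalIntegrable (μ := volume) 0 1)
    (intervalIntegrable_const (c := (1 : ℝ))) fun s _ => trap_le_one ρ s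
  simpa [trapMass] using h

omit hρ hρ' in
lemma hasDerivAt_ramp (x : ℝ) : HasDerivAt (ramp ρ) (trap ρ x / trapMass ρ) x :=
  ((continuous_trap ρ).integral_hasStrictDerivAt 0 x).hasDerivAt.div_const _

omit hρ hρ' in
lemma deriv_ramp (x : ℝ) : deriv (ramp ρ) x = trap ρ x / trapMass ρ := (hasDerivAt_ramp x).deriv

omit hρ hρ' in
lemma contDiff_ramp : ContDiff ℝ 1 (ramp ρ) := by
  rw [contDiff_one_iff_deriv]
  exact ⟨fun x => (hasDerivAt_ramp x).differentiableAt, by
    rw [funext fun x => deriv_ramp (ρ := ρ) x]; exact (continuous_trap ρ).div_const _⟩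

lemma abs_deriv_ramp_le (x : ℝ) : |deriv (ramp ρ) x| ≤ slope ρ := by
  rw [deriv_ramp, abs_of_nonneg (div_nonneg (trap_nonneg ρ x) (trapMass_pos hρ hρ').le), slope]
  exact div_le_div_of_nonneg_right (trap_le_one ρ x) (trapMass_pos hρ hρ').le

omit hρ' in
lemma deriv_ramp_eq_zero {x : ℝ} (hx : x ≤ 0 ∨ 1 ≤ x) : deriv (ramp ρ) x = 0 := by
  rw [deriv_ramp, trap_eq_zero hρ hx, zero_div]

lemma monotone_ramp : Monotone (ramp ρ) :=
  monotone_of_deriv_nonneg (fun x => (hasDerivAt_ramp x).differentiableAt) fun x => by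
    rw [deriv_ramp]; exact div_nonneg (trap_nonneg ρ x) (trapMass_pos hρ hρ').le

omit hρ' in
lemma ramp_of_nonpos {x : ℝ} (hx : x ≤ 0) : ramp ρ x = 0 := by
  rw [ramp, intervalIntegral.integral_congr (g := fun _ => (0 : ℝ)) fun s hs => ?_]
  · simp
  · rw [uIcc_of_ge hx] at hs
    exact trap_eq_zero hρ (Or.inl hs.2)

lemma ramp_of_one_le {x : ℝ} (hx : 1 ≤ x) : ramp ρ x = 1 := by
  rw [ramp, ← intervalIntegral.integral_add_adjacent_intervals
    ((continuous_trap ρ).intervalIntegrable 0 1) ((continuous_trap ρ).intervalIntegrable 1 x),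
    intervalIntegral.integral_congr (a := 1) (b := x) (g := fun _ => (0 : ℝ)) fun s hs => ?_]
  · simp only [intervalIntegral.integral_const, smul_zero, add_zero]
    exact div_self (trapMass_pos hρ hρ').ne'
  · rw [uIcc_of_le hx] at hs
    exact trap_eq_zero hρ (Or.inr hs.1)

lemma ramp_mem_Icc (x : ℝ) : ramp ρ x ∈ Icc (0 : ℝ) 1 := by
  refine ⟨?_, ?_⟩
  · calc (0 : ℝ) = ramp ρ (min x 0) := (ramp_of_nonpos hρ (min_le_right _ _)).symm
      _ ≤ _ := monotone_ramp hρ hρ' (min_le_left _ _)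
  · calc ramp ρ x ≤ ramp ρ (max x 1) := monotone_ramp hρ hρ' (le_max_left _ _)
      _ = 1 := ramp_of_one_le hρ hρ' (le_max_right _ _)

/-- Composing with the ramp brings a function closer to an indicator, up to the slope. -/
lemma abs_ramp_sub_le (x : ℝ) {c : ℝ} (hc : c = 0 ∨ c = 1) :
    |ramp ρ x - c| ≤ slope ρ * |x - c| := by
  have hc' : ramp ρ c = c := by
    rcases hc with rfl | rfl
    · exact ramp_of_nonpos hρ le_rfl
    · exact ramp_of_one_le hρ hρ' le_rfl
  conv_lhs => rw [← hc']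
  simpa [Real.norm_eq_abs] using Convex.norm_image_sub_le_of_norm_deriv_le (s := Set.univ)
    (fun y _ => (hasDerivAt_ramp (ρ := ρ) y).differentiableAt)
    (fun y _ => abs_deriv_ramp_le hρ hρ' y) convex_univ (mem_univ c) (mem_univ x)

/-- The translates `ramp (N v - i)`: their mean is `v`, and at most one of them is strictly between
zero and one. -/
theorem sum_ramp_bounds (N : ℕ) {v : ℝ} (hv : v ∈ Icc (0 : ℝ) 1) :
    ((∑ i ∈ Finset.range N, |ramp ρ (N * v - i) - v|) ≤ 2 * N * (v * (1 - v)) + 2) ∧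
      (∑ i ∈ Finset.range N, ramp ρ (N * v - i) * (1 - ramp ρ (N * v - i))) ≤ 1 ∧
      (∑ i ∈ Finset.range N, |deriv (ramp ρ) (N * v - i)|) ≤ slope ρ := by
  have hNv : 0 ≤ (N : ℝ) * v := mul_nonneg (Nat.cast_nonneg _) hv.1
  set j := ⌊(N : ℝ) * v⌋₊
  have hj1 : (j : ℝ) ≤ N * v := Nat.floor_le hNv
  have hj2 : (N : ℝ) * v < j + 1 := Nat.lt_floor_add_one _
  have hlow : ∀ i : ℕ, i < j → (1 : ℝ) ≤ N * v - i := fun i hi => by
    have : (i : ℝ) + 1 ≤ j := by exact_mod_cast hi
    linarith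
  have hhigh : ∀ i : ℕ, j < i → (N : ℝ) * v - i ≤ 0 := fun i hi => by
    have : (j : ℝ) + 1 ≤ i := by exact_mod_cast hi
    linarith
  have hout : ∀ i : ℕ, i ≠ j → (N : ℝ) * v - i ≤ 0 ∨ 1 ≤ (N : ℝ) * v - i := fun i hi => by
    rcases lt_or_gt_of_ne hi with h | h
    · exact Or.inr (hlow i h)
    · exact Or.inl (hhigh i h)
  have hone : ∀ F : ℕ → ℝ, (∀ i, i ≠ j → F i = 0) → ∀ B, 0 ≤ B → F j ≤ B →
      ∑ i ∈ Finset.range N, F i ≤ B := by
    intro F hF B hB0 hB
    by_cases hjN : j ∈ Finset.range N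
    · rw [Finset.sum_eq_single j (fun i _ hi => hF i hi) (fun h => absurd hjN h)]; exact hB
    · rw [Finset.sum_eq_zero fun i hi => hF i fun h => hjN (h ▸ hi)]; exact hB0
  refine ⟨?_, ?_, ?_⟩
  · -- below the floor the term is `1 - v`, above it `v`
    have hterm : ∀ i : ℕ, |ramp ρ (N * v - i) - v| ≤
        (if i < j then 1 - v else v) + (if i = j then 1 else 0) := by
      intro i
      rcases lt_trichotomy i j with h | h | h
      · rw [ramp_of_one_le hρ hρ' (hlow i h), if_pos h, if_neg h.ne, abs_of_nonneg (by linarith [hv.2])]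
        simp
      · rw [if_neg h.not_lt, if_pos h]
        have := ramp_mem_Icc hρ hρ' (N * v - i)
        rw [abs_le]; constructor <;> linarith [this.1, this.2, hv.1, hv.2]
      · rw [ramp_of_nonpos hρ (hhigh i h), if_neg h.not_gt, if_neg h.ne', abs_of_nonpos (by linarith [hv.1])]
        simp
    refine (Finset.sum_le_sum fun i _ => hterm i).trans ?_
    rw [Finset.sum_add_distrib]
    have hjN : j ≤ N := Nat.floor_le_of_le (by
      calc (N : ℝ) * v ≤ N * 1 := mul_le_mul_of_nonneg_left hv.2 (Nat.cast_nonneg _)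
        _ = _ := mul_one _)
    have h1 : ∑ i ∈ Finset.range N, (if i < j then 1 - v else v) =
        j * (1 - v) + ((N : ℝ) - j) * v := by
      rw [← Finset.sum_range_add_sum_Ico _ hjN, Finset.sum_congr rfl fun i hi =>
        if_pos (Finset.mem_range.1 hi), Finset.sum_congr (s₁ := Finset.Ico j N) rfl fun i hi =>
        if_neg (Nat.not_lt.2 (Finset.mem_Ico.1 hi).1)]
      simp [Nat.cast_sub hjN]; ring
    have h2 : ∑ i ∈ Finset.range N, (if i = j then (1 : ℝ) else 0) ≤ 1 := by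
      rw [Finset.sum_ite_eq']; split <;> norm_num
    rw [h1]
    nlinarith [mul_le_mul_of_nonneg_right hj1 (by linarith [hv.2] : (0:ℝ) ≤ 1 - v),
      mul_le_mul_of_nonneg_right (by linarith : (N : ℝ) - j ≤ N * (1 - v) + 1) hv.1, hv.2]
  · refine hone _ (fun i hi => ?_) 1 zero_le_one ?_
    · rcases hout i hi with h | h
      · rw [ramp_of_nonpos hρ h]; simp
      · rw [ramp_of_one_le hρ hρ' h]; simp
    · have := ramp_mem_Icc hρ hρ' (N * v - j)
      nlinarith [this.1, this.2]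
  · refine hone _ (fun i hi => ?_) _ (slope_pos hρ hρ').le (abs_deriv_ramp_le hρ hρ' _)
    rw [deriv_ramp_eq_zero hρ (hout i hi), abs_zero]

end Vale.Agent.P219.CH
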