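import Vale.Agent.P219.CH.Basic
import Vale.Agent.P219.CH.Ramp

/-!
# Almost minimisers are almost indicators
-/

noncomputable section

open MeasureTheory Set Filter Topology Matrix

namespace Vale.Agent.P219.CH

variable {n : ℕ} {G : (Fin n → ℝ) → Matrix (Fin n) (Fin n) ℝ}
  {D : (Fin n → ℝ) → (Fin n → ℝ) → ℝ} {K : Set (Fin n → ℝ)} {ρ : ℝ}

/-- A lower chord bound for a concave power. -/
lemma rpow_ge_sub_abs {α V W : ℝ} (hα0 : 0 ≤ α) (hα1 : α ≤ 1) (hV : 0 < V) (hW : 0 ≤ W) :
    V ^ α - V ^ (α - 1) * |V - W| ≤ W ^ α := by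
  have hp : 0 ≤ V ^ (α - 1) * |V - W| := by positivity
  rcases le_total V W with h | h
  · linarith [Real.rpow_le_rpow hV.le h hα0]
  · have e : V ^ α - V ^ (α - 1) * |V - W| = W * V ^ (α - 1) := by
      rw [abs_of_nonneg (by linarith), Real.rpow_sub_one hV.ne']
      field_simp; ring
    rw [e]
    rcases eq_or_lt_of_le hW with rfl | hW0
    · rw [zero_mul]; positivity
    · calc W * V ^ (α - 1) ≤ W * W ^ (α - 1) :=
            mul_le_mul_of_nonneg_left (Real.rpow_le_rpow_of_nonpos hW0 h (by linarith)) hW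
        _ = W ^ α := by rw [Real.rpow_sub_one hW0.ne']; field_simp

lemma fderiv_ramp_comp {u : (Fin n → ℝ) → ℝ} (hu : ContDiff ℝ 1 u) (a b : ℝ) (y : Fin n → ℝ) :
    cd (fun z => ramp ρ (a * u z - b)) y = (deriv (ramp ρ) (a * u y - b) * a) • cd u y := by
  have h1 : HasFDerivAt (fun z => a * u z - b) (a • fderiv ℝ u y) y :=
    ((hu.differentiable one_ne_zero y).hasFDerivAt.const_mul a).sub_const b
  have h2 : HasFDerivAt (fun z => ramp ρ (a * u z - b)) _ y :=
    (hasDerivAt_ramp (ρ := ρ) _).comp_hasFDerivAt y h1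
  funext i
  simp only [cd, h2.fderiv, deriv_ramp, Pi.smul_apply, _root_.smul_apply, smul_eq_mul]
  ring

lemma comp_ramp (hρ : 0 < ρ) (hρ' : ρ ≤ 1 / 4) {v : (Fin n → ℝ) → ℝ} (hv : ContDiff ℝ 1 v)
    (hs : tsupport v ⊆ K) (a : ℝ) {b : ℝ} (hb : 0 ≤ b) :
    Comp K fun z => ramp ρ (a * v z - b) := by
  refine ⟨contDiff_ramp.comp ((contDiff_const.mul hv).sub contDiff_const), ?_,
    fun y => ramp_mem_Icc hρ hρ' _⟩
  refine (closure_mono fun y hy => ?_).trans hs
  simp only [Function.mem_support] at hy ⊢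
  exact fun h0 => hy (ramp_of_nonpos hρ (by rw [h0]; linarith))

lemma IsCH.integrable_gap (h : IsCH G D) (hK : IsCompact K) {u : (Fin n → ℝ) → ℝ} (hu : Comp K u) :
    Integrable fun y => u y * (1 - u y) * dens G y :=
  (hu.integrable hK (((continuous_const (y := (1 : ℝ))).sub hu.1.continuous).mul h.continuous_dens)).congr
    (Eventually.of_forall fun y => by simp only [Pi.mul_apply, Pi.sub_apply]; ring)

lemma IsCH.vol_nonneg (h : IsCH G D) {u : (Fin n → ℝ) → ℝ} (hu : ∀ y, u y ∈ Icc (0 : ℝ) 1) :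
    0 ≤ vol G u :=
  integral_nonneg fun y => mul_nonneg (hu y).1 (h.dens_pos y).le

/-- Cutting a competitor at `N` levels. -/
theorem IsCH.levels (h : IsCH G D) (hρ : 0 < ρ) (hρ' : ρ ≤ 1 / 4) (hK : IsCompact K)
    {u : (Fin n → ℝ) → ℝ} (hu : Comp K u) {N : ℕ} (hN : 0 < N) {J α : ℝ} {l M : ℝ} (hl : 0 ≤ l)
    (hM : 0 ≤ M) (hα0 : 0 ≤ α) (hα1 : α ≤ 1) (hV : 0 < vol G u)
    (hJ : ∀ w, Comp K w → J ≤ per G w - l * vol G w ^ α + M * gap G w) :
    J ≤ slope ρ * per G u - l * vol G u ^ α + M * (volG G K / N) +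
      l * vol G u ^ (α - 1) * (2 * gap G u + 2 * (volG G K / N)) := by
  set w : ℕ → (Fin n → ℝ) → ℝ := fun i z => ramp ρ (N * u z - i)
  have hw : ∀ i, Comp K (w i) := fun i => comp_ramp hρ hρ' hu.1 hu.2.1 _ (Nat.cast_nonneg i)
  have hN0 : (0 : ℝ) < N := by exact_mod_cast hN
  have hKint : Integrable (K.indicator (dens G)) :=
    (h.continuous_dens.continuousOn.integrableOn_compact hK).integrable_indicator hK.measurableSet
  have hKv : ∫ y, K.indicator (dens G) y = volG G K := integral_indicator hK.measurableSet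
  have hper : ∑ i ∈ Finset.range N, per G (w i) ≤ N * slope ρ * per G u := by
    have hi := fun i => h.integrable_mul_conorm hK (hw i) (continuous_const (y := (1 : ℝ)))
    simp only [one_mul] at hi
    unfold per
    rw [← integral_finsetSum _ fun i _ => hi i, ← integral_const_mul]
    refine integral_mono (integrable_finsetSum _ fun i _ => hi i)
      (h.integrable_mul_conorm hK hu continuous_const) fun y => ?_
    simp only [w, fderiv_ramp_comp hu.1, h.conorm_smul, abs_mul, Nat.abs_cast, ← Finset.sum_mul]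
    have := (sum_ramp_bounds hρ hρ' N (hu.2.2 y)).2.2
    have hc : 0 ≤ conorm G y (cd u y) * dens G y :=
      mul_nonneg (conorm_nonneg y _) (h.dens_pos y).le
    nlinarith [mul_le_mul_of_nonneg_left this (mul_nonneg hN0.le hc)]
  have hgap : ∑ i ∈ Finset.range N, gap G (w i) ≤ volG G K := by
    unfold gap
    rw [← integral_finsetSum _ fun i _ => h.integrable_gap hK (hw i), ← hKv]
    refine integral_mono (integrable_finsetSum _ fun i _ => h.integrable_gap hK (hw i)) hKint
      fun y => ?_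
    rw [← Finset.sum_mul]
    by_cases hy : y ∈ K
    · rw [Set.indicator_of_mem hy]
      exact mul_le_of_le_one_left (h.dens_pos y).le (sum_ramp_bounds hρ hρ' N (hu.2.2 y)).2.1
    · rw [Set.indicator_of_notMem hy, Finset.sum_eq_zero fun i _ => by
        rw [image_eq_zero_of_notMem_tsupport fun hs => hy ((hw i).2.1 hs)]; ring, zero_mul]
  have hvol : ∑ i ∈ Finset.range N, |vol G u - vol G (w i)| ≤
      2 * N * gap G u + 2 * volG G K := by
    have hd : ∀ i, Integrable fun y => |w i y - u y| * dens G y := fun i =>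
      (((hw i).integrable hK h.continuous_dens).sub (hu.integrable hK h.continuous_dens)).abs.congr
        (Eventually.of_forall fun y => by
          simp only [Pi.sub_apply, ← sub_mul, abs_mul, abs_of_pos (h.dens_pos y)])
    calc ∑ i ∈ Finset.range N, |vol G u - vol G (w i)|
        ≤ ∑ i ∈ Finset.range N, ∫ y, |w i y - u y| * dens G y := by
          refine Finset.sum_le_sum fun i _ => ?_
          rw [abs_sub_comm, vol, vol, ← integral_sub ((hw i).integrable hK h.continuous_dens)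
            (hu.integrable hK h.continuous_dens)]
          refine abs_integral_le_integral_abs.trans (le_of_eq (integral_congr_ae
            (Eventually.of_forall fun y => ?_)))
          simp only [← sub_mul, abs_mul, abs_of_pos (h.dens_pos y)]
      _ ≤ _ := by
          rw [← integral_finsetSum _ fun i _ => hd i, gap, ← integral_const_mul, ← hKv,
            ← integral_const_mul 2, ← integral_add ((h.integrable_gap hK hu).const_mul _)
              (hKint.const_mul _)]
          refine integral_mono (integrable_finsetSum _ fun i _ => hd i)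
            (((h.integrable_gap hK hu).const_mul _).add (hKint.const_mul _)) fun y => ?_
          rw [← Finset.sum_mul]
          by_cases hy : y ∈ K
          · rw [Set.indicator_of_mem hy]
            have := mul_le_mul_of_nonneg_right (sum_ramp_bounds hρ hρ' N (hu.2.2 y)).1
              (h.dens_pos y).le
            simp only [w]
            linarith
          · have hu0 : u y = 0 := image_eq_zero_of_notMem_tsupport fun hs => hy (hu.2.1 hs)
            rw [Set.indicator_of_notMem hy, Finset.sum_eq_zero fun i _ => by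
              rw [hu0, image_eq_zero_of_notMem_tsupport fun hs => hy ((hw i).2.1 hs)]; simp, hu0]
            simp
  have hsum : ∑ i ∈ Finset.range N, J ≤ ∑ i ∈ Finset.range N, (per G (w i) + M * gap G (w i)
      + l * vol G u ^ (α - 1) * |vol G u - vol G (w i)| - l * vol G u ^ α) := by
    refine Finset.sum_le_sum fun i _ => (hJ _ (hw i)).trans ?_
    have := mul_le_mul_of_nonneg_left
      (rpow_ge_sub_abs hα0 hα1 hV (h.vol_nonneg (hw i).2.2)) hl
    linarith
  rw [Finset.sum_sub_distrib, Finset.sum_add_distrib, Finset.sum_add_distrib, ← Finset.mul_sum,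
    ← Finset.mul_sum] at hsum
  simp only [Finset.sum_const, Finset.card_range, nsmul_eq_mul] at hsum
  have h1 := mul_le_mul_of_nonneg_left hgap hM
  have h2 := mul_le_mul_of_nonneg_left hvol (mul_nonneg hl (Real.rpow_nonneg hV.le (α - 1)))
  refine le_of_mul_le_mul_left ?_ hN0
  have e : (N : ℝ) * (slope ρ * per G u - l * vol G u ^ α + M * (volG G K / N) +
      l * vol G u ^ (α - 1) * (2 * gap G u + 2 * (volG G K / N))) =
      N * slope ρ * per G u - N * (l * vol G u ^ α) + M * volG G K +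
        l * vol G u ^ (α - 1) * (2 * N * gap G u + 2 * volG G K) := by
    field_simp
  rw [e]
  linarith

/-- A set with perimeter at most `A` has competitors with nearly the same data. -/
theorem IsCH.exists_competitor (h : IsCH G D) (hρ : 0 < ρ) (hρ' : ρ ≤ 1 / 4) (hK : IsCompact K)
    {Ω S : Set (Fin n → ℝ)} (hΩ : MeasurableSet Ω) (hΩK : Ω ⊆ K) (hSK : S ⊆ K)
    {v : ℕ → (Fin n → ℝ) → ℝ} {A : ℝ} (hv : ∀ j, ContDiff ℝ 1 (v j) ∧ tsupport (v j) ⊆ S)
    (hlim : Tendsto (fun j => ∫ y, |v j y - Ω.indicator 1 y|) atTop (𝓝 0))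
    (hA : ∀ j, ∫ y, conorm G y (cd (v j) y) * dens G y ≤ A) :
    ∀ η : ℝ, 0 < η → ∃ w, Comp K w ∧ per G w ≤ slope ρ * A ∧ gap G w ≤ η ∧
      |vol G w - volG G Ω| ≤ η := by
  intro η hη
  obtain ⟨B, hB0, hB⟩ : ∃ B : ℝ, 0 ≤ B ∧ ∀ y ∈ K, dens G y ≤ B := by
    obtain ⟨B, hB⟩ := hK.bddAbove_image h.continuous_dens.continuousOn
    exact ⟨max B 0, le_max_right _ _, fun y hy => (hB ⟨y, hy, rfl⟩).trans (le_max_left _ _)⟩
  have hs := slope_pos hρ hρ'
  obtain ⟨j, hj⟩ := ((tendsto_order.1 hlim).2 (η / (slope ρ * B + 1)) (by positivity)).exists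
  set w : (Fin n → ℝ) → ℝ := fun z => ramp ρ (1 * v j z - 0)
  have hsup : tsupport (v j) ⊆ K := (hv j).2.trans hSK
  have hw : Comp K w := comp_ramp hρ hρ' (hv j).1 hsup 1 le_rfl
  set f : (Fin n → ℝ) → ℝ := fun y => |v j y - Ω.indicator 1 y|
  have hvi : Integrable (v j) := by
    refine Continuous.integrable_of_hasCompactSupport (hv j).1.continuous ?_
    exact HasCompactSupport.intro hK fun y hy =>
      image_eq_zero_of_notMem_tsupport fun hs => hy (hsup hs)
  have hΩi : Integrable (Ω.indicator (1 : (Fin n → ℝ) → ℝ)) :=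
    (integrableOn_const (μ := volume) (s := Ω) (C := (1 : ℝ))
      (((measure_mono hΩK).trans_lt hK.measure_lt_top).ne)).integrable_indicator hΩ
  have hf : Integrable f := (hvi.sub hΩi).abs
  have hpt : ∀ y, w y * (1 - w y) * dens G y ≤ slope ρ * B * f y ∧
      |w y * dens G y - Ω.indicator (dens G) y| ≤ slope ρ * B * f y := by
    intro y
    by_cases hy : y ∈ K
    · have hc : Ω.indicator (1 : (Fin n → ℝ) → ℝ) y = 0 ∨
          Ω.indicator (1 : (Fin n → ℝ) → ℝ) y = 1 := by
        by_cases hm : y ∈ Ω <;> simp [hm]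
      have e : Ω.indicator (dens G) y = Ω.indicator (1 : (Fin n → ℝ) → ℝ) y * dens G y := by
        by_cases hm : y ∈ Ω <;> simp [hm]
      have h1 := abs_ramp_sub_le hρ hρ' (v j y) hc
      have hw' : w y = ramp ρ (v j y) := by simp [w]
      have h2 : |w y - Ω.indicator (1 : (Fin n → ℝ) → ℝ) y| * dens G y ≤ slope ρ * B * f y := by
        calc _ ≤ slope ρ * f y * B := by
              rw [hw']; exact mul_le_mul h1 (hB y hy) (h.dens_pos y).le
                (mul_nonneg hs.le (abs_nonneg _))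
          _ = _ := by ring
      refine ⟨le_trans (mul_le_mul_of_nonneg_right ?_ (h.dens_pos y).le) h2, ?_⟩
      · have := hw.2.2 y
        rcases hc with hc | hc <;> rw [hc]
        · rw [sub_zero, abs_of_nonneg this.1]; exact mul_le_of_le_one_right this.1 (by linarith [this.1])
        · rw [abs_of_nonpos (by linarith [this.2]), neg_sub]
          exact mul_le_of_le_one_left (by linarith [this.2]) this.2
      · rw [e, ← sub_mul, abs_mul, abs_of_pos (h.dens_pos y)]; exact h2
    · have hw0 : w y = 0 := image_eq_zero_of_notMem_tsupport fun hs => hy (hw.2.1 hs)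
      have hm : y ∉ Ω := fun hm => hy (hΩK hm)
      have : 0 ≤ slope ρ * B * f y := by positivity
      simpa [hw0, hm] using this
  have hsmall : slope ρ * B * ∫ y, f y ≤ η := by
    calc slope ρ * B * ∫ y, f y ≤ (slope ρ * B + 1) * (η / (slope ρ * B + 1)) :=
          mul_le_mul (by linarith) hj.le (integral_nonneg fun y => abs_nonneg _) (by positivity)
      _ = η := by field_simp
  refine ⟨w, hw, ?_, ?_, ?_⟩
  · have hi : Integrable fun y => conorm G y (cd (v j) y) * dens G y := by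
      refine Continuous.integrable_of_hasCompactSupport
        ((h.continuous_conorm_cd (hv j).1).mul h.continuous_dens) ?_
      refine HasCompactSupport.intro hK fun y hy => ?_
      rw [cd_eq_zero_of_notMem fun hs => hy (hsup hs), conorm_zero, zero_mul]
    refine le_trans ?_ (mul_le_mul_of_nonneg_left (hA j) hs.le)
    rw [per, ← integral_const_mul]
    refine integral_mono (by simpa using h.integrable_mul_conorm hK hw (continuous_const (y := (1 : ℝ))))
      (hi.const_mul _) fun y => ?_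
    simp only [w, fderiv_ramp_comp (hv j).1, h.conorm_smul, mul_one]
    have h1 := mul_le_mul_of_nonneg_right (abs_deriv_ramp_le hρ hρ' (1 * v j y - 0))
      (mul_nonneg (conorm_nonneg (G := G) y (cd (v j) y)) (h.dens_pos y).le)
    linarith
  · refine le_trans ?_ hsmall
    rw [gap, ← integral_const_mul]
    exact integral_mono (h.integrable_gap hK hw) (hf.const_mul _) fun y => (hpt y).1
  · refine le_trans ?_ hsmall
    have hΩd : Integrable (Ω.indicator (dens G)) :=
      ((h.continuous_dens.continuousOn.integrableOn_compact hK).mono_set hΩK).integrable_indicator hΩ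
    rw [vol, volG, ← integral_indicator hΩ, ← integral_sub (hw.integrable hK h.continuous_dens) hΩd,
      ← integral_const_mul]
    exact abs_integral_le_integral_abs.trans
      (integral_mono ((hw.integrable hK h.continuous_dens).sub hΩd).abs (hf.const_mul _)
        fun y => (hpt y).2)

/-- Almost minimisers of the penalised functional. -/
theorem minPin (n : ℕ) : MinPin n := by
  intro hn G D h Ω A l hΩ hΩb hP hl hlt o
  obtain ⟨S, v, hS, hv, hlim, hA⟩ := hP
  obtain ⟨α, hα⟩ : ∃ α : ℝ, α = ((n : ℝ) - 1) / n := ⟨_, rfl⟩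
  rw [← hα] at hlt ⊢
  have hn2 : (2 : ℝ) ≤ n := by exact_mod_cast hn
  have hα0 : 0 < α := by rw [hα]; exact div_pos (by linarith) (by linarith)
  have hα1 : α ≤ 1 := by rw [hα, div_le_one (by linarith)]; linarith
  obtain ⟨R, hR, hSK, hΩK⟩ : ∃ R : ℝ, 0 < R ∧ S ⊆ {y | D o y ≤ R} ∧ Ω ⊆ {y | D o y ≤ R} := by
    obtain ⟨B, hB⟩ := (hS.union hΩb.isCompact_closure).bddAbove_image
      ((h.contDiff_D o).continuous.continuousOn)
    exact ⟨max B 1, by positivity,
      fun y hy => (hB ⟨y, Or.inl hy, rfl⟩).trans (le_max_left _ _),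
      fun y hy => (hB ⟨y, Or.inr (subset_closure hy), rfl⟩).trans (le_max_left _ _)⟩
  set K : Set (Fin n → ℝ) := {y | D o y ≤ R} with hKdef
  have hK : IsCompact K := h.proper o R
  have hA0 : 0 ≤ A := (h.per_nonneg (v 0)).trans (hA 0)
  obtain ⟨X, hX⟩ : ∃ X : ℝ, X = volG G Ω ^ α := ⟨_, rfl⟩
  rw [← hX] at hlt
  obtain ⟨b, hb⟩ : ∃ b : ℝ, b = l * X - A := ⟨_, rfl⟩
  have hb0 : 0 < b := by linarith
  obtain ⟨v₀, hv₀d⟩ : ∃ z : ℝ, z = (b / (4 * l)) ^ (1 / α) := ⟨_, rfl⟩
  have hv₀ : 0 < v₀ := by rw [hv₀d]; positivity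
  obtain ⟨M, hMd⟩ : ∃ z : ℝ, z = 2 * l * v₀ ^ (α - 1) + 1 := ⟨_, rfl⟩
  have hM : 0 < M := by rw [hMd]; positivity
  obtain ⟨P₀, hP₀⟩ : ∃ z : ℝ, z = l * volG G K ^ α := ⟨_, rfl⟩
  have hVK : 0 ≤ volG G K := setIntegral_nonneg hK.measurableSet fun y _ => (h.dens_pos y).le
  have hP₀' : 0 ≤ P₀ := by rw [hP₀]; positivity
  refine ⟨R, M, P₀, v₀, hR, hM.le, hP₀', hv₀, fun δ hδ => ?_⟩
  -- a good competitor
  have hc : ∃ w, Comp K w ∧ per G w - l * vol G w ^ α + M * gap G w ≤ -(b / 2) := by
    have hg : Tendsto (fun η : ℝ => (1 + 4 * η) * A - l * (max (volG G Ω - η) 0) ^ α + M * η)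
        (𝓝[>] 0) (𝓝 ((1 + 4 * 0) * A - l * (max (volG G Ω - 0) 0) ^ α + M * 0)) :=
      (Continuous.tendsto (((continuous_const.add (continuous_const.mul continuous_id)).mul
        continuous_const).sub (continuous_const.mul (((continuous_const.sub continuous_id).max
        continuous_const).rpow_const fun _ => Or.inr hα0.le)) |>.add
        (continuous_const.mul continuous_id)) 0).mono_left nhdsWithin_le_nhds
    have hΩ0 : 0 ≤ volG G Ω := setIntegral_nonneg hΩ fun y _ => (h.dens_pos y).le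
    have hlim0 : (1 + 4 * 0) * A - l * (max (volG G Ω - 0) 0) ^ α + M * 0 < -(b / 2) := by
      rw [sub_zero, max_eq_left hΩ0, ← hX]; linarith
    obtain ⟨η, hη, hηpos, hη4⟩ := (((tendsto_order.1 hg).2 _ hlim0).and
      ((eventually_mem_nhdsWithin (s := Ioi (0 : ℝ))).and
        (eventually_nhdsWithin_of_eventually_nhds (eventually_le_nhds (by norm_num : (0:ℝ) < 1/4))))).exists
    obtain ⟨w, hw, hwp, hwg, hwv⟩ := h.exists_competitor hηpos hη4 hK hΩ hΩK hSK hv hlim hA η hηpos
    refine ⟨w, hw, le_trans ?_ hη.le⟩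
    have h1 := mul_le_mul_of_nonneg_right (slope_le hηpos hη4) hA0
    have h2 : (max (volG G Ω - η) 0) ^ α ≤ vol G w ^ α := Real.rpow_le_rpow (le_max_right _ _)
      (max_le (by linarith [(abs_le.1 hwv).1]) (h.vol_nonneg hw.2.2)) hα0.le
    have h3 := mul_le_mul_of_nonneg_left h2 hl.le
    have h4 := mul_le_mul_of_nonneg_left hwg hM.le
    linarith
  obtain ⟨w₀, hw₀, hw₀J⟩ := hc
  set J : ((Fin n → ℝ) → ℝ) → ℝ := fun w => per G w - l * vol G w ^ α + M * gap G w
  set Z := J '' {w | Comp K w}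
  have hne : Z.Nonempty := ⟨J w₀, w₀, hw₀, rfl⟩
  have hbdd : BddBelow Z := ⟨-P₀, by
    rintro z ⟨w, hw, rfl⟩
    have h1 := mul_le_mul_of_nonneg_left
      (Real.rpow_le_rpow (h.vol_nonneg hw.2.2) (h.vol_le hK hw) hα0.le) hl.le
    have h2 := mul_nonneg hM.le (h.gap_nonneg hw.2.2)
    have h3 := h.per_nonneg w
    simp only [J]; rw [hP₀]; linarith⟩
  obtain ⟨δ₁, hδ₁d⟩ : ∃ z : ℝ, z = min δ (min (δ / 4) (b / 4)) := ⟨_, rfl⟩
  have hδ₁ : 0 < δ₁ := by rw [hδ₁d]; positivity
  obtain ⟨z, ⟨u, hu, rfl⟩, hz⟩ := Real.lt_sInf_add_pos hne hδ₁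
  have hopt : ∀ w, Comp K w → J u ≤ J w + δ₁ := fun w hw => by
    linarith [csInf_le hbdd (⟨w, hw, rfl⟩ : J w ∈ Z)]
  have hgap0 := h.gap_nonneg (G := G) hu.2.2
  have hper0 := h.per_nonneg u
  have hMg := mul_nonneg hM.le hgap0
  have hd1 : δ₁ ≤ δ ∧ δ₁ ≤ δ / 4 ∧ δ₁ ≤ b / 4 := by
    rw [hδ₁d]
    exact ⟨min_le_left _ _, (min_le_right _ _).trans (min_le_left _ _),
      (min_le_right _ _).trans (min_le_right _ _)⟩
  have hJu : per G u - l * vol G u ^ α + M * gap G u ≤ -(b / 4) := by
    have := hopt w₀ hw₀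
    simp only [J] at this
    linarith
  have hVu : v₀ ≤ vol G u := by
    have h1 : b / (4 * l) ≤ vol G u ^ α := by
      rw [div_le_iff₀ (by positivity)]; linarith
    calc v₀ ≤ (vol G u ^ α) ^ (1 / α) := by
          rw [hv₀d]; exact Real.rpow_le_rpow (by positivity) h1 (by positivity)
      _ = vol G u := by
          rw [← Real.rpow_mul (h.vol_nonneg hu.2.2), mul_one_div_cancel hα0.ne', Real.rpow_one]
  have hPV : per G u ≤ l * vol G u ^ α := by linarith
  have hPu : per G u ≤ P₀ := by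
    rw [hP₀]
    exact hPV.trans (mul_le_mul_of_nonneg_left
      (Real.rpow_le_rpow (h.vol_nonneg hu.2.2) (h.vol_le hK hu) hα0.le) hl.le)
  refine ⟨u, hu, hPu, hVu, ?_, hPV, fun w hw => (hopt w hw).trans (by simp only [J]; linarith)⟩
  -- almost an indicator
  obtain ⟨ρ, hρ, hρ', hρP⟩ : ∃ ρ : ℝ, 0 < ρ ∧ ρ ≤ 1 / 4 ∧ 4 * ρ * P₀ ≤ δ / 4 := by
    refine ⟨min (1 / 4) (δ / (16 * (P₀ + 1))), lt_min (by norm_num) (by positivity),
      min_le_left _ _, ?_⟩
    have h1 := (le_div_iff₀ (by positivity)).1 (min_le_right (1 / 4 : ℝ) (δ / (16 * (P₀ + 1))))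
    nlinarith [lt_min (by norm_num : (0:ℝ) < 1/4) (by positivity : (0:ℝ) < δ / (16 * (P₀ + 1)))]
  obtain ⟨N, hN⟩ := exists_nat_gt ((M + 2 * (l * v₀ ^ (α - 1))) * volG G K / (δ / 4))
  have hN0' : 0 < (N : ℝ) := lt_of_le_of_lt (by positivity) hN
  have hN0 : 0 < N := by exact_mod_cast hN0'
  have hV0 : 0 < vol G u := hv₀.trans_le hVu
  have hlev := h.levels hρ hρ' hK hu hN0 (J := J u - δ₁) (α := α) hl.le hM.le hα0.le hα1 hV0
    fun w hw => by linarith [hopt w hw]
  simp only [J] at hlev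
  have hq : (M + 2 * (l * v₀ ^ (α - 1))) * (volG G K / N) ≤ δ / 4 := by
    rw [← mul_div_assoc, div_le_iff₀ hN0']
    rw [div_lt_iff₀ (by positivity)] at hN
    linarith
  have hs : slope ρ * per G u ≤ per G u + δ / 4 := by
    have := mul_le_mul_of_nonneg_right (slope_le hρ hρ') hper0
    have := mul_le_mul_of_nonneg_left hPu (by linarith : (0:ℝ) ≤ 4 * ρ)
    linarith
  have hpow : l * vol G u ^ (α - 1) ≤ l * v₀ ^ (α - 1) :=
    mul_le_mul_of_nonneg_left (Real.rpow_le_rpow_of_nonpos hv₀ hVu (by linarith)) hl.le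
  have hg2 := mul_le_mul_of_nonneg_right hpow
    (by positivity : (0:ℝ) ≤ 2 * gap G u + 2 * (volG G K / N))
  have e : M * gap G u - l * v₀ ^ (α - 1) * (2 * gap G u) = gap G u := by rw [hMd]; ring
  linarith

end Vale.Agent.P219.CH
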