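import Vale.Agent.P219.CH.Basic
import Mathlib.Analysis.Matrix.Order
import Mathlib.LinearAlgebra.Matrix.Charpoly.Coeff

/-!
# The pointwise first variation of the weighted length of a covector

The derivative at `t = 0` of `conorm (y, ξ ∘ (1 + tL)) dens y - det (1 + tL) dens (y + tv) conorm
(y + tv, ξ)`, and its bound for the Gaussian gradient field.
-/

noncomputable section

open MeasureTheory Set Filter Topology Matrix

namespace Vale.Agent.P219.CH

variable {n : ℕ} {G : (Fin n → ℝ) → Matrix (Fin n) (Fin n) ℝ}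
  {D : (Fin n → ℝ) → (Fin n → ℝ) → ℝ}

/-- The standard basis vector. -/
def ev (a : Fin n) : Fin n → ℝ := Pi.single a 1

/-- The matrix of a linear map. -/
def opMat (L : (Fin n → ℝ) →L[ℝ] (Fin n → ℝ)) : Matrix (Fin n) (Fin n) ℝ :=
  Matrix.of fun a b => L (ev b) a

/-- The covector `ξ ∘ L`. -/
def pull (L : (Fin n → ℝ) →L[ℝ] (Fin n → ℝ)) (ξ : Fin n → ℝ) : Fin n → ℝ :=
  fun b => ξ ⬝ᵥ L (ev b)

lemma sum_ev (v : Fin n → ℝ) : ∑ i, v i • ev i = v := by
  funext j; simp [ev, Finset.sum_apply, Pi.single_apply]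

lemma clm_eq_sum {F : Type*} [NormedAddCommGroup F] [NormedSpace ℝ F]
    (L : (Fin n → ℝ) →L[ℝ] F) (v : Fin n → ℝ) : L v = ∑ i, v i • L (ev i) := by
  conv_lhs => rw [← sum_ev v]
  simp [map_sum, map_smul]

lemma pull_dotProduct (L : (Fin n → ℝ) →L[ℝ] (Fin n → ℝ)) (ξ v : Fin n → ℝ) :
    pull L ξ ⬝ᵥ v = ξ ⬝ᵥ L v := by
  rw [clm_eq_sum L v, dotProduct_sum]
  simp only [pull, dotProduct, Pi.smul_apply, smul_eq_mul, Finset.sum_mul]
  exact Finset.sum_congr rfl fun i _ => Finset.sum_congr rfl fun j _ => by ring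

lemma det_eq_det_opMat (L : (Fin n → ℝ) →L[ℝ] (Fin n → ℝ)) :
    L.det = (opMat L).det := by
  rw [ContinuousLinearMap.det, ← LinearMap.det_toMatrix']
  congr 1

lemma det_id_add_smul (t : ℝ) (L : (Fin n → ℝ) →L[ℝ] (Fin n → ℝ)) :
    (ContinuousLinearMap.id ℝ (Fin n → ℝ) + t • L).det = (1 + t • opMat L).det := by
  rw [det_eq_det_opMat]
  congr 1
  ext a b
  simp [opMat, ev, Matrix.one_apply, Pi.single_apply]

lemma hasDerivAt_det_one_add_smul (A : Matrix (Fin n) (Fin n) ℝ) :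
    HasDerivAt (fun t : ℝ => (1 + t • A).det) A.trace 0 := by
  have h : (fun t : ℝ => (1 + t • A).det) = fun t : ℝ => 1 + A.trace * t +
      (det (1 + (Polynomial.X : Polynomial ℝ) • A.map Polynomial.C)).divX.divX.eval t * t ^ 2 :=
    funext fun t => det_one_add_smul t A
  rw [h]
  set p := (det (1 + (Polynomial.X : Polynomial ℝ) • A.map Polynomial.C)).divX.divX
  have h1 := (((hasDerivAt_id (0 : ℝ)).const_mul A.trace).const_add 1).add
    ((p.hasDerivAt 0).mul (hasDerivAt_pow 2 (0 : ℝ)))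
  exact h1.congr_deriv (by simp)

lemma hasDerivAt_det_comp {N : ℝ → Matrix (Fin n) (Fin n) ℝ} {N' : Matrix (Fin n) (Fin n) ℝ}
    (h0 : N 0 = 1) (hN : ∀ a b, HasDerivAt (fun t => N t a b) (N' a b) 0) :
    HasDerivAt (fun t => (N t).det) N'.trace 0 := by
  set f : (Fin n → Fin n → ℝ) → ℝ := fun A => (Matrix.of A).det with hf
  have hfd : ContDiff ℝ 1 f := contDiff_det_of_entries fun a b => by
    simpa using contDiff_pi.1 (contDiff_apply ℝ (Fin n → ℝ) (n := 1) a) b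
  set one : Fin n → Fin n → ℝ := fun a b => (1 : Matrix (Fin n) (Fin n) ℝ) a b with hone
  have hd : HasFDerivAt f (fderiv ℝ f one) one :=
    ((hfd.differentiable one_ne_zero) one).hasFDerivAt
  have hL : fderiv ℝ f one (fun a b => N' a b) = N'.trace := by
    have hc : HasDerivAt (fun t : ℝ => fun a b => one a b + t * N' a b) (fun a b => N' a b) 0 :=
      hasDerivAt_pi.2 fun a => hasDerivAt_pi.2 fun b => by
        simpa using ((hasDerivAt_id (0 : ℝ)).mul_const (N' a b)).const_add (one a b)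
    refine (hd.comp_hasDerivAt_of_eq 0 hc (by funext a b; simp)).unique ?_
    refine (hasDerivAt_det_one_add_smul N').congr_of_eventuallyEq (Eventually.of_forall fun t => ?_)
    simp only [hf, Function.comp]
    congr 1
  have hc : HasDerivAt (fun t : ℝ => fun a b => N t a b) (fun a b => N' a b) 0 :=
    hasDerivAt_pi.2 fun a => hasDerivAt_pi.2 fun b => hN a b
  have := hd.comp_hasDerivAt_of_eq 0 hc (by funext a b; simp [hone, h0])
  rw [hL] at this
  exact this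

lemma hasDerivAt_line (y v : Fin n → ℝ) : HasDerivAt (fun t : ℝ => y + t • v) v 0 := by
  simpa using ((hasDerivAt_id (0 : ℝ)).smul_const v).const_add y

lemma IsCH.hasDerivAt_entry (h : IsCH G D) (y v : Fin n → ℝ) (a b : Fin n) :
    HasDerivAt (fun t : ℝ => G (y + t • v) a b) (dG G y v a b) 0 := by
  have hd := ((h.smooth_metric a b).differentiable one_ne_zero y).hasFDerivAt
  exact hd.comp_hasDerivAt_of_eq 0 (hasDerivAt_line y v) (by simp)

lemma IsCH.dG_symm (h : IsCH G D) (y v : Fin n → ℝ) (a b : Fin n) :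
    dG G y v a b = dG G y v b a := by
  have : (fun z => G z a b) = fun z => G z b a :=
    funext fun z => by simpa using ((h.posDef z).isHermitian.apply a b).symm
  simp only [dG, Matrix.of_apply, this]

lemma IsCH.hasDerivAt_dens (h : IsCH G D) (y v : Fin n → ℝ) :
    HasDerivAt (fun t : ℝ => dens G (y + t • v))
      (dens G y * ((G y)⁻¹ * dG G y v).trace / 2) 0 := by
  have hu : IsUnit (G y).det := (h.det_pos y).ne'.isUnit
  have hN : ∀ a b, HasDerivAt (fun t : ℝ => ((G y)⁻¹ * G (y + t • v)) a b)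
      (((G y)⁻¹ * dG G y v) a b) 0 := fun a b => by
    simp only [Matrix.mul_apply]
    exact HasDerivAt.fun_sum fun c _ => (h.hasDerivAt_entry y v c b).const_mul _
  have h1 := (hasDerivAt_det_comp (by simp [Matrix.nonsing_inv_mul _ hu]) hN).const_mul (G y).det
  have h2 : HasDerivAt (fun t : ℝ => (G (y + t • v)).det)
      ((G y).det * ((G y)⁻¹ * dG G y v).trace) 0 := by
    refine h1.congr_of_eventuallyEq (Eventually.of_forall fun t => ?_)
    beta_reduce
    rw [← Matrix.det_mul, ← Matrix.mul_assoc, Matrix.mul_nonsing_inv _ hu, Matrix.one_mul]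
  have h3 := h2.sqrt (by simpa using (h.det_pos y).ne')
  refine h3.congr_deriv ?_
  simp only [zero_smul, add_zero, dens]
  have hs := Real.mul_self_sqrt (h.det_pos y).le
  have hs0 := (Real.sqrt_pos.2 (h.det_pos y)).ne'
  field_simp
  linear_combination (-((G y)⁻¹ * dG G y v).trace) * hs

lemma IsCH.mulVec_inv (h : IsCH G D) (y ξ : Fin n → ℝ) : G y *ᵥ ((G y)⁻¹ *ᵥ ξ) = ξ := by
  rw [mulVec_mulVec, Matrix.mul_nonsing_inv _ (h.det_pos y).ne'.isUnit, one_mulVec]

lemma IsCH.inv_mulVec (h : IsCH G D) (y v : Fin n → ℝ) : (G y)⁻¹ *ᵥ (G y *ᵥ v) = v := by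
  rw [mulVec_mulVec, Matrix.nonsing_inv_mul _ (h.det_pos y).ne'.isUnit, one_mulVec]

/-- If `G η = ξ` along a curve then `G η' = ξ' - G' η`. -/
lemma IsCH.mulVec_deriv (h : IsCH G D) (y v : Fin n → ℝ) {η ξ : ℝ → Fin n → ℝ}
    {η' ξ' : Fin n → ℝ} (hη : HasDerivAt η η' 0) (hξ : HasDerivAt ξ ξ' 0)
    (he : ∀ t, G (y + t • v) *ᵥ η t = ξ t) :
    η' = (G y)⁻¹ *ᵥ (ξ' - dG G y v *ᵥ η 0) := by
  have h1 : HasDerivAt ξ (dG G y v *ᵥ η 0 + G y *ᵥ η') 0 := by
    refine hasDerivAt_pi.2 fun a => ?_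
    have h2 : HasDerivAt (fun t : ℝ => ∑ b, G (y + t • v) a b * η t b)
        (∑ b, (dG G y v a b * η 0 b + G y a b * η' b)) 0 := by
      refine HasDerivAt.fun_sum fun b _ => ?_
      exact ((h.hasDerivAt_entry y v a b).mul (hasDerivAt_pi.1 hη b)).congr_deriv (by simp)
    refine (h2.congr_deriv (by simp [Finset.sum_add_distrib, mulVec, dotProduct])).congr_of_eventuallyEq
      (Eventually.of_forall fun t => ?_)
    exact (congrFun (he t) a).symm
  rw [← h1.unique hξ, add_sub_cancel_left, h.inv_mulVec]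

lemma IsCH.differentiable_inv_mulVec (h : IsCH G D) {f : (Fin n → ℝ) → Fin n → ℝ}
    (hf : ContDiff ℝ 1 f) : ContDiff ℝ 1 fun z => (G z)⁻¹ *ᵥ f z := by
  refine contDiff_pi.2 fun a => ?_
  simp only [mulVec, dotProduct]
  exact ContDiff.sum fun b _ => (h.contDiff_inv a b).mul ((contDiff_apply ℝ ℝ b).comp hf)

lemma IsCH.hasDerivAt_pairing_line (h : IsCH G D) (y v ξ : Fin n → ℝ) :
    HasDerivAt (fun t : ℝ => pairing G (y + t • v) ξ ξ)
      (-(((G y)⁻¹ *ᵥ ξ) ⬝ᵥ (dG G y v *ᵥ ((G y)⁻¹ *ᵥ ξ)))) 0 := by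
  have hη : HasDerivAt (fun t : ℝ => (G (y + t • v))⁻¹ *ᵥ ξ)
      (fderiv ℝ (fun z => (G z)⁻¹ *ᵥ ξ) y v) 0 :=
    (((h.differentiable_inv_mulVec contDiff_const).differentiable one_ne_zero y).hasFDerivAt
      ).comp_hasDerivAt_of_eq 0 (hasDerivAt_line y v) (by simp)
  have he := h.mulVec_deriv y v hη (hasDerivAt_const (0 : ℝ) ξ) fun t => h.mulVec_inv _ _
  simp only [zero_smul, add_zero, zero_sub, mulVec_neg] at he
  rw [he] at hη
  have : HasDerivAt (fun t : ℝ => ∑ a, ξ a * ((G (y + t • v))⁻¹ *ᵥ ξ) a)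
      (∑ a, ξ a * (-((G y)⁻¹ *ᵥ (dG G y v *ᵥ ((G y)⁻¹ *ᵥ ξ)))) a) 0 :=
    HasDerivAt.fun_sum fun a _ => (hasDerivAt_pi.1 hη a).const_mul _
  refine this.congr_deriv ?_
  have e := h.pairing_comm y ξ (dG G y v *ᵥ ((G y)⁻¹ *ᵥ ξ))
  unfold pairing at e
  rw [dotProduct_comm (dG G y v *ᵥ ((G y)⁻¹ *ᵥ ξ))] at e
  rw [show (∑ a, ξ a * (-((G y)⁻¹ *ᵥ (dG G y v *ᵥ ((G y)⁻¹ *ᵥ ξ)))) a)
    = ξ ⬝ᵥ (-((G y)⁻¹ *ᵥ (dG G y v *ᵥ ((G y)⁻¹ *ᵥ ξ)))) from rfl, dotProduct_neg, e]

/-- Length of the pulled back covector minus the transported length. -/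
def defect (G : (Fin n → ℝ) → Matrix (Fin n) (Fin n) ℝ) (y v : Fin n → ℝ)
    (L : (Fin n → ℝ) →L[ℝ] (Fin n → ℝ)) (ξ : Fin n → ℝ) (t : ℝ) : ℝ :=
  conorm G y (ξ + t • pull L ξ) * dens G y -
    (1 + t • opMat L).det * (dens G (y + t • v) * conorm G (y + t • v) ξ)

/-- The derivative of `defect` at zero. -/
def defect' (G : (Fin n → ℝ) → Matrix (Fin n) (Fin n) ℝ) (y v : Fin n → ℝ)
    (L : (Fin n → ℝ) →L[ℝ] (Fin n → ℝ)) (ξ : Fin n → ℝ) : ℝ :=
  dens G y * ((ξ ⬝ᵥ L ((G y)⁻¹ *ᵥ ξ)) / conorm G y ξ - (opMat L).trace * conorm G y ξ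
    - ((G y)⁻¹ * dG G y v).trace / 2 * conorm G y ξ
    + ((G y)⁻¹ *ᵥ ξ) ⬝ᵥ (dG G y v *ᵥ ((G y)⁻¹ *ᵥ ξ)) / (2 * conorm G y ξ))

lemma IsCH.hasDerivAt_defect (h : IsCH G D) (y v : Fin n → ℝ)
    (L : (Fin n → ℝ) →L[ℝ] (Fin n → ℝ)) {ξ : Fin n → ℝ} (hξ : ξ ≠ 0) :
    HasDerivAt (defect G y v L ξ) (defect' G y v L ξ) 0 := by
  have hc := h.pairing_self_pos y hξ
  have h1 : HasDerivAt (fun t : ℝ => pairing G y (ξ + t • pull L ξ) (ξ + t • pull L ξ))
      (2 * pairing G y (pull L ξ) ξ) 0 := by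
    have e : (fun t : ℝ => pairing G y (ξ + t • pull L ξ) (ξ + t • pull L ξ)) = fun t : ℝ =>
        pairing G y ξ ξ + 2 * pairing G y (pull L ξ) ξ * t +
          pairing G y (pull L ξ) (pull L ξ) * t ^ 2 := by
      funext t
      rw [pairing_add_left, pairing_smul_left, h.pairing_comm y ξ (ξ + t • _),
        h.pairing_comm y (pull L ξ) (ξ + t • _), pairing_add_left, pairing_smul_left,
        pairing_add_left, pairing_smul_left, h.pairing_comm y ξ (pull L ξ)]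
      ring
    rw [e]
    simpa using (((hasDerivAt_id (0 : ℝ)).const_mul (2 * pairing G y (pull L ξ) ξ)).const_add
      (pairing G y ξ ξ)).fun_add ((hasDerivAt_pow 2 (0 : ℝ)).const_mul
        (pairing G y (pull L ξ) (pull L ξ)))
  have h2 := (h1.sqrt (by simpa using hc.ne')).mul_const (dens G y)
  have h3 := (h.hasDerivAt_pairing_line y v ξ).sqrt (by simpa using hc.ne')
  have h4 := (hasDerivAt_det_one_add_smul (opMat L)).mul ((h.hasDerivAt_dens y v).mul h3)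
  have h5 := h2.sub h4
  refine (h5.congr_deriv ?_)
  have hp : pairing G y (pull L ξ) ξ = ξ ⬝ᵥ L ((G y)⁻¹ *ᵥ ξ) := pull_dotProduct L ξ _
  have hn := (h.conorm_pos y hξ).ne'
  simp only [zero_smul, add_zero, Matrix.det_one, one_mul, Pi.mul_apply, hp, defect', conorm] at hn ⊢
  field_simp
  ring

/-- The Hessian as a matrix. -/
def hessMat (G : (Fin n → ℝ) → Matrix (Fin n) (Fin n) ℝ) (f : (Fin n → ℝ) → ℝ) (y : Fin n → ℝ) :
    Matrix (Fin n) (Fin n) ℝ :=
  Matrix.of fun a b => fderiv ℝ (fderiv ℝ f) y (ev a) (ev b)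
    - grad G f y ⬝ᵥ (dG G y (ev a) *ᵥ ev b) + (1 / 2) * dG G y (grad G f y) a b

lemma hessMat_quad (f : (Fin n → ℝ) → ℝ) (y v : Fin n → ℝ) :
    v ⬝ᵥ (hessMat G f y *ᵥ v) = hess G f y v := by
  have e1 : fderiv ℝ (fderiv ℝ f) y v v =
      ∑ a, ∑ b, v a * (fderiv ℝ (fderiv ℝ f) y (ev a) (ev b) * v b) := by
    rw [clm_eq_sum (fderiv ℝ (fderiv ℝ f) y) v, _root_.sum_apply]
    refine Finset.sum_congr rfl fun a _ => ?_
    rw [_root_.smul_apply, clm_eq_sum (fderiv ℝ (fderiv ℝ f) y (ev a)) v,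
      Finset.smul_sum]
    simp [mul_comm]
  have e2 : grad G f y ⬝ᵥ (dG G y v *ᵥ v) =
      ∑ a, ∑ b, v a * ((grad G f y ⬝ᵥ (dG G y (ev a) *ᵥ ev b)) * v b) := by
    have : ∀ a b, grad G f y ⬝ᵥ (dG G y (ev a) *ᵥ ev b) =
        ∑ c, grad G f y c * dG G y (ev a) c b := fun a b => by
      simp [dotProduct, mulVec, ev, Pi.single_apply]
    simp only [this]
    simp only [dotProduct, mulVec, dG, Matrix.of_apply, Finset.mul_sum, Finset.sum_mul]
    conv_rhs => rw [Finset.sum_comm]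
    rw [Finset.sum_comm]
    refine Finset.sum_congr rfl fun b _ => ?_
    conv_rhs => rw [Finset.sum_comm]
    refine Finset.sum_congr rfl fun c _ => ?_
    rw [clm_eq_sum (fderiv ℝ (fun z => G z c b) y) v, Finset.sum_mul, Finset.mul_sum]
    simp only [smul_eq_mul]
    exact Finset.sum_congr rfl fun a _ => by
      ring
  rw [hess, e1, e2]
  simp only [hessMat, dotProduct, mulVec, Matrix.of_apply, Finset.mul_sum]
  rw [← Finset.sum_sub_distrib, ← Finset.sum_add_distrib]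
  refine Finset.sum_congr rfl fun a _ => ?_
  rw [← Finset.sum_sub_distrib, ← Finset.sum_add_distrib]
  exact Finset.sum_congr rfl fun b _ => by ring

open scoped MatrixOrder in
lemma trace_mul_nonneg {P Q : Matrix (Fin n) (Fin n) ℝ} (hP : P.PosSemidef) (hQ : Q.PosSemidef) :
    0 ≤ (P * Q).trace := by
  set S := CFC.sqrt Q with hS
  have hSS : S * S = Q := CFC.sqrt_mul_sqrt_self Q hQ.nonneg
  have hSp : S.PosSemidef := (CFC.sqrt_nonneg Q).posSemidef
  rw [← hSS, ← Matrix.mul_assoc, Matrix.trace_mul_comm, ← Matrix.mul_assoc]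
  have := (hP.conjTranspose_mul_mul_same S).trace_nonneg
  rwa [hSp.isHermitian.eq] at this

/-- A form at least the metric: the trace off one direction is at least `n - 1`. -/
lemma IsCH.trace_bound (h : IsCH G D) (y : Fin n → ℝ) (M : Matrix (Fin n) (Fin n) ℝ)
    (hM : ∀ v, v ⬝ᵥ (G y *ᵥ v) ≤ v ⬝ᵥ (M *ᵥ v)) {ξ : Fin n → ℝ} (hξ : ξ ≠ 0) :
    ((G y)⁻¹ *ᵥ ξ) ⬝ᵥ (M *ᵥ ((G y)⁻¹ *ᵥ ξ)) + ((n : ℝ) - 1) * pairing G y ξ ξ ≤
      pairing G y ξ ξ * ((G y)⁻¹ * M).trace := by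
  set η := (G y)⁻¹ *ᵥ ξ with hη
  set c := pairing G y ξ ξ with hc
  have hc0 : 0 < c := h.pairing_self_pos y hξ
  set Q : Matrix (Fin n) (Fin n) ℝ := (1 / 2 : ℝ) • (M + Mᵀ) - G y with hQdef
  have hGT : (G y)ᵀ = G y := by simpa using (h.posDef y).isHermitian.eq
  have hiT : ((G y)⁻¹)ᵀ = (G y)⁻¹ := by simpa using (h.posDef_inv y).isHermitian.eq
  have hMT : ∀ v, v ⬝ᵥ (Mᵀ *ᵥ v) = v ⬝ᵥ (M *ᵥ v) := fun v => by
    rw [mulVec_transpose, dotProduct_comm, ← dotProduct_mulVec]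
  have hquad : ∀ v, v ⬝ᵥ (Q *ᵥ v) = v ⬝ᵥ (M *ᵥ v) - v ⬝ᵥ (G y *ᵥ v) := fun v => by
    rw [hQdef, sub_mulVec, smul_mulVec, add_mulVec, dotProduct_sub, dotProduct_smul,
      dotProduct_add, hMT, smul_eq_mul]
    ring
  have hQ : Q.PosSemidef := Matrix.PosSemidef.of_dotProduct_mulVec_nonneg (by
      rw [Matrix.IsHermitian, conjTranspose_eq_transpose_of_trivial, hQdef, transpose_sub,
        transpose_smul, transpose_add, transpose_transpose, hGT, add_comm])
    fun v => by simp only [star_trivial, hquad]; linarith [hM v]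
  set P : Matrix (Fin n) (Fin n) ℝ := (G y)⁻¹ - c⁻¹ • vecMulVec η η with hPdef
  have hP : P.PosSemidef := Matrix.PosSemidef.of_dotProduct_mulVec_nonneg (by
      rw [Matrix.IsHermitian, conjTranspose_eq_transpose_of_trivial, hPdef, transpose_sub,
        transpose_smul, transpose_vecMulVec, hiT]) fun v => by
      have h1 := pow_le_pow_left₀ (abs_nonneg _) (h.abs_pairing_le y v ξ) 2
      rw [sq_abs, mul_pow, h.conorm_sq, h.conorm_sq] at h1
      simp only [star_trivial, hPdef, sub_mulVec, dotProduct_sub, smul_mulVec, dotProduct_smul,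
        vecMulVec_mulVec, smul_eq_mul, op_smul_eq_smul]
      rw [dotProduct_comm η v, show v ⬝ᵥ η = pairing G y v ξ from rfl,
        show v ⬝ᵥ ((G y)⁻¹ *ᵥ v) = pairing G y v v from rfl]
      rw [sub_nonneg, inv_mul_le_iff₀ hc0]
      nlinarith
  have key := trace_mul_nonneg hP hQ
  rw [hPdef, Matrix.sub_mul, trace_sub, Matrix.smul_mul, trace_smul, vecMulVec_mul, trace_vecMulVec,
    smul_eq_mul] at key
  rw [dotProduct_comm η (η ᵥ* Q), ← dotProduct_mulVec, hquad] at key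
  have htr : ((G y)⁻¹ * Q).trace = ((G y)⁻¹ * M).trace - n := by
    have hT : ((G y)⁻¹ * Mᵀ).trace = ((G y)⁻¹ * M).trace := by
      conv_lhs => rw [← trace_transpose, transpose_mul, transpose_transpose, hiT, trace_mul_comm]
    rw [hQdef, Matrix.mul_sub, trace_sub, Matrix.mul_smul, trace_smul, Matrix.mul_add, trace_add,
      hT, Matrix.nonsing_inv_mul _ (h.det_pos y).ne'.isUnit, trace_one, smul_eq_mul,
      Fintype.card_fin]
    ring
  have hGη : η ⬝ᵥ (G y *ᵥ η) = c := by rw [hη, h.mulVec_inv, dotProduct_comm]; rfl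
  rw [htr, hGη] at key
  have := mul_le_mul_of_nonneg_left key hc0.le
  rw [mul_zero, mul_sub, ← mul_assoc, mul_inv_cancel₀ hc0.ne', one_mul] at this
  linarith

/-- The Gaussian gradient field. -/
def gfield (G : (Fin n → ℝ) → Matrix (Fin n) (Fin n) ℝ) (D : (Fin n → ℝ) → (Fin n → ℝ) → ℝ)
    (x : Fin n → ℝ) (s : ℝ) (y : Fin n → ℝ) : Fin n → ℝ :=
  gw D x s y • grad G (D x) y

/-- The first variation density. -/
def firstVar (G : (Fin n → ℝ) → Matrix (Fin n) (Fin n) ℝ) (D : (Fin n → ℝ) → (Fin n → ℝ) → ℝ)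
    (x : Fin n → ℝ) (s : ℝ) (y ξ : Fin n → ℝ) : ℝ :=
  gw D x s y * (((n : ℝ) - 1 - 2 * (D x y / s ^ 2)) * conorm G y ξ
    + pairing G y ξ (cd (D x) y) ^ 2 / conorm G y ξ / s ^ 2)

lemma IsCH.contDiff_cd_dist (h : IsCH G D) (x : Fin n → ℝ) : ContDiff ℝ 1 (cd (D x)) :=
  contDiff_pi.2 fun _ => ((h.contDiff_D x).fderiv_right le_rfl).clm_apply contDiff_const

lemma IsCH.contDiff_grad_dist (h : IsCH G D) (x : Fin n → ℝ) : ContDiff ℝ 1 (grad G (D x)) :=
  h.differentiable_inv_mulVec (h.contDiff_cd_dist x)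

lemma IsCH.contDiff_gfield (h : IsCH G D) (x : Fin n → ℝ) (s : ℝ) :
    ContDiff ℝ 1 (gfield G D x s) :=
  (Real.contDiff_exp.comp
    ((((h.contDiff_D x).of_le one_le_two).div_const (s ^ 2)).neg)).smul (h.contDiff_grad_dist x)

lemma IsCH.fderiv_grad_dist (h : IsCH G D) (x y v : Fin n → ℝ) :
    fderiv ℝ (grad G (D x)) y v = (G y)⁻¹ *ᵥ ((fun b => fderiv ℝ (fderiv ℝ (D x)) y v (ev b))
      - dG G y v *ᵥ grad G (D x) y) := by
  have hη : HasDerivAt (fun t : ℝ => grad G (D x) (y + t • v))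
      (fderiv ℝ (grad G (D x)) y v) 0 :=
    ((h.contDiff_grad_dist x).differentiable one_ne_zero y).hasFDerivAt.comp_hasDerivAt_of_eq 0
      (hasDerivAt_line y v) (by simp)
  have hξ : HasDerivAt (fun t : ℝ => cd (D x) (y + t • v))
      (fun b => fderiv ℝ (fderiv ℝ (D x)) y v (ev b)) 0 := by
    refine hasDerivAt_pi.2 fun b => ?_
    have hd := ((((h.contDiff_D x).fderiv_right (m := 1) le_rfl).differentiable one_ne_zero y
      ).hasFDerivAt).comp_hasDerivAt_of_eq 0 (hasDerivAt_line y v) (by simp)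
    exact ((ContinuousLinearMap.apply ℝ ℝ (ev b)).hasFDerivAt.comp_hasDerivAt 0 hd)
  have := h.mulVec_deriv y v hη hξ fun t => h.mulVec_inv _ _
  simpa using this

lemma IsCH.fderiv_gfield (h : IsCH G D) (x : Fin n → ℝ) (s : ℝ) (y v : Fin n → ℝ) :
    fderiv ℝ (gfield G D x s) y v = gw D x s y • (fderiv ℝ (grad G (D x)) y v
      - (fderiv ℝ (D x) y v / s ^ 2) • grad G (D x) y) := by
  have h1 : HasFDerivAt (fun z => Real.exp (-(D x z / s ^ 2)))
      (gw D x s y • -((s ^ 2)⁻¹ • fderiv ℝ (D x) y)) y := by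
    have := ((h.contDiff_D x).differentiable two_ne_zero y).hasFDerivAt
    simpa [div_eq_inv_mul, gw] using ((this.const_mul (s ^ 2)⁻¹).fun_neg.exp)
  have h2 := h1.fun_smul ((h.contDiff_grad_dist x).differentiable one_ne_zero y).hasFDerivAt
  rw [show fderiv ℝ (gfield G D x s) y = _ from h2.fderiv]
  simp only [_root_.add_apply, _root_.smul_apply, ContinuousLinearMap.smulRight_apply,
    _root_.neg_apply, smul_sub, smul_smul, gw, smul_eq_mul]
  rw [sub_eq_add_neg, ← neg_smul]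
  congr 2
  ring

/-- The pointwise first variation along the Gaussian gradient field. -/
theorem IsCH.defect'_gfield_le (h : IsCH G D) (x : Fin n → ℝ) (s : ℝ) (y : Fin n → ℝ)
    {ξ : Fin n → ℝ} (hξ : ξ ≠ 0) :
    defect' G y (gfield G D x s y) (fderiv ℝ (gfield G D x s) y) ξ
      ≤ -(dens G y * firstVar G D x s y ξ) := by
  set η := (G y)⁻¹ *ᵥ ξ with hη
  set g := grad G (D x) y with hg
  set c := conorm G y ξ with hc
  have hc0 : 0 < c := h.conorm_pos y hξ
  set p := pairing G y ξ (cd (D x) y) with hp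
  set w := gw D x s y with hw
  set Mh := hessMat G (D x) y with hMh
  have hdη : fderiv ℝ (D x) y η = p := by
    rw [hp, h.pairing_comm, ← cd_dotProduct]; rfl
  have hξg : ξ ⬝ᵥ g = p := rfl
  have hdg : fderiv ℝ (D x) y g = 2 * D x y := by rw [← cd_dotProduct, ← h.eikonal]; rfl
  have hsym : ∀ u a b, dG G y u a b = dG G y u b a := fun u a b => h.dG_symm y u a b
  have hswap : ∀ u a b : Fin n → ℝ, a ⬝ᵥ (dG G y u *ᵥ b) = b ⬝ᵥ (dG G y u *ᵥ a) := fun u a b => by
    simp only [dotProduct, mulVec, Finset.mul_sum]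
    rw [Finset.sum_comm]
    exact Finset.sum_congr rfl fun i _ => Finset.sum_congr rfl fun j _ => by
      rw [hsym u j i]; ring
  have hi : ∀ a b, (G y)⁻¹ a b = (G y)⁻¹ b a := fun a b => by
    simpa using ((h.posDef_inv y).isHermitian.apply a b).symm
  -- the quadratic term
  have hA : ξ ⬝ᵥ fderiv ℝ (grad G (D x)) y η + (1 / 2) * (η ⬝ᵥ (dG G y g *ᵥ η))
      = η ⬝ᵥ (Mh *ᵥ η) := by
    rw [hMh, hessMat_quad, hess, h.fderiv_grad_dist,
      show ξ ⬝ᵥ ((G y)⁻¹ *ᵥ ((fun b => fderiv ℝ (fderiv ℝ (D x)) y η (ev b)) - dG G y η *ᵥ g))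
        = pairing G y ξ ((fun b => fderiv ℝ (fderiv ℝ (D x)) y η (ev b)) - dG G y η *ᵥ g) from rfl,
      h.pairing_comm]
    rw [show pairing G y ((fun b => fderiv ℝ (fderiv ℝ (D x)) y η (ev b)) - dG G y η *ᵥ g) ξ
        = ((fun b => fderiv ℝ (fderiv ℝ (D x)) y η (ev b)) - dG G y η *ᵥ g) ⬝ᵥ η from rfl,
      sub_dotProduct, dotProduct_comm (dG G y η *ᵥ g) η, hswap η η g]
    congr 2
    conv_rhs => rw [clm_eq_sum (fderiv ℝ (fderiv ℝ (D x)) y η) η]
    simp [dotProduct, mul_comm]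
  -- the trace term
  have hB : ∑ a, fderiv ℝ (grad G (D x)) y (ev a) a + ((G y)⁻¹ * dG G y g).trace / 2
      = ((G y)⁻¹ * Mh).trace := by
    have hT : ((G y)⁻¹ * dG G y g).trace = ∑ a, ∑ b, (G y)⁻¹ a b * dG G y g a b := by
      simp only [Matrix.trace, Matrix.diag, Matrix.mul_apply]
      exact Finset.sum_congr rfl fun a _ => Finset.sum_congr rfl fun b _ => by rw [hsym g b a]
    have hM' : ((G y)⁻¹ * Mh).trace = ∑ a, ∑ b, (G y)⁻¹ b a * Mh a b := by
      simp only [Matrix.trace, Matrix.diag, Matrix.mul_apply]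
      rw [Finset.sum_comm]
    rw [hT, hM', Finset.sum_div, ← Finset.sum_add_distrib]
    refine Finset.sum_congr rfl fun a _ => ?_
    rw [h.fderiv_grad_dist, Finset.sum_div]
    simp only [mulVec, dotProduct, Pi.sub_apply]
    rw [← Finset.sum_add_distrib]
    refine Finset.sum_congr rfl fun b _ => ?_
    simp only [hMh, hessMat, Matrix.of_apply, ← hg]
    rw [hi a b]
    have : g ⬝ᵥ (dG G y (ev a) *ᵥ ev b) = ∑ k, dG G y (ev a) b k * g k := by
      simp only [dotProduct, mulVec, ev, Pi.single_apply, mul_ite, mul_one, mul_zero,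
        Finset.sum_ite_eq', Finset.mem_univ, if_true]
      exact Finset.sum_congr rfl fun k _ => by rw [show dG G y (Pi.single a 1) k b
        = dG G y (Pi.single a 1) b k from hsym _ k b]; ring
    rw [this]
    ring
  have hL : ∀ u, fderiv ℝ (gfield G D x s) y u = w • (fderiv ℝ (grad G (D x)) y u
      - (fderiv ℝ (D x) y u / s ^ 2) • g) := h.fderiv_gfield x s y
  have h1 : ξ ⬝ᵥ fderiv ℝ (gfield G D x s) y η
      = w * (ξ ⬝ᵥ fderiv ℝ (grad G (D x)) y η - p ^ 2 / s ^ 2) := by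
    rw [hL, dotProduct_smul, dotProduct_sub, dotProduct_smul, hξg, hdη, smul_eq_mul, smul_eq_mul]
    ring
  have h2 : (opMat (fderiv ℝ (gfield G D x s) y)).trace
      = w * (∑ a, fderiv ℝ (grad G (D x)) y (ev a) a - 2 * D x y / s ^ 2) := by
    have e : ∑ a, fderiv ℝ (D x) y (ev a) * g a = 2 * D x y := by
      rw [← hdg, clm_eq_sum (fderiv ℝ (D x) y) g]
      exact Finset.sum_congr rfl fun a _ => by rw [smul_eq_mul, mul_comm]
    rw [← e, Finset.sum_div, ← Finset.sum_sub_distrib, Finset.mul_sum]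
    simp only [Matrix.trace, Matrix.diag, opMat, Matrix.of_apply, hL, Pi.smul_apply, Pi.sub_apply,
      smul_eq_mul]
    exact Finset.sum_congr rfl fun a _ => by ring
  have hv : gfield G D x s y = w • g := rfl
  have hlin : dG G y (w • g) = w • dG G y g := by
    ext a b; simp [dG]
  have key := h.trace_bound y Mh (fun v => by rw [hMh, hessMat_quad]; exact h.hessian x y v) hξ
  rw [← hη, ← h.conorm_sq, ← hc, ← hB, ← hA] at key
  have hw0 : 0 < w := Real.exp_pos _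
  have e : defect' G y (gfield G D x s y) (fderiv ℝ (gfield G D x s) y) ξ
      = dens G y * (w * ((ξ ⬝ᵥ fderiv ℝ (grad G (D x)) y η + 1 / 2 * (η ⬝ᵥ (dG G y g *ᵥ η))
          - c ^ 2 * (∑ a, fderiv ℝ (grad G (D x)) y (ev a) a
            + ((G y)⁻¹ * dG G y g).trace / 2)) / c)
        + w * (2 * D x y / s ^ 2 * c - p ^ 2 / c / s ^ 2)) := by
    rw [defect', h2, ← hη, h1, hv, hlin, ← hc, Matrix.mul_smul, trace_smul, smul_mulVec,
      dotProduct_smul, smul_eq_mul, smul_eq_mul]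
    field_simp
    ring
  rw [e, firstVar, ← mul_neg, ← hc, ← hp, ← hw]
  refine mul_le_mul_of_nonneg_left ?_ (h.dens_pos y).le
  have : (ξ ⬝ᵥ fderiv ℝ (grad G (D x)) y η + 1 / 2 * (η ⬝ᵥ (dG G y g *ᵥ η))
      - c ^ 2 * (∑ a, fderiv ℝ (grad G (D x)) y (ev a) a
        + ((G y)⁻¹ * dG G y g).trace / 2)) / c ≤ -(((n : ℝ) - 1) * c) := by
    rw [div_le_iff₀ hc0]
    linarith
  have h3 := mul_le_mul_of_nonneg_left this hw0.le
  have e2 : -(w * (((n : ℝ) - 1 - 2 * (D x y / s ^ 2)) * c + p ^ 2 / c / s ^ 2))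
      = w * -(((n : ℝ) - 1) * c) + w * (2 * D x y / s ^ 2 * c - p ^ 2 / c / s ^ 2) := by ring
  rw [e2]
  linarith

end Vale.Agent.P219.CH
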