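import Vale.Agent.P219.CH.Basic
import Vale.Agent.P219.CH.VarAlgebra

/-!
# P219: curvature bounded above by a negative constant, and the linear isoperimetric bound
-/

noncomputable section

open MeasureTheory Set Filter Topology Matrix

namespace Vale.Agent.P219.CH

variable {n : ℕ} {G : (Fin n → ℝ) → Matrix (Fin n) (Fin n) ℝ}
  {D : (Fin n → ℝ) → (Fin n → ℝ) → ℝ}

/-- The comparison for curvature at most `-b ^ 2`, in the weakened form `Hess r ≥ b (g - dr ⊗ dr)`
for the distance `r` to a point, written for `D = r ^ 2 / 2`. -/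
def Bent (G : (Fin n → ℝ) → Matrix (Fin n) (Fin n) ℝ) (D : (Fin n → ℝ) → (Fin n → ℝ) → ℝ)
    (b : ℝ) : Prop :=
  ∀ x y v, (cd (D x) y ⬝ᵥ v) ^ 2 +
      b * Real.sqrt (2 * D x y) * (2 * D x y * (v ⬝ᵥ (G y *ᵥ v)) - (cd (D x) y ⬝ᵥ v) ^ 2) ≤
    2 * D x y * hess G (D x) y v

/-- Every Cartan-Hadamard metric satisfies the comparison for `b = 0`. -/
theorem IsCH.bent_zero (h : IsCH G D) : Bent G D 0 := by
  intro x y v
  rw [zero_mul, zero_mul, add_zero]
  have h1 : |pairing G y (cd (D x) y) (G y *ᵥ v)| ≤ _ := h.abs_pairing_le y _ _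
  rw [pairing, h.inv_mulVec] at h1
  have h2 := pow_le_pow_left₀ (abs_nonneg _) h1 2
  have e : pairing G y (G y *ᵥ v) (G y *ᵥ v) = v ⬝ᵥ (G y *ᵥ v) := by
    rw [pairing, h.inv_mulVec, dotProduct_comm]
  rw [sq_abs, mul_pow, h.conorm_sq, h.conorm_sq, h.eikonal, e] at h2
  exact h2.trans (mul_le_mul_of_nonneg_left (h.hessian x y v)
    (by linarith [h.dist_nonneg x y]))

/-- The divergence of the gradient of `D x`. -/
lemma IsCH.trace_hessMat (h : IsCH G D) (x y : Fin n → ℝ) :
    ∑ a, fderiv ℝ (grad G (D x)) y (ev a) a + ((G y)⁻¹ * dG G y (grad G (D x) y)).trace / 2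
      = ((G y)⁻¹ * hessMat G (D x) y).trace := by
  set g := grad G (D x) y with hg
  set Mh := hessMat G (D x) y with hMh
  have hsym : ∀ u a b, dG G y u a b = dG G y u b a := fun u a b => h.dG_symm y u a b
  have hi : ∀ a b, (G y)⁻¹ a b = (G y)⁻¹ b a := fun a b => by
    simpa using ((h.posDef_inv y).isHermitian.apply a b).symm
  have hT : ((G y)⁻¹ * dG G y g).trace = ∑ a, ∑ b, (G y)⁻¹ a b * dG G y g a b := by
    simp only [Matrix.trace, Matrix.diag, Matrix.mul_apply]
    exact Finset.sum_congr rfl fun a _ => Finset.sum_congr rfl fun b _ => by rw [hsym g b a]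
  have hM' : ((G y)⁻¹ * Mh).trace = ∑ a, ∑ b, (G y)⁻¹ b a * Mh a b := by
    simp only [Matrix.trace, Matrix.diag, Matrix.mul_apply]
    rw [Finset.sum_comm]
  rw [hT, hM', Finset.sum_div, ← Finset.sum_add_distrib]
  refine Finset.sum_congr rfl fun a _ => ?_
  rw [h.fderiv_grad_dist, Finset.sum_div]
  simp only [mulVec, dotProduct, Pi.sub_apply]
  rw [← Finset.sum_add_distrib]
  refine Finset.sum_congr rfl fun b _ => ?_
  simp only [hMh, hessMat, Matrix.of_apply, ← hg]
  rw [hi a b]
  have : g ⬝ᵥ (dG G y (ev a) *ᵥ ev b) = ∑ k, dG G y (ev a) b k * g k := by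
    simp only [dotProduct, mulVec, ev, Pi.single_apply, mul_ite, mul_one, mul_zero,
      Finset.sum_ite_eq', Finset.mem_univ, if_true]
    exact Finset.sum_congr rfl fun k _ => by
      rw [show dG G y (Pi.single a 1) k b = dG G y (Pi.single a 1) b k from hsym _ k b]; ring
  rw [this]
  ring

/-- The Laplacian bound. -/
lemma IsCH.trace_bent (h : IsCH G D) {b : ℝ} (hb : Bent G D b) {x y : Fin n → ℝ}
    (hD : 0 < D x y) :
    b * Real.sqrt (2 * D x y) * ((n : ℝ) - 1) + 1 ≤ ((G y)⁻¹ * hessMat G (D x) y).trace := by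
  set k := b * Real.sqrt (2 * D x y) with hk
  set c := 2 * D x y with hc
  set ξ := cd (D x) y with hξ
  set M := hessMat G (D x) y with hM
  set Q : Matrix (Fin n) (Fin n) ℝ :=
    c • ((1 / 2 : ℝ) • (M + Mᵀ)) - ((k * c) • G y + (1 - k) • vecMulVec ξ ξ) with hQd
  have hGT : (G y)ᵀ = G y := by simpa using (h.posDef y).isHermitian.eq
  have hiT : ((G y)⁻¹)ᵀ = (G y)⁻¹ := by simpa using (h.posDef_inv y).isHermitian.eq
  have hMT : ∀ v, v ⬝ᵥ (Mᵀ *ᵥ v) = v ⬝ᵥ (M *ᵥ v) := fun v => by
    rw [mulVec_transpose, dotProduct_comm, ← dotProduct_mulVec]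
  have hQ : Q.PosSemidef := Matrix.PosSemidef.of_dotProduct_mulVec_nonneg (by
      rw [Matrix.IsHermitian, conjTranspose_eq_transpose_of_trivial, hQd]
      simp only [transpose_sub, transpose_add, transpose_smul, transpose_transpose,
        transpose_vecMulVec, hGT, add_comm Mᵀ M]) fun v => by
      simp only [star_trivial, hQd, sub_mulVec, add_mulVec, smul_mulVec, dotProduct_sub,
        dotProduct_add, dotProduct_smul, vecMulVec_mulVec, smul_eq_mul, op_smul_eq_smul, hMT]
      rw [hM, hessMat_quad, dotProduct_comm v ξ]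
      have := hb x y v
      rw [← hc, ← hk, ← hξ] at this
      linarith [show k * (c * (v ⬝ᵥ (G y *ᵥ v)) - (ξ ⬝ᵥ v) ^ 2) =
        k * c * (v ⬝ᵥ (G y *ᵥ v)) - k * (ξ ⬝ᵥ v) ^ 2 by ring]
  have key := trace_mul_nonneg (h.posDef_inv y).posSemidef hQ
  have hT : ((G y)⁻¹ * Mᵀ).trace = ((G y)⁻¹ * M).trace := by
    conv_lhs => rw [← trace_transpose, transpose_mul, transpose_transpose, hiT, trace_mul_comm]
  have hx : ((G y)⁻¹ * vecMulVec ξ ξ).trace = c := by
    rw [mul_vecMulVec, trace_vecMulVec, dotProduct_comm, hc, ← h.eikonal]; rfl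
  simp only [hQd, Matrix.mul_sub, Matrix.mul_add, Matrix.mul_smul, trace_sub, trace_add, trace_smul,
    hT, hx, Matrix.nonsing_inv_mul _ (h.det_pos y).ne'.isUnit, trace_one, Fintype.card_fin,
    smul_eq_mul] at key
  have hc0 : 0 < c := by linarith
  refine le_of_mul_le_mul_left ?_ hc0
  linarith

/-- Symmetry of the half squared distance. -/
lemma IsCH.dist_comm (h : IsCH G D) (x y : Fin n → ℝ) : D x y = D y x := by
  have key : ∀ x y, D x y ≤ D y x := by
    intro x y
    have h0 : cd (D y) y = 0 := by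
      by_contra hne
      have := h.pairing_self_pos y hne
      rw [h.eikonal, h.dist_self] at this
      simp at this
    have := h.cosine y x y
    rw [h.dist_self, h0] at this
    simpa [pairing] using this
  exact le_antisymm (key x y) (key y x)

/-- There are centres at distance at least one from a compact set. -/
lemma IsCH.exists_far (h : IsCH G D) (hn : 1 ≤ n) {S : Set (Fin n → ℝ)} (hS : IsCompact S) :
    ∃ o, ∀ y ∈ S, 1 ≤ D o y := by
  set p : Fin n → ℝ := 0
  obtain ⟨M, hM⟩ := hS.bddAbove_image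
    (h.continuous_D.comp (continuous_const.prodMk continuous_id) : Continuous fun y => D p y).continuousOn
  set M' := max M 0
  obtain ⟨C, hC⟩ := (h.proper p ((Real.sqrt M' + 1) ^ 2)).isBounded.exists_norm_le
  refine ⟨fun _ => |C| + 1, fun y hy => ?_⟩
  set o : Fin n → ℝ := fun _ => |C| + 1 with ho
  have hfar : (Real.sqrt M' + 1) ^ 2 < D p o := by
    by_contra hle
    have h1 := (norm_le_pi_norm o ⟨0, by omega⟩).trans (hC o (not_lt.1 hle))
    rw [ho, Real.norm_eq_abs, abs_of_nonneg (by positivity)] at h1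
    linarith [le_abs_self C]
  have hdp : 0 ≤ D p y := h.dist_nonneg p y
  have hop : 0 ≤ D o p := h.dist_nonneg o p
  have hb : D p y ≤ M' := le_max_of_le_left (hM ⟨y, hy, rfl⟩)
  have h2 : D y p = D p y := h.dist_comm y p
  have h3 : (Real.sqrt M' + 1) ^ 2 < D o p := by rwa [h.dist_comm o p]
  have h4 := h.cosine o y p
  have h5 := (le_abs_self _).trans (h.abs_pairing_le p (cd (D o) p) (cd (D y) p))
  rw [conorm, conorm, h.eikonal, h.eikonal, h2, Real.sqrt_mul two_pos.le, Real.sqrt_mul two_pos.le] at h5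
  rw [h2] at h4
  set a := Real.sqrt (D o p) with ha
  set c := Real.sqrt (D p y) with hc
  have ha2 : a ^ 2 = D o p := Real.sq_sqrt hop
  have hc2 : c ^ 2 = D p y := Real.sq_sqrt hdp
  have e : Real.sqrt 2 * a * (Real.sqrt 2 * c) = 2 * (a * c) := by
    rw [mul_mul_mul_comm, Real.mul_self_sqrt two_pos.le]
  rw [e] at h5
  have hca : c + 1 ≤ a :=
    le_trans (add_le_add (Real.sqrt_le_sqrt hb) le_rfl) (Real.le_sqrt_of_sq_le h3.le)
  nlinarith

/-- The linear isoperimetric bound of Yau, for the relaxed perimeter. -/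
theorem IsCH.linear_bound (h : IsCH G D) (hn : 1 ≤ n) {b : ℝ} (hb0 : 0 ≤ b) (hb : Bent G D b)
    {Ω : Set (Fin n → ℝ)} {A : ℝ} (hΩ : MeasurableSet Ω) (hB : Bornology.IsBounded Ω)
    (hA : PerimeterLE G Ω A) : ((n : ℝ) - 1) * b * volG G Ω ≤ A := by
  obtain ⟨S, v, hS, hv, hlim, hper⟩ := hA
  set T := S ∪ closure Ω with hTd
  have hT : IsCompact T := hS.union hB.isCompact_closure
  obtain ⟨o, ho⟩ := h.exists_far hn hT
  set μ := ((n : ℝ) - 1) * b with hμ
  have hμ0 : 0 ≤ μ := mul_nonneg (sub_nonneg.2 (Nat.one_le_cast.2 hn)) hb0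
  suffices hmain : ∀ e : ℝ, 0 < e → μ * Real.sqrt (2 / (2 + e)) * volG G Ω ≤ A by
    have hc : ContinuousAt (fun e : ℝ => μ * Real.sqrt (2 / (2 + e)) * volG G Ω) 0 :=
      ((continuousAt_const.mul ((continuousAt_const.div (continuousAt_const.add continuousAt_id)
        (by norm_num)).sqrt)).mul continuousAt_const)
    have ht : Tendsto (fun e : ℝ => μ * Real.sqrt (2 / (2 + e)) * volG G Ω) (𝓝[>] 0)
        (𝓝 (μ * volG G Ω)) := by
      simpa using hc.tendsto.mono_left (nhdsWithin_le_nhds (s := Ioi (0 : ℝ)))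
    exact le_of_tendsto ht (eventually_nhdsWithin_of_forall fun e he => hmain e he)
  intro e he
  set f : (Fin n → ℝ) → ℝ := fun z => 2 * D o z + e with hf
  have hf0 : ∀ z, 0 < f z := fun z => by simp only [hf]; linarith [h.dist_nonneg o z]
  have hfd : ContDiff ℝ 1 f := (contDiff_const.mul ((h.contDiff_D o).of_le one_le_two)).add contDiff_const
  set φ : (Fin n → ℝ) → ℝ := fun z => dens G z * (Real.sqrt (f z))⁻¹ with hφ
  have hφd : ContDiff ℝ 1 φ := h.contDiff_dens.mul
    ((hfd.sqrt fun z => (hf0 z).ne').inv fun z => (Real.sqrt_pos.2 (hf0 z)).ne')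
  set g := grad G (D o) with hg
  have hgd : ContDiff ℝ 1 g := h.contDiff_grad_dist o
  set W : (Fin n → ℝ) → Fin n → ℝ := fun z => φ z • g z with hW
  have hWd : ContDiff ℝ 1 W := hφd.smul hgd
  have hWa : ∀ a, ContDiff ℝ 1 fun z => W z a := fun a => (contDiff_apply ℝ ℝ a).comp hWd
  set q : (Fin n → ℝ) → ℝ := fun z => ∑ a, fderiv ℝ (fun w => W w a) z (ev a) with hq
  have hqc : Continuous q := continuous_finsetSum _ fun a _ =>
    ((hWa a).continuous_fderiv one_ne_zero).clm_apply continuous_const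
  -- the pointwise bound
  have hlow : ∀ z ∈ T, μ * Real.sqrt (2 / (2 + e)) * dens G z ≤ q z := by
    intro z hz
    have h1 := ho z hz
    set w := Real.sqrt (f z) with hw
    have hw0 : 0 < w := Real.sqrt_pos.2 (hf0 z)
    have hw2 : w ^ 2 = 2 * D o z + e := Real.sq_sqrt (hf0 z).le
    have hdg : fderiv ℝ (D o) z (g z) = 2 * D o z := by rw [← cd_dotProduct, ← h.eikonal]; rfl
    have hline := hasDerivAt_line z (g z)
    have hDl : HasDerivAt (fun t : ℝ => f (z + t • g z)) (2 * (2 * D o z)) 0 := by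
      have := (((h.contDiff_D o).differentiable two_ne_zero z).hasFDerivAt).comp_hasDerivAt_of_eq 0
        hline (by simp)
      rw [hdg] at this
      exact (this.const_mul 2).add_const e
    have hφl : HasDerivAt (fun t : ℝ => φ (z + t • g z))
        (dens G z * ((G z)⁻¹ * dG G z (g z)).trace / 2 * w⁻¹ +
          dens G z * (-(2 * (2 * D o z) / (2 * w)) / w ^ 2)) 0 := by
      have hs := (hDl.sqrt (by simpa using (hf0 z).ne')).fun_inv
        (by simpa [hw] using hw0.ne')
      exact ((h.hasDerivAt_dens z (g z)).mul hs).congr_deriv (by simp [hw])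
    have hφg : fderiv ℝ φ z (g z) = dens G z * ((G z)⁻¹ * dG G z (g z)).trace / 2 * w⁻¹ +
        dens G z * (-(2 * (2 * D o z) / (2 * w)) / w ^ 2) :=
      (((hφd.differentiable one_ne_zero z).hasFDerivAt).comp_hasDerivAt_of_eq 0 hline
        (by simp)).unique hφl
    have e1 : q z = fderiv ℝ φ z (g z) + φ z * ∑ a, fderiv ℝ g z (ev a) a := by
      have hd := ((hφd.differentiable one_ne_zero z).hasFDerivAt).smul
        ((hgd.differentiable one_ne_zero z).hasFDerivAt)
      rw [clm_eq_sum (fderiv ℝ φ z) (g z), Finset.mul_sum, ← Finset.sum_add_distrib]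
      refine Finset.sum_congr rfl fun a _ => ?_
      have ha : HasFDerivAt (fun u => W u a) _ z :=
        (ContinuousLinearMap.proj (R := ℝ) (φ := fun _ : Fin n => ℝ) a).hasFDerivAt.comp z hd
      rw [ha.fderiv]
      simp [mul_comm, add_comm]
    have hb' := h.trace_bent hb (x := o) (y := z) (by linarith)
    rw [← h.trace_hessMat o z, ← hg] at hb'
    set r := Real.sqrt (2 * D o z) with hr
    have hr0 : 0 ≤ r := Real.sqrt_nonneg _
    have hrw : Real.sqrt (2 / (2 + e)) * w ≤ r := by
      rw [hw, hr, ← Real.sqrt_mul (by positivity)]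
      refine Real.sqrt_le_sqrt ?_
      simp only [hf]
      rw [div_mul_eq_mul_div, div_le_iff₀ (by linarith)]
      nlinarith
    have e2 : q z = dens G z * ((∑ a, fderiv ℝ g z (ev a) a +
        ((G z)⁻¹ * dG G z (g z)).trace / 2) / w - 2 * D o z / w ^ 3) := by
      rw [e1, hφg]
      simp only [hφ, ← hw]
      field_simp
      ring
    rw [e2, mul_comm]
    refine mul_le_mul_of_nonneg_left ?_ (h.dens_pos z).le
    have h5 : 2 * D o z / w ^ 3 ≤ 1 / w := by
      rw [div_le_div_iff₀ (pow_pos hw0 3) hw0, one_mul,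
        show w ^ 3 = w ^ 2 * w by ring, hw2]
      exact mul_le_mul_of_nonneg_right (by linarith) hw0.le
    have h6 : μ * Real.sqrt (2 / (2 + e)) + 1 / w ≤
        (∑ a, fderiv ℝ g z (ev a) a + ((G z)⁻¹ * dG G z (g z)).trace / 2) / w := by
      rw [le_div_iff₀ hw0, add_mul, one_div_mul_cancel hw0.ne', mul_assoc]
      have := mul_le_mul_of_nonneg_left hrw hμ0
      rw [hμ] at this ⊢
      linarith [show b * r * ((n : ℝ) - 1) = ((n : ℝ) - 1) * b * r by ring]
    linarith
  -- integration by parts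
  have hout : ∀ j, ∀ z ∉ S, v j z = 0 := fun j z hz =>
    image_eq_zero_of_notMem_tsupport fun hs => hz ((hv j).2 hs)
  have hvI : ∀ j {p : (Fin n → ℝ) → ℝ}, Continuous p → Integrable fun z => v j z * p z :=
    fun j p hp => ((hv j).1.continuous.mul hp).integrable_of_hasCompactSupport
      (HasCompactSupport.intro hS fun z hz => by
        simp only [Pi.mul_apply, hout j z hz, zero_mul])
  have hIBP : ∀ j, ∫ z, v j z * q z ≤ A := by
    intro j
    have hdI : ∀ a, Integrable fun z => fderiv ℝ (v j) z (ev a) * W z a := fun a =>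
      ((((hv j).1.continuous_fderiv one_ne_zero).clm_apply continuous_const).mul
        (hWa a).continuous).integrable_of_hasCompactSupport (HasCompactSupport.intro hS fun z hz => by
          simp [fderiv_of_notMem_tsupport ℝ fun hs => hz ((hv j).2 hs)])
    have hqa : ∀ a, Integrable fun z => v j z * fderiv ℝ (fun w => W w a) z (ev a) := fun a =>
      hvI j (((hWa a).continuous_fderiv one_ne_zero).clm_apply continuous_const)
    have e1 : ∫ z, v j z * q z = -∫ z, ∑ a, fderiv ℝ (v j) z (ev a) * W z a := by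
      simp only [hq, Finset.mul_sum]
      rw [integral_finsetSum _ fun a _ => hqa a, integral_finsetSum _ fun a _ => hdI a,
        ← Finset.sum_neg_distrib]
      refine Finset.sum_congr rfl fun a _ => ?_
      exact integral_mul_fderiv_eq_neg_fderiv_mul_of_integrable (hdI a) (hqa a)
        (hvI j (hWa a).continuous) (fun x _ => (hv j).1.differentiable one_ne_zero x)
        (fun x _ => (hWa a).differentiable one_ne_zero x)
    rw [e1, ← integral_neg]
    refine le_trans (integral_mono (integrable_finsetSum _ fun a _ => hdI a).neg ?_ fun z => ?_)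
      (hper j)
    · exact ((h.continuous_conorm_cd (hv j).1).mul h.continuous_dens).integrable_of_hasCompactSupport
        (HasCompactSupport.intro hS fun z hz => by
          simp [cd_eq_zero_of_notMem fun hs => hz ((hv j).2 hs), conorm_zero])
    · have e2 : ∑ a, fderiv ℝ (v j) z (ev a) * W z a =
          φ z * pairing G z (cd (v j) z) (cd (D o) z) := by
        rw [pairing_cd, ← hg, clm_eq_sum (fderiv ℝ (v j) z) (g z), Finset.mul_sum]
        refine Finset.sum_congr rfl fun a _ => ?_
        simp [hW]; ring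
      beta_reduce
      rw [e2]
      have h7 := (neg_le_abs _).trans (h.abs_pairing_le z (cd (v j) z) (cd (D o) z))
      have hφ0 : 0 ≤ φ z := mul_nonneg (h.dens_pos z).le (inv_nonneg.2 (Real.sqrt_nonneg _))
      rw [← mul_neg]
      refine (mul_le_mul_of_nonneg_left h7 hφ0).trans ?_
      have h8 : conorm G z (cd (D o) z) * (Real.sqrt (f z))⁻¹ ≤ 1 := by
        rw [mul_inv_le_iff₀ (Real.sqrt_pos.2 (hf0 z)), one_mul, conorm, h.eikonal]
        exact Real.sqrt_le_sqrt (by simp only [hf]; linarith)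
      calc φ z * (conorm G z (cd (v j) z) * conorm G z (cd (D o) z))
          = (conorm G z (cd (D o) z) * (Real.sqrt (f z))⁻¹) *
              (conorm G z (cd (v j) z) * dens G z) := by simp only [hφ]; ring
        _ ≤ 1 * (conorm G z (cd (v j) z) * dens G z) :=
            mul_le_mul_of_nonneg_right h8 (mul_nonneg (conorm_nonneg _ _) (h.dens_pos z).le)
        _ = _ := one_mul _
  -- the limit
  obtain ⟨C, hC⟩ := hT.exists_bound_of_continuousOn hqc.continuousOn
  have hΩT : Ω ⊆ T := subset_closure.trans subset_union_right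
  have hIΩ : Integrable fun z => Ω.indicator 1 z * q z := by
    refine (((hqc.continuousOn.integrableOn_compact hT).mono_set hΩT).integrable_indicator hΩ).congr
      (Eventually.of_forall fun z => ?_)
    by_cases hz : z ∈ Ω <;> simp [hz]
  have h1Ω : Integrable fun z => Ω.indicator (1 : (Fin n → ℝ) → ℝ) z :=
    (((continuous_const (y := (1 : ℝ))).continuousOn.integrableOn_compact hT).mono_set
      hΩT).integrable_indicator hΩ
  have hd : ∀ j, Integrable fun z => |v j z - Ω.indicator 1 z| := fun j =>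
    (((hvI j (continuous_const (y := (1 : ℝ)))).congr (Eventually.of_forall fun z => mul_one _)).sub
      h1Ω).abs
  have hgoal : ∀ j, ∫ z, Ω.indicator 1 z * q z ≤ A + C * ∫ z, |v j z - Ω.indicator 1 z| := by
    intro j
    have h1 : |∫ z, Ω.indicator 1 z * q z - v j z * q z| ≤
        C * ∫ z, |v j z - Ω.indicator 1 z| := by
      rw [← integral_const_mul]
      refine abs_integral_le_integral_abs.trans
        (integral_mono (hIΩ.sub (hvI j hqc)).abs ((hd j).const_mul C) fun z => ?_)
      beta_reduce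
      rw [← sub_mul, abs_mul, abs_sub_comm]
      by_cases hz : z ∈ T
      · rw [mul_comm C]
        exact mul_le_mul_of_nonneg_left (hC z hz) (abs_nonneg _)
      · rw [hout j z fun hs => hz (Or.inl hs), Set.indicator_of_notMem fun hs => hz (hΩT hs)]
        simp
    rw [integral_sub hIΩ (hvI j hqc)] at h1
    linarith [hIBP j, (abs_le.1 h1).2]
  have hlimA : ∫ z, Ω.indicator 1 z * q z ≤ A :=
    ge_of_tendsto (by simpa using (hlim.const_mul C).const_add A) (Eventually.of_forall hgoal)
  refine le_trans ?_ hlimA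
  rw [volG, ← integral_indicator hΩ, ← integral_const_mul]
  refine integral_mono
    ((((h.continuous_dens.continuousOn.integrableOn_compact hT).mono_set hΩT).integrable_indicator
      hΩ).const_mul _) hIΩ fun z => ?_
  beta_reduce
  by_cases hz : z ∈ Ω
  · simp only [Set.indicator_of_mem hz, Pi.one_apply, one_mul]
    exact hlow z (hΩT hz)
  · simp [Set.indicator_of_notMem hz]

end Vale.Agent.P219.CH
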