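import Vale.Agent.P219.CH.Defs
import Vale.Agent.P219.Defs

/-!
# The constant is at least three quarters of the sharp one in every dimension
-/

noncomputable section

open MeasureTheory Set Filter Topology

namespace Vale.Agent.P219.CH

/-- The comparison function of the Gamma function. -/
def gammaBound (n : ℕ) : ℝ :=
  (3 / 4 : ℝ) ^ n * n * Real.sqrt Real.pi * ((n : ℝ) - 1) ^ (((n : ℝ) - 1) / 2) / 2 ^ ((n : ℝ) - 1)

lemma gammaBound_step {n : ℕ} (hn : 2 ≤ n) :
    gammaBound (n + 2) ≤ ((n : ℝ) / 2 + 1) * gammaBound n := by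
  have hn2 : (2 : ℝ) ≤ n := by exact_mod_cast hn
  obtain ⟨m, hm⟩ : ∃ m : ℝ, m = (n : ℝ) - 1 := ⟨_, rfl⟩
  have hm0 : 0 < m := by linarith
  have key : 9 / 64 * ((1 + 2 / m) ^ (m / 2)) * ((n : ℝ) + 1) ≤ n / 2 := by
    rcases Nat.lt_or_ge n 4 with h | h
    · interval_cases n
      · norm_num at hm; subst hm
        have e : ((1 : ℝ) + 2 / 1) ^ ((1 : ℝ) / 2) ≤ 2 := by
          rw [← Real.sqrt_eq_rpow, Real.sqrt_le_iff]; norm_num
        norm_num at e ⊢
        linarith
      · norm_num at hm; subst hm; norm_num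
    · have h4 : (4 : ℝ) ≤ n := by exact_mod_cast h
      have e : (1 + 2 / m) ^ (m / 2) ≤ Real.exp 1 := by
        calc (1 + 2 / m) ^ (m / 2) ≤ Real.exp (2 / m) ^ (m / 2) :=
              Real.rpow_le_rpow (by positivity) (by linarith [Real.add_one_le_exp (2 / m)])
                (by positivity)
          _ = Real.exp 1 := by
              rw [← Real.exp_mul]; congr 1; field_simp
      have he := Real.exp_one_lt_d9
      calc 9 / 64 * ((1 + 2 / m) ^ (m / 2)) * ((n : ℝ) + 1)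
          ≤ 9 / 64 * 2.72 * ((n : ℝ) + 1) := by
            refine mul_le_mul_of_nonneg_right ?_ (by positivity)
            linarith
        _ ≤ n / 2 := by linarith
  have e1 : ((n + 2 : ℕ) : ℝ) - 1 = m + 2 := by push_cast; rw [hm]; ring
  have e2 : (m + 2) ^ ((m + 2) / 2) = (1 + 2 / m) ^ (m / 2) * (m + 2) * m ^ (m / 2) := by
    rw [show (m + 2) / 2 = m / 2 + 1 by ring, Real.rpow_add (by positivity), Real.rpow_one,
      show m + 2 = (1 + 2 / m) * m by field_simp,
      Real.mul_rpow (by positivity) hm0.le]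
    ring
  rw [gammaBound, gammaBound, e1, ← hm, e2, Real.rpow_add two_pos, pow_add]
  push_cast
  have hn0 : (0 : ℝ) < n := by linarith
  rw [show (2 : ℝ) ^ (2 : ℝ) = 4 by norm_num]
  calc (3 / 4 : ℝ) ^ n * (3 / 4) ^ 2 * ((n : ℝ) + 2) * Real.sqrt Real.pi *
        ((1 + 2 / m) ^ (m / 2) * (m + 2) * m ^ (m / 2)) / (2 ^ m * 4)
      = (9 / 64 * ((1 + 2 / m) ^ (m / 2)) * ((n : ℝ) + 1)) * (((n : ℝ) + 2) *
          ((3 / 4 : ℝ) ^ n * Real.sqrt Real.pi * m ^ (m / 2) / 2 ^ m)) := by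
        rw [show m + 2 = (n : ℝ) + 1 by rw [hm]; ring]; ring
    _ ≤ (n : ℝ) / 2 * (((n : ℝ) + 2) *
          ((3 / 4 : ℝ) ^ n * Real.sqrt Real.pi * m ^ (m / 2) / 2 ^ m)) :=
        mul_le_mul_of_nonneg_right key (by positivity)
    _ = _ := by ring

lemma gammaBound_le (k : ℕ) :
    ∀ n ∈ ({2 * k + 2, 2 * k + 3} : Set ℕ), gammaBound n ≤ Real.Gamma ((n : ℝ) / 2 + 1) := by
  induction k with
  | zero =>
    have hs : Real.sqrt Real.pi ≤ 1.7725 := by
      rw [Real.sqrt_le_iff]; refine ⟨by norm_num, ?_⟩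
      linarith [Real.pi_lt_d4, show (3.14159 : ℝ) ≤ 1.7725 ^ 2 by norm_num,
        show (3.1416 : ℝ) ≤ 1.7725 ^ 2 by norm_num]
    intro n hn
    rcases hn with rfl | rfl
    · have : Real.Gamma (((2 * 0 + 2 : ℕ) : ℝ) / 2 + 1) = 1 := by
        norm_num
      rw [this, gammaBound]
      norm_num
      linarith
    · have : Real.Gamma (((2 * 0 + 3 : ℕ) : ℝ) / 2 + 1) = 3 / 4 * Real.sqrt Real.pi := by
        rw [show ((2 * 0 + 3 : ℕ) : ℝ) / 2 + 1 = (1 / 2 + 1) + 1 by norm_num,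
          Real.Gamma_add_one (by norm_num), Real.Gamma_add_one (by norm_num),
          Real.Gamma_one_half_eq]
        ring
      rw [this, gammaBound]
      norm_num
      linarith [Real.sqrt_nonneg Real.pi]
  | succ k ih =>
    have step : ∀ n : ℕ, 2 ≤ n → gammaBound n ≤ Real.Gamma ((n : ℝ) / 2 + 1) →
        gammaBound (n + 2) ≤ Real.Gamma (((n + 2 : ℕ) : ℝ) / 2 + 1) := by
      intro n hn h
      rw [show ((n + 2 : ℕ) : ℝ) / 2 + 1 = ((n : ℝ) / 2 + 1) + 1 by push_cast; ring,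
        Real.Gamma_add_one (by positivity)]
      exact (gammaBound_step hn).trans (mul_le_mul_of_nonneg_left h (by positivity))
    intro n hn
    rcases hn with rfl | rfl
    · exact step (2 * k + 2) (by omega) (ih _ (Or.inl rfl))
    · exact step (2 * k + 3) (by omega) (ih _ (Or.inr rfl))

/-- The constant `lam n` is at least three quarters of the sharp constant. -/
theorem three_quarters_le_lam {n : ℕ} (hn : 2 ≤ n) :
    3 / 4 * Vale.Agent.P219.sharpConst n ≤ lam n := by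
  have : Nonempty (Fin n) := ⟨⟨0, by omega⟩⟩
  have hn2 : (2 : ℝ) ≤ n := by exact_mod_cast hn
  have hn0 : (0 : ℝ) < n := by linarith
  have hg : gammaBound n ≤ Real.Gamma ((n : ℝ) / 2 + 1) := by
    refine gammaBound_le ((n - 2) / 2) n ?_
    simp only [Set.mem_insert_iff, Set.mem_singleton_iff]
    omega
  obtain ⟨m, hm⟩ : ∃ m : ℝ, m = (n : ℝ) - 1 := ⟨_, rfl⟩
  have hm0 : 0 < m := by linarith
  have hΓ : 0 < Real.Gamma ((n : ℝ) / 2 + 1) := Real.Gamma_pos_of_pos (by positivity)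
  have hvol : (volume (Metric.ball (0 : EuclideanSpace ℝ (Fin n)) 1)).toReal =
      Real.sqrt Real.pi ^ n / Real.Gamma ((n : ℝ) / 2 + 1) := by
    rw [EuclideanSpace.volume_ball, Fintype.card_fin]
    simp [ENNReal.toReal_ofReal (div_nonneg (pow_nonneg (Real.sqrt_nonneg _) _) hΓ.le)]
  rw [Vale.Agent.P219.sharpConst, hvol, lam, ← hm, ← mul_assoc]
  rw [← Real.rpow_le_rpow_iff (z := (n : ℝ)) (by positivity) (by positivity) hn0,
    Real.mul_rpow (by positivity) (by positivity), ← Real.rpow_mul (by positivity),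
    ← Real.rpow_mul (by positivity), one_div_mul_cancel hn0.ne', Real.rpow_one, Real.rpow_one,
    Real.rpow_natCast, ← mul_div_assoc, div_le_iff₀ hΓ]
  refine le_trans (le_of_eq ?_) (mul_le_mul_of_nonneg_left hg (by positivity))
  rw [gammaBound, ← hm, mul_pow]
  have e1 : (n : ℝ) ^ n = (n : ℝ) ^ m * n := by
    rw [← Real.rpow_natCast (n : ℝ) n, show ((n : ℕ) : ℝ) = m + 1 by rw [hm]; ring,
      Real.rpow_add (by linarith), Real.rpow_one]
  have e2 : Real.sqrt Real.pi ^ n = Real.pi ^ (m / 2) * Real.sqrt Real.pi := by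
    rw [← Real.rpow_natCast (Real.sqrt Real.pi) n, show ((n : ℕ) : ℝ) = m + 1 by rw [hm]; ring,
      Real.rpow_add (by positivity), Real.rpow_one, Real.sqrt_eq_rpow,
      ← Real.rpow_mul Real.pi_pos.le]
    ring_nf
  have e3 : (4 * Real.pi / m) ^ (m / 2) = 2 ^ m * Real.pi ^ (m / 2) / m ^ (m / 2) := by
    rw [Real.div_rpow (by positivity) hm0.le, Real.mul_rpow (by norm_num) Real.pi_pos.le,
      show (4 : ℝ) = (2 : ℝ) ^ (2 : ℝ) by norm_num, ← Real.rpow_mul two_pos.le]
    ring_nf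
  rw [e1, e2, e3]
  field_simp

end Vale.Agent.P219.CH
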