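import Vale.Agent.P219.CH.Gauss

/-!
# Gaussian monotonicity along almost minimisers gives the isoperimetric inequality
-/

noncomputable section

open MeasureTheory Set Filter Topology Matrix

namespace Vale.Agent.P219.CH

variable {n : ℕ} {G : (Fin n → ℝ) → Matrix (Fin n) (Fin n) ℝ}
  {D : (Fin n → ℝ) → (Fin n → ℝ) → ℝ} {K : Set (Fin n → ℝ)} {u : (Fin n → ℝ) → ℝ}

/-- A lower bound for a concave power after a decrease of at most `d`. -/
lemma concave_step {V V' d α : ℝ} (hd0 : 0 ≤ d) (hdV : d < V) (hV' : V - d ≤ V') (hα0 : 0 ≤ α)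
    (hα1 : α ≤ 1) : V ^ α - α * (V - d) ^ (α - 1) * d ≤ V' ^ α := by
  have hW : 0 < V - d := by linarith
  have hW' : (V - d) ^ α ≤ V' ^ α := Real.rpow_le_rpow hW.le hV' hα0
  have hs : (-1 : ℝ) ≤ d / (V - d) := le_trans (by norm_num) (div_nonneg hd0 hW.le)
  have hb := rpow_one_add_le_one_add_mul_self hs hα0 hα1
  have e : V = (V - d) * (1 + d / (V - d)) := by field_simp; ring
  have h1 : V ^ α ≤ (V - d) ^ α + α * (V - d) ^ (α - 1) * d := by
    conv_lhs => rw [e, Real.mul_rpow hW.le (by linarith)]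
    refine (mul_le_mul_of_nonneg_left hb (Real.rpow_nonneg hW.le α)).trans (le_of_eq ?_)
    rw [Real.rpow_sub_one hW.ne']
    field_simp
  linarith

/-- The monotone quantity of the Gaussian perimeter. -/
theorem IsCH.gauss_growth (h : IsCH G D) (hK : IsCompact K) (hu : Comp K u) (x : Fin n → ℝ)
    {s₀ s₁ m b E : ℝ} (hs₀ : 0 < s₀) (hs₁ : s₀ ≤ s₁) (hm : 0 ≤ m) (hE : 0 ≤ E)
    (hd : ∀ s ∈ Icc s₀ s₁, (m - b ^ 2 * s ^ 2 / 4) * gQ G D x s u ≤ 2 * gMom G D x s u + E) :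
    s₁ ^ m * Real.exp (-(b ^ 2 * s₁ ^ 2 / 8)) *
        (gQ G D x s₀ u * s₀ ^ (-m) -
          E * (s₁ * (s₀ ^ (-m) * Real.exp (b ^ 2 * s₁ ^ 2 / 8) / s₀))) ≤ gQ G D x s₁ u := by
  set Cf := s₀ ^ (-m) * Real.exp (b ^ 2 * s₁ ^ 2 / 8) / s₀
  set F : ℝ → ℝ := fun s =>
    gQ G D x s u * (s ^ (-m) * Real.exp (b ^ 2 * s ^ 2 / 8)) + E * Cf * s with hF
  have hder : ∀ s : ℝ, 0 < s → HasDerivAt F
      ((2 * gMom G D x s u - (m - b ^ 2 * s ^ 2 / 4) * gQ G D x s u) *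
        (s ^ (-m) * Real.exp (b ^ 2 * s ^ 2 / 8) / s) + E * Cf) s := by
    intro s hs
    have h1 := Real.hasDerivAt_rpow_const (x := s) (p := -m) (Or.inl hs.ne')
    have h2 : HasDerivAt (fun q : ℝ => b ^ 2 * q ^ 2 / 8) (b ^ 2 * s / 4) s :=
      (((hasDerivAt_pow 2 s).const_mul (b ^ 2)).div_const 8).congr_deriv (by ring)
    have h3 := ((h.hasDerivAt_gQ hK hu x hs).mul (h1.mul h2.exp)).add
      ((hasDerivAt_id s).const_mul (E * Cf))
    refine h3.congr_deriv ?_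
    simp only [Pi.mul_apply]
    rw [Real.rpow_sub_one hs.ne']
    field_simp
    ring
  have hmono : MonotoneOn F (Icc s₀ s₁) := by
    refine monotoneOn_of_hasDerivWithinAt_nonneg (convex_Icc _ _)
      (fun s hs => (hder s (hs₀.trans_le hs.1)).continuousAt.continuousWithinAt)
      (fun s hs => (hder s (hs₀.trans (interior_Icc.subset hs).1)).hasDerivWithinAt) ?_
    intro s hs
    rw [interior_Icc] at hs
    have hs0 : 0 < s := hs₀.trans hs.1
    have hg : s ^ (-m) * Real.exp (b ^ 2 * s ^ 2 / 8) / s ≤ Cf := by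
      refine div_le_div₀ (by positivity) (mul_le_mul ?_ (Real.exp_le_exp.2 ?_) (Real.exp_pos _).le
        (Real.rpow_nonneg hs₀.le _)) hs₀ hs.1.le
      · exact Real.rpow_le_rpow_of_nonpos hs₀ hs.1.le (neg_nonpos.2 hm)
      · have := pow_le_pow_left₀ hs0.le hs.2.le 2
        gcongr
    have hg0 : 0 ≤ s ^ (-m) * Real.exp (b ^ 2 * s ^ 2 / 8) / s := by positivity
    have h1 := mul_le_mul_of_nonneg_right (hd s ⟨hs.1.le, hs.2.le⟩) hg0
    have h2 := mul_le_mul_of_nonneg_left hg hE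
    rw [add_mul] at h1
    rw [sub_mul]
    linarith
  have hle := hmono (left_mem_Icc.2 hs₁) (right_mem_Icc.2 hs₁) hs₁
  simp only [hF] at hle
  have hs1 : 0 < s₁ := hs₀.trans_le hs₁
  have hQ0 := h.gQ_nonneg x s₀ u
  have hCf : 0 ≤ Cf := by positivity
  have hone : (1 : ℝ) ≤ Real.exp (b ^ 2 * s₀ ^ 2 / 8) := Real.one_le_exp (by positivity)
  have hlow : gQ G D x s₀ u * s₀ ^ (-m) - E * (s₁ * Cf) ≤
      gQ G D x s₁ u * (s₁ ^ (-m) * Real.exp (b ^ 2 * s₁ ^ 2 / 8)) := by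
    nlinarith [mul_le_mul_of_nonneg_left hone (mul_nonneg hQ0 (Real.rpow_nonneg hs₀.le (-m))),
      mul_nonneg (mul_nonneg hE hCf) hs₀.le]
  refine (mul_le_mul_of_nonneg_left hlow (by positivity)).trans (le_of_eq ?_)
  rw [Real.rpow_neg hs1.le, Real.exp_neg]
  field_simp

/-- The first variation at an almost minimiser. -/
theorem IsCH.stationary (h : IsCH G D) (hK : IsCompact K) {x : Fin n → ℝ} {u u' : (Fin n → ℝ) → ℝ}
    (hu : Comp K u) {m s t e H hb C M δ l α d : ℝ} (hs : 0 < s) (ht : 0 < t) (he : 0 ≤ e)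
    (hl : 0 ≤ l) (hM : 0 ≤ M) (hC : 0 ≤ C) (hα0 : 0 ≤ α) (hα1 : α ≤ 1)
    (hd : d = t * gFlux G D x s u + t * e * per G u) (hdV : d < vol G u)
    (hb' : l * α * (vol G u - d) ^ (α - 1) ≤ hb) (hH : hb ≤ H) (hgap : gap G u ≤ δ)
    (hper : per G u' ≤ per G u
      - t * (m * gQ G D x s u - 2 * gMom G D x s u + gNormal G D x s u) + t * e * per G u)
    (hvol : vol G u - t * gFlux G D x s u - t * e * per G u ≤ vol G u')
    (hgap' : gap G u' ≤ (1 + C * t) * gap G u)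
    (hmin : per G u - l * vol G u ^ α + M * gap G u ≤
      per G u' - l * vol G u' ^ α + M * gap G u' + δ) :
    (m - hb ^ 2 * s ^ 2 / 4) * gQ G D x s u ≤
      2 * gMom G D x s u + (e * per G u * (1 + H) + M * C * δ + δ / t) := by
  have hfl : 0 ≤ gFlux G D x s u := integral_nonneg fun y =>
    mul_nonneg (mul_nonneg (abs_nonneg _) (gw_pos x s y).le) (h.dens_pos y).le
  have hP := h.per_nonneg u
  have hd0 : 0 ≤ d := by
    rw [hd]; have := mul_nonneg ht.le hfl; have := mul_nonneg (mul_nonneg ht.le he) hP; linarith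
  have h1 := concave_step (V' := vol G u') (α := α) hd0 hdV (by rw [hd]; linarith) hα0 hα1
  have h3 : l * vol G u ^ α - l * vol G u' ^ α ≤ hb * d :=
    calc l * vol G u ^ α - l * vol G u' ^ α = l * (vol G u ^ α - vol G u' ^ α) := by ring
      _ ≤ l * (α * (vol G u - d) ^ (α - 1) * d) := mul_le_mul_of_nonneg_left (by linarith) hl
      _ = l * α * (vol G u - d) ^ (α - 1) * d := by ring
      _ ≤ hb * d := mul_le_mul_of_nonneg_right hb' hd0
  have h4 : M * gap G u' ≤ M * gap G u + M * C * t * δ := by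
    nlinarith [mul_le_mul_of_nonneg_left hgap' hM,
      mul_le_mul_of_nonneg_left hgap (mul_nonneg (mul_nonneg hM hC) ht.le)]
  have h6 : hb * (t * e * per G u) ≤ H * (t * e * per G u) :=
    mul_le_mul_of_nonneg_right hH (mul_nonneg (mul_nonneg ht.le he) hP)
  have h7 : t * ((m * gQ G D x s u - 2 * gMom G D x s u + gNormal G D x s u) -
      hb * gFlux G D x s u) ≤ t * (e * per G u * (1 + H) + M * C * δ + δ / t) := by
    have e1 : t * (e * per G u * (1 + H) + M * C * δ + δ / t) =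
        t * e * per G u + H * (t * e * per G u) + M * C * t * δ + δ := by
      field_simp
    rw [e1]
    rw [hd] at h3
    linarith
  have h8 := le_of_mul_le_mul_left h7 ht
  have h9 := h.flux_sub_normal_le hK hu x hs hb
  linarith

lemma lam_pow {m α : ℝ} (hn : 2 ≤ n) (hm : m = (n : ℝ) - 1) (hαm : α = m / n) :
    lam n ^ (n : ℝ) * α ^ m = (4 * Real.pi * m) ^ (m / 2) := by
  have hn2 : (2 : ℝ) ≤ n := by exact_mod_cast hn
  have hmp : 0 < m := by linarith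
  rw [lam, ← hm, ← Real.rpow_mul (by positivity), one_div_mul_cancel (by positivity),
    Real.rpow_one, hαm, Real.div_rpow (by positivity) (by positivity) (m / 2),
    Real.div_rpow hmp.le (by positivity) m, Real.mul_rpow (by positivity : (0:ℝ) ≤ 4 * Real.pi)
    hmp.le]
  have e : m ^ m = m ^ (m / 2) * m ^ (m / 2) := by rw [← Real.rpow_add hmp, add_halves]
  rw [e]
  field_simp

/-- Jensen after the growth bound. -/
lemma tilted_bound {m E ε Cf S Q Qm Q₀ P T : ℝ}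
    (hgrow : S ^ m * Real.exp (-(m / 4)) * (Q₀ - E * (S * Cf)) ≤ Q)
    (hQ' : (1 - ε) * T ≤ Q₀) (hlast : (m - m / 2) * Q ≤ 2 * Qm + E)
    (hper' : Real.exp (m / 4) * (Q + Qm - m / 4 * Q) ≤ P) (hS0 : 0 < S) :
    S ^ m * ((1 - ε) * T) - E * (S ^ m * (S * Cf) + Real.exp (m / 4) / 2) ≤ P := by
  have h1 := mul_le_mul_of_nonneg_left hgrow (Real.exp_pos (m / 4)).le
  have e1 : ∀ W : ℝ,
      Real.exp (m / 4) * (S ^ m * Real.exp (-(m / 4)) * W) = S ^ m * W := fun W => by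
    rw [Real.exp_neg]; field_simp
  rw [e1] at h1
  have h2 := mul_le_mul_of_nonneg_left hQ' (Real.rpow_nonneg hS0.le m)
  have h3 := mul_le_mul_of_nonneg_left hlast (Real.exp_pos (m / 4)).le
  linarith

/-- The perimeter bound contradicts the choice of the volume constant. -/
lemma final_bound {m α a q θ l V P S Cf C₂ E κ ε hmax b : ℝ} (hn : 2 ≤ n) (hm : m = (n : ℝ) - 1)
    (hαm : α = m / n) (hl0 : 0 < l) (hθ0 : 0 < θ) (hV0 : 0 < V) (hh : ℝ)
    (hhh : hh = l * α * θ * V ^ (α - 1)) (hS : S = Real.sqrt (2 * m) / hh) (hS0 : 0 < S)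
    (hSb : S ≤ b) (hPV : P ≤ l * V ^ α)
    (hP1 : S ^ m * ((1 - ε) * Real.sqrt (2 * Real.pi) ^ m) -
      E * (S ^ m * (S * Cf) + Real.exp (m / 4) / 2) ≤ P)
    (ha : a = (4 * Real.pi * m) ^ (m / 2)) (ha0 : 0 < a) (hq : q = l ^ (n : ℝ) * α ^ m / a)
    (hθm : q * θ ^ m = Real.sqrt q) (hE : 0 ≤ E) (hEκ : E ≤ κ) (hκ0 : 0 ≤ κ)
    (hhmax' : hh ≤ hmax) (hC₂ : C₂ = b ^ m * (b * Cf) + Real.exp (m / 4) / 2)
    (hκ : κ = ε * a / (hmax ^ m * C₂ + 1)) (hε : ε = (1 - Real.sqrt q) / 4)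
    (hsq1 : Real.sqrt q < 1) (hCf : 0 ≤ Cf) (hb0 : 0 < b) : False := by
  have hn2 : (2 : ℝ) ≤ n := by exact_mod_cast hn
  have hmp : 0 < m := by linarith
  have hα0 : 0 < α := by rw [hαm]; positivity
  have hh0 : 0 < hh := by rw [hhh]; positivity
  have hmax0 : 0 < hmax := hh0.trans_le hhmax'
  have hPhi : hh ^ m * P ≤ θ ^ m * (q * a) := by
    refine (mul_le_mul_of_nonneg_left hPV (by positivity)).trans (le_of_eq ?_)
    rw [hhh, Real.mul_rpow (by positivity) (by positivity), Real.mul_rpow (by positivity) hθ0.le,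
      Real.mul_rpow hl0.le hα0.le, hq, div_mul_cancel₀ _ ha0.ne', ← Real.rpow_mul hV0.le]
    have e1 : V ^ ((α - 1) * m) * V ^ α = 1 := by
      rw [← Real.rpow_add hV0, show (α - 1) * m + α = 0 by rw [hαm, hm]; field_simp; ring,
        Real.rpow_zero]
    have e2 : l ^ (n : ℝ) = l ^ m * l := by
      rw [show (n : ℝ) = m + 1 by rw [hm]; ring, Real.rpow_add hl0, Real.rpow_one]
    rw [e2]
    calc l ^ m * α ^ m * θ ^ m * V ^ ((α - 1) * m) * (l * V ^ α)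
        = l ^ m * α ^ m * θ ^ m * l * (V ^ ((α - 1) * m) * V ^ α) := by ring
      _ = _ := by rw [e1]; ring
  have hSa : hh ^ m * (S ^ m * Real.sqrt (2 * Real.pi) ^ m) = a := by
    have e1 : hh * (S * Real.sqrt (2 * Real.pi)) = Real.sqrt (4 * Real.pi * m) := by
      rw [hS, ← mul_assoc, mul_div_cancel₀ _ hh0.ne', ← Real.sqrt_mul (by positivity)]
      ring_nf
    rw [← Real.mul_rpow hS0.le (Real.sqrt_nonneg _), ← Real.mul_rpow hh0.le (by positivity), e1,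
      Real.sqrt_eq_rpow, ← Real.rpow_mul (by positivity), ha]
    ring_nf
  have hErr : hh ^ m * (E * (S ^ m * (S * Cf) + Real.exp (m / 4) / 2)) ≤ ε * a := by
    have hC : 0 ≤ C₂ := by rw [hC₂]; positivity
    calc hh ^ m * (E * (S ^ m * (S * Cf) + Real.exp (m / 4) / 2))
        ≤ hmax ^ m * (κ * C₂) := by
          refine mul_le_mul (Real.rpow_le_rpow hh0.le hhmax' hmp.le)
            (mul_le_mul hEκ ?_ (by positivity) hκ0) (by positivity) (by positivity)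
          rw [hC₂]
          have := Real.rpow_le_rpow hS0.le hSb hmp.le
          have := mul_le_mul this (mul_le_mul_of_nonneg_right hSb hCf) (by positivity) (by positivity)
          linarith
      _ ≤ κ * (hmax ^ m * C₂ + 1) := by nlinarith
      _ = _ := by rw [hκ]; field_simp
  have hfin := mul_le_mul_of_nonneg_left hP1 (Real.rpow_nonneg hh0.le m)
  have e3 : θ ^ m * (q * a) = Real.sqrt q * a := by rw [← hθm]; ring
  have e4 : hh ^ m * (S ^ m * ((1 - ε) * Real.sqrt (2 * Real.pi) ^ m)) = (1 - ε) * a := by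
    rw [← hSa]; ring
  rw [e3] at hPhi
  rw [mul_sub, e4] at hfin
  nlinarith

lemma error_le {κ P hmax MC t δ e : ℝ} (hκ : 0 < κ) (hP : 0 ≤ P) (hmax0 : 0 < hmax)
    (hMC : 0 ≤ MC) (ht : 0 < t) (hδ0 : 0 < δ) (he : e = κ / (2 * (P * (1 + hmax) + 1)))
    (hδ : δ ≤ κ / (2 * (MC + 1 / t + 1))) : e * P * (1 + hmax) + MC * δ + δ / t ≤ κ := by
  have h0 : 0 ≤ P * (1 + hmax) := mul_nonneg hP (by linarith)
  have h1 : e * (P * (1 + hmax)) ≤ κ / 2 := by
    rw [he, div_mul_eq_mul_div, div_le_iff₀ (by positivity)]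
    linarith [mul_nonneg hκ.le h0]
  have h2 := (le_div_iff₀ (by positivity)).1 hδ
  have e2 : δ / t = δ * (1 / t) := by ring
  rw [e2]
  linarith

/-- The differential inequality at one scale. -/
theorem IsCH.variation_step (h : IsCH G D) (hn : 2 ≤ n) {m α : ℝ} (hm : m = (n : ℝ) - 1)
    (hαm : α = m / n) (hK : IsCompact K) {x : Fin n → ℝ} {u u' : (Fin n → ℝ) → ℝ}
    (hu : Comp K u) {B : ℝ} (hB : ∀ y ∈ K, D x y ≤ B)
    {s t e l M C δ θ r v₀ P₀ Fm hh hmax : ℝ} (hs : 0 < s) (ht0 : 0 < t) (he : 0 ≤ e) (hl : 0 ≤ l)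
    (hM : 0 ≤ M) (hC : 0 ≤ C) (hθ0 : 0 < θ) (hθ1 : 1 < θ) (hr : r = θ ^ (-(n : ℝ))) (hv₀ : 0 < v₀)
    (hVu : v₀ ≤ vol G u) (hPu : per G u ≤ P₀) (hFm : Fm = Real.sqrt (2 * B) * P₀ + e * P₀ + 1)
    (hFm0 : 0 < Fm) (ht : t ≤ (1 - r) * v₀ / Fm)
    (hhh : hh = l * α * θ * vol G u ^ (α - 1)) (hhmax' : hh ≤ hmax) (hgu : gap G u ≤ δ)
    (hper : per G u' ≤ per G u
      - t * (m * gQ G D x s u - 2 * gMom G D x s u + gNormal G D x s u) + t * e * per G u)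
    (hvol : vol G u - t * gFlux G D x s u - t * e * per G u ≤ vol G u')
    (hgap' : gap G u' ≤ (1 + C * t) * gap G u)
    (hopt : per G u - l * vol G u ^ α + M * gap G u ≤
      per G u' - l * vol G u' ^ α + M * gap G u' + δ) :
    (m - hh ^ 2 * s ^ 2 / 4) * gQ G D x s u ≤
      2 * gMom G D x s u + (e * P₀ * (1 + hmax) + M * C * δ + δ / t) := by
  have hn2 : (2 : ℝ) ≤ n := by exact_mod_cast hn
  have hmp : 0 < m := by linarith
  have hα0 : 0 < α := by rw [hαm]; positivity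
  have hα1 : α ≤ 1 := by rw [hαm, div_le_one (by linarith)]; linarith
  have hr0 : 0 < r := by rw [hr]; positivity
  have hr1 : r < 1 := hr ▸ Real.rpow_lt_one_of_one_lt_of_neg hθ1 (by linarith)
  obtain ⟨V, hV⟩ : ∃ V : ℝ, V = vol G u := ⟨_, rfl⟩
  rw [← hV] at hVu hhh
  have hV0 : 0 < V := hv₀.trans_le hVu
  obtain ⟨d, hddef⟩ : ∃ d : ℝ, d = t * gFlux G D x s u + t * e * per G u := ⟨_, rfl⟩
  have hdle : d ≤ (1 - r) * v₀ := by
    have h1 := h.flux_le hK hu x s hB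
    have h2 : gFlux G D x s u + e * per G u ≤ Fm := by
      have := mul_le_mul_of_nonneg_left hPu (Real.sqrt_nonneg (2 * B))
      have := mul_le_mul_of_nonneg_left hPu he
      rw [hFm]; linarith
    calc d = t * (gFlux G D x s u + e * per G u) := by rw [hddef]; ring
      _ ≤ t * Fm := mul_le_mul_of_nonneg_left h2 ht0.le
      _ ≤ (1 - r) * v₀ / Fm * Fm := mul_le_mul_of_nonneg_right ht hFm0.le
      _ = _ := div_mul_cancel₀ _ hFm0.ne'
  have h3 := mul_le_mul_of_nonneg_left hVu (sub_nonneg.2 hr1.le)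
  have hrV : 0 < r * V := mul_pos hr0 hV0
  have hdV : r * V ≤ V - d := by linarith
  have hb' : l * α * (vol G u - d) ^ (α - 1) ≤ hh := by
    have h1 : (V - d) ^ (α - 1) ≤ (r * V) ^ (α - 1) :=
      Real.rpow_le_rpow_of_nonpos hrV hdV (by linarith)
    rw [Real.mul_rpow hr0.le hV0.le, hr, ← Real.rpow_mul hθ0.le,
      show -(n : ℝ) * (α - 1) = 1 by rw [hαm, hm]; field_simp; ring, Real.rpow_one] at h1
    rw [← hV]
    calc l * α * (V - d) ^ (α - 1) ≤ l * α * (θ * V ^ (α - 1)) :=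
          mul_le_mul_of_nonneg_left h1 (by positivity)
      _ = hh := by rw [hhh]; ring
  have hst := h.stationary hK hu (m := m) hs ht0 he hl hM hC hα0.le hα1 hddef
    (by rw [← hV]; linarith) hb' hhmax' hgu hper hvol hgap' hopt
  have hh0 : 0 ≤ hh := by rw [hhh]; positivity
  have := mul_le_mul_of_nonneg_right (mul_le_mul_of_nonneg_left hPu he)
    (by linarith : (0:ℝ) ≤ 1 + hmax)
  linarith

/-- The inequality with the constant `lam n`, from the three parts of the proof. -/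
theorem isoperimetricCH_of_pins (hVar : ∀ n, VariationPin n) (hStart : ∀ n, StartPin n)
    (hMin : ∀ n, MinPin n) : IsoperimetricCH := by
  intro n hn G D h Ω A hΩ hΩb hP
  have hn2 : (2 : ℝ) ≤ n := by exact_mod_cast hn
  obtain ⟨m, hm⟩ : ∃ m : ℝ, m = (n : ℝ) - 1 := ⟨_, rfl⟩
  obtain ⟨α, hα⟩ : ∃ α : ℝ, α = ((n : ℝ) - 1) / n := ⟨_, rfl⟩
  rw [← hα]
  have hm0 : 1 ≤ m := by linarith
  have hmp : 0 < m := by linarith
  have hαm : α = m / n := by rw [hα, hm]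
  have hα0 : 0 < α := by rw [hαm]; positivity
  have hα1 : α ≤ 1 := by rw [hαm, div_le_one (by linarith)]; linarith
  have hA0 : 0 ≤ A := by
    obtain ⟨S, v, -, -, -, hA⟩ := hP
    exact le_trans (h.per_nonneg (v 0)) (hA 0)
  by_contra hlt
  rw [not_le] at hlt
  set X := volG G Ω ^ α with hX
  have hlam0 : 0 < lam n := by
    have : (0 : ℝ) < (n : ℝ) - 1 := by linarith
    unfold lam; positivity
  have hXpos : 0 < X := by
    by_contra hc
    have := mul_nonpos_of_nonneg_of_nonpos hlam0.le (not_lt.1 hc)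
    linarith
  set l := (A / X + lam n) / 2 with hl
  have hAX : A / X < lam n := (div_lt_iff₀ hXpos).2 hlt
  have hl0 : 0 < l := by have := div_nonneg hA0 hXpos.le; positivity
  have hl1 : l < lam n := by rw [hl]; linarith
  have hlA : A < l * X := by
    have : A / X < l := by rw [hl]; linarith
    exact (div_lt_iff₀ hXpos).1 this
  obtain ⟨R, M, P₀, v₀, hR, hM, hP₀, hv₀, hmin⟩ :=
    hMin n hn G D h Ω A l hΩ hΩb hP hl0 (by rw [← hα]; exact hlA) 0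
  set K : Set (Fin n → ℝ) := {y | D 0 y ≤ R} with hKdef
  have hK : IsCompact K := h.proper 0 R
  set VK := volG G K with hVKdef
  have hVK : v₀ ≤ VK := by
    obtain ⟨u, hu, -, hv, -⟩ := hmin 1 one_pos
    exact hv.trans (h.vol_le hK hu)
  have hVKpos : 0 < VK := hv₀.trans_le hVK
  obtain ⟨B, hB0, hB⟩ : ∃ B : ℝ, 0 ≤ B ∧ ∀ x ∈ K, ∀ y ∈ K, D x y ≤ B := by
    obtain ⟨B, hB⟩ := (hK.prod hK).bddAbove_image
      (h.continuous_D.continuousOn (s := K ×ˢ K))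
    exact ⟨max B 0, le_max_right _ _,
      fun x hx y hy => (hB ⟨(x, y), ⟨hx, hy⟩, rfl⟩).trans (le_max_left _ _)⟩
  -- the constant
  obtain ⟨a, ha⟩ : ∃ z : ℝ, z = (4 * Real.pi * m) ^ (m / 2) := ⟨_, rfl⟩
  have ha0 : 0 < a := by rw [ha]; positivity
  have hlamn : lam n ^ (n : ℝ) * α ^ m = a := ha ▸ lam_pow hn hm hαm
  obtain ⟨q, hq⟩ : ∃ z : ℝ, z = l ^ (n : ℝ) * α ^ m / a := ⟨_, rfl⟩
  have hq0 : 0 < q := by rw [hq]; positivity
  have hq1 : q < 1 := by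
    rw [hq, div_lt_one ha0, ← hlamn]
    exact mul_lt_mul_of_pos_right (Real.rpow_lt_rpow hl0.le hl1 (by linarith)) (by positivity)
  have hsq0 : 0 < Real.sqrt q := Real.sqrt_pos.2 hq0
  have hsq1 : Real.sqrt q < 1 := by rw [← Real.sqrt_one]; exact Real.sqrt_lt_sqrt hq0.le hq1
  obtain ⟨θ, hθdef⟩ : ∃ z : ℝ, z = (1 / Real.sqrt q) ^ (1 / m) := ⟨_, rfl⟩
  have hθ1 : 1 < θ := hθdef ▸ Real.one_lt_rpow ((one_lt_div hsq0).2 hsq1) (by positivity)
  have hθ0 : 0 < θ := by linarith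
  have hθm : q * θ ^ m = Real.sqrt q := by
    rw [hθdef, ← Real.rpow_mul (by positivity), one_div_mul_cancel hmp.ne', Real.rpow_one,
      ← mul_div_assoc, mul_one, Real.div_sqrt]
  obtain ⟨ε, hε⟩ : ∃ z : ℝ, z = (1 - Real.sqrt q) / 4 := ⟨_, rfl⟩
  have hε0 : 0 < ε := by rw [hε]; linarith
  -- scales
  obtain ⟨hmin', hhmin⟩ : ∃ z : ℝ, z = l * α * θ * VK ^ (α - 1) := ⟨_, rfl⟩
  obtain ⟨hmax, hhmax⟩ : ∃ z : ℝ, z = l * α * θ * v₀ ^ (α - 1) := ⟨_, rfl⟩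
  have hmin0 : 0 < hmin' := by rw [hhmin]; positivity
  have hmax0 : 0 < hmax := by rw [hhmax]; positivity
  obtain ⟨b, hb⟩ : ∃ z : ℝ, z = Real.sqrt (2 * m) / hmin' := ⟨_, rfl⟩
  have hmaxb : hmin' ≤ hmax := by
    rw [hhmin, hhmax]
    exact mul_le_mul_of_nonneg_left (Real.rpow_le_rpow_of_nonpos hv₀ hVK (by linarith))
      (by positivity)
  obtain ⟨s₀, η, hs₀, hs₀1, hη, hstart⟩ := hStart n hn G D h 0 R P₀ v₀ ε
    (Real.sqrt (2 * m) / hmax) hR hP₀ hv₀ hε0 (by positivity)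
  rw [← hm] at hstart
  have hb1 : Real.sqrt (2 * m) / hmax ≤ b :=
    hb ▸ div_le_div_of_nonneg_left (Real.sqrt_nonneg _) hmin0 hmaxb
  -- errors
  obtain ⟨Cf, hCf⟩ : ∃ z : ℝ, z = s₀ ^ (-m) * Real.exp (m / 4) / s₀ := ⟨_, rfl⟩
  obtain ⟨C₂, hC₂⟩ : ∃ z : ℝ, z = b ^ m * (b * Cf) + Real.exp (m / 4) / 2 := ⟨_, rfl⟩
  have hb0 : 0 < b := by rw [hb]; positivity
  have hC₂0 : 0 < C₂ := by rw [hC₂, hCf]; positivity
  obtain ⟨κ, hκ⟩ : ∃ z : ℝ, z = ε * a / (hmax ^ m * C₂ + 1) := ⟨_, rfl⟩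
  have hκ0 : 0 < κ := by rw [hκ]; positivity
  obtain ⟨e, he⟩ : ∃ z : ℝ, z = κ / (2 * (P₀ * (1 + hmax) + 1)) := ⟨_, rfl⟩
  have he0 : 0 < e := by rw [he]; positivity
  obtain ⟨τ, C, hτ, hC, hvar⟩ := hVar n hn G D h 0 R s₀ b e hR hs₀ (hs₀1.trans hb1) he0
  rw [← hm] at hvar
  obtain ⟨Fm, hFm⟩ : ∃ z : ℝ, z = Real.sqrt (2 * B) * P₀ + e * P₀ + 1 := ⟨_, rfl⟩
  have hFm0 : 0 < Fm := by rw [hFm]; positivity
  obtain ⟨r, hr⟩ : ∃ z : ℝ, z = θ ^ (-(n : ℝ)) := ⟨_, rfl⟩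
  have hr1 : r < 1 := hr ▸ Real.rpow_lt_one_of_one_lt_of_neg hθ1 (by linarith)
  have hr0 : 0 < r := by rw [hr]; positivity
  obtain ⟨t, ht⟩ : ∃ z : ℝ, z = min τ ((1 - r) * v₀ / Fm) := ⟨_, rfl⟩
  have ht0 : 0 < t := ht ▸ lt_min hτ (div_pos (mul_pos (by linarith) hv₀) hFm0)
  obtain ⟨δ, hδ⟩ : ∃ z : ℝ, z = min η (κ / (2 * (M * C + 1 / t + 1))) := ⟨_, rfl⟩
  have hδ0 : 0 < δ := hδ ▸ lt_min hη (by positivity)
  obtain ⟨u, hu, hPu, hVu, hgu, hPV, hopt⟩ := hmin δ hδ0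
  rw [← hα] at hopt hPV
  set V := vol G u with hVdef
  have hV0 : 0 < V := hv₀.trans_le hVu
  have hVle : V ≤ VK := h.vol_le hK hu
  obtain ⟨x, hx, hQ⟩ := hstart u hu hPu hVu (hgu.trans (hδ ▸ min_le_left _ _))
  obtain ⟨hh, hhh⟩ : ∃ z : ℝ, z = l * α * θ * V ^ (α - 1) := ⟨_, rfl⟩
  have hh0 : 0 < hh := by rw [hhh]; positivity
  have hhmax' : hh ≤ hmax := by
    rw [hhh, hhmax]
    exact mul_le_mul_of_nonneg_left (Real.rpow_le_rpow_of_nonpos hv₀ hVu (by linarith))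
      (by positivity)
  have hhmin'' : hmin' ≤ hh := by
    rw [hhh, hhmin]
    exact mul_le_mul_of_nonneg_left (Real.rpow_le_rpow_of_nonpos hV0 hVle (by linarith))
      (by positivity)
  obtain ⟨E, hE⟩ : ∃ z : ℝ, z = e * P₀ * (1 + hmax) + M * C * δ + δ / t := ⟨_, rfl⟩
  have hEpos : 0 ≤ E := by rw [hE]; positivity
  have hEκ : E ≤ κ := hE ▸ error_le hκ0 hP₀ hmax0 (mul_nonneg hM hC) ht0 hδ0 he
    (hδ ▸ min_le_right _ _)
  -- the differential inequality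
  have hd : ∀ s ∈ Icc s₀ b, (m - hh ^ 2 * s ^ 2 / 4) * gQ G D x s u ≤
      2 * gMom G D x s u + E := by
    intro s hs
    obtain ⟨u', hu', hper, hvol, hgap'⟩ := hvar t x s u ht0 (ht ▸ min_le_left _ _) hx hs hu
    rw [hE]
    exact h.variation_step hn hm hαm hK hu (hB x hx) (hs₀.trans_le hs.1) ht0 he0.le hl0.le hM hC
      hθ0 hθ1 hr hv₀ hVu hPu hFm hFm0 (ht ▸ min_le_right _ _) hhh hhmax' hgu hper hvol hgap' (hopt u' hu')
  -- the final scale
  obtain ⟨S, hS⟩ : ∃ z : ℝ, z = Real.sqrt (2 * m) / hh := ⟨_, rfl⟩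
  have hS0 : 0 < S := by rw [hS]; positivity
  have hSb : S ≤ b := hS ▸ hb ▸ div_le_div_of_nonneg_left (Real.sqrt_nonneg _) hmin0 hhmin''
  have hS0' : s₀ ≤ S := hs₀1.trans (hS ▸ div_le_div_of_nonneg_left (Real.sqrt_nonneg _) hh0 hhmax')
  have hbS : hh ^ 2 * S ^ 2 = 2 * m := by
    rw [hS, div_pow, Real.sq_sqrt (by positivity)]; field_simp
  have hgrow := h.gauss_growth hK hu x hs₀ hS0' hmp.le hEpos fun s hs => hd s ⟨hs.1, hs.2.trans hSb⟩
  rw [show hh ^ 2 * S ^ 2 / 8 = m / 4 by rw [hbS]; ring, ← hCf] at hgrow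
  have hlast := hd S ⟨hS0', hSb⟩
  rw [show hh ^ 2 * S ^ 2 / 4 = m / 2 by rw [hbS]; ring] at hlast
  have hper' := h.le_per hK hu x S (m / 4)
  have hQ' : (1 - ε) * Real.sqrt (2 * Real.pi) ^ m ≤ gQ G D x s₀ u * s₀ ^ (-m) := by
    rw [Real.sqrt_mul (by positivity), Real.sqrt_sq hs₀.le,
      Real.mul_rpow (Real.sqrt_nonneg _) hs₀.le] at hQ
    rw [Real.rpow_neg hs₀.le, ← div_eq_mul_inv, le_div_iff₀ (by positivity)]
    linarith
  have hP1 := tilted_bound hgrow hQ' hlast hper' hS0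
  exact final_bound hn hm hαm hl0 hθ0 hV0 hh hhh hS hS0 hSb hPV hP1 ha ha0 hq hθm hEpos hEκ hκ0.le
    hhmax' hC₂ hκ hε hsq1 (hCf ▸ by positivity) hb0

end Vale.Agent.P219.CH
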