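import Vale.Agent.P219.CH.StartPoint

/-!
# P219, Gaussian start: the Gaussian perimeter at a small scale is that of a hyperplane
-/

noncomputable section

open MeasureTheory ProbabilityTheory Set Filter Topology Matrix
open scoped ENNReal NNReal Real RealInnerProductSpace

namespace Vale.Agent.P219.CH

variable {n : ℕ} {G : (Fin n → ℝ) → Matrix (Fin n) (Fin n) ℝ}
  {D : (Fin n → ℝ) → (Fin n → ℝ) → ℝ}

/-- A point of average `θ` gives a lower bound for the frozen mean gradient. -/
theorem avg_gradient_ge (h : IsCH G D) {K : Set (Fin n → ℝ)} (hK : IsCompact K)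
    {u : (Fin n → ℝ) → ℝ} (hu : Comp K u) {s : ℝ} (hs : 0 < s) (x : Fin n → ℝ) {θ η : ℝ}
    (hθ : avg G s u x = θ) (hη : avg G s (fun y => u y * (1 - u y)) x ≤ η) :
    2 * θ * (1 - θ) - 2 * η ≤ √(π / 2) * (s * avg G s (fun y => conorm G x (cd u y)) x) := by
  obtain ⟨A, hAt, hA, hAA, hdet⟩ := exists_frame h x
  set T := toFrame A s x
  have hT : ContDiff ℝ 1 T := by
    let L : EuclideanSpace ℝ (Fin n) →L[ℝ] (Fin n → ℝ) := LinearMap.toContinuousLinearMap
      ((s • (toLin' A)).comp (WithLp.linearEquiv 2 ℝ (Fin n → ℝ)).toLinearMap)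
    have e : T = fun z => x + L z := by funext z; simp [T, L, toFrame]
    rw [e]
    exact contDiff_const.add L.contDiff
  have hd := norm_fderiv_toFrame h hs hAt hAA (x := x) hu.1
  have hgc : Continuous fun y => conorm G x (cd u y) :=
    (continuous_conorm h).comp (continuous_const.prodMk (continuous_cd hu.1))
  have hgs : HasCompactSupport fun y => conorm G x (cd u y) :=
    HasCompactSupport.intro hK fun y hy => by simp [cd_eq_zero hu hy, conorm, pairing]
  obtain ⟨C, hC⟩ := hgc.bounded_above_of_compact_support hgs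
  have h1 := Gauss.gradient_mean_ge (f := fun z => u (T z)) (hu.1.comp hT) (fun z => hu.2.2 _)
    (μ := θ) (η := η) (by rw [integral_toFrame h hs hAt hA hdet]; exact hθ)
    (by rw [integral_toFrame h hs hAt hA hdet (fun y => u y * (1 - u y))]; exact hη)
    (Integrable.of_bound ((hu.1.comp hT).continuous_fderiv one_ne_zero).norm.aestronglyMeasurable
      (s * C) (Eventually.of_forall fun z => by
        rw [norm_norm, hd z]
        exact mul_le_mul_of_nonneg_left ((le_abs_self _).trans (hC _)) hs.le))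
  rw [integral_congr_ae (Eventually.of_forall hd), integral_const_mul,
    integral_toFrame h hs hAt hA hdet (fun y => conorm G x (cd u y))] at h1
  exact h1

/-- The frozen mean gradient against the Gaussian perimeter. -/
theorem avg_conorm_le (h : IsCH G D) {K : Set (Fin n → ℝ)} (hK : IsCompact K) {δ : ℝ}
    (hδ : 0 < δ) :
    ∃ a C : ℝ, 0 < a ∧ 0 ≤ C ∧ ∀ u, Comp K u → ∀ x ∈ K, ∀ s, 0 < s →
      (√(2 * π) * s) ^ n * avg G s (fun y => conorm G x (cd u y)) x ≤
        (1 + δ) * gQ G D x (√(1 + δ) * s) u + C * Real.exp (-(a / s ^ 2)) * per G u := by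
  set f : (Fin n → ℝ) × (Fin n → ℝ) → ℝ := fun p => conorm G p.1 p.2 * dens G p.1
  have hf : Continuous f :=
    (continuous_conorm h).mul ((continuous_dens h).comp continuous_fst)
  have hfs : ∀ y v (a : ℝ), 0 ≤ a → f (y, a • v) = a * f (y, v) := fun y v a ha => by
    simp [f, conorm_smul h, abs_of_nonneg ha, mul_assoc]
  have hfp : ∀ y v, v ≠ 0 → 0 < f (y, v) := fun y v hv =>
    mul_pos (Real.sqrt_pos.2 (pairing_pos h y hv)) (dens_pos h y)
  obtain ⟨ρ1, hρ1, -, hmod⟩ := exists_modulus hK hf (c := 1)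
    (fun y v a ha => by rw [Real.rpow_one]; exact hfs y v a ha) one_pos hfp hδ
  obtain ⟨ρ2, hρ2, hD⟩ := D_upper h hK hδ
  set ρ := min ρ1 ρ2
  obtain ⟨C, hC, hCb⟩ := exists_comparison (hK.prod hK)
    (f := fun p : ((Fin n → ℝ) × (Fin n → ℝ)) × (Fin n → ℝ) => f (p.1.1, p.2))
    (g := fun p => f (p.1.2, p.2)) (hf.comp (by fun_prop)) (hf.comp (by fun_prop))
    (fun y v a ha => hfs _ v a ha) (fun y v a ha => hfs _ v a ha) (fun y _ v hv => hfp _ v hv)
  obtain ⟨CA, hCA, hCAb⟩ := exists_comparison hK (f := fun p : (Fin n → ℝ) × (Fin n → ℝ) => ‖p.2‖)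
    (g := fun p => √(qf G p.1 p.2)) (continuous_norm.comp continuous_snd)
    (Real.continuous_sqrt.comp (continuous_qf h))
    (fun y v a ha => by simp [norm_smul, abs_of_nonneg ha])
    (fun y v a ha => by simp [qf_smul, Real.sqrt_mul (sq_nonneg a), Real.sqrt_sq ha])
    (fun y _ v hv => Real.sqrt_pos.2 (qf_pos h y hv))
  refine ⟨ρ ^ 2 / (2 * CA ^ 2), C, by positivity, hC.le, fun u hu x hx s hs => ?_⟩
  have hP := integrable_per h hK hu
  set s0 := √(1 + δ) * s
  have hs0 : s0 ^ 2 = (1 + δ) * s ^ 2 := by rw [mul_pow, Real.sq_sqrt (by linarith)]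
  have hW : Integrable fun y => gw D x s0 y * (conorm G y (cd u y) * dens G y) := by
    refine hP.mono' (((Real.continuous_exp.comp ((continuous_D h x).div_const _).neg)).mul
      (((continuous_conorm h).comp (continuous_id.prodMk (continuous_cd hu.1))).mul
        (continuous_dens h))).aestronglyMeasurable (Eventually.of_forall fun y => ?_)
    have h0 : 0 ≤ conorm G y (cd u y) * dens G y :=
      mul_nonneg (Real.sqrt_nonneg _) (dens_pos h y).le
    show ‖Real.exp (-(D x y / s0 ^ 2)) * _‖ ≤ _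
    rw [Real.norm_of_nonneg (mul_nonneg (Real.exp_pos _).le h0)]
    exact mul_le_of_le_one_left h0 (Real.exp_le_one_iff.2
      (neg_nonpos.2 (div_nonneg (D_nonneg h x y) (sq_nonneg _))))
  set E := Real.exp (-(ρ ^ 2 / (2 * CA ^ 2) / s ^ 2))
  rw [avg, ← integral_const_mul, gQ, per, ← integral_const_mul, ← integral_const_mul,
    ← integral_add (hW.const_mul _) (hP.const_mul _)]
  refine integral_mono_of_nonneg (Eventually.of_forall fun y => mul_nonneg (by positivity)
    (mul_nonneg (Real.sqrt_nonneg _) (ker_nonneg h hs x y))) ((hW.const_mul _).add (hP.const_mul _))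
    (Eventually.of_forall fun y => ?_)
  simp only [Pi.add_apply]
  have e : (√(2 * π) * s) ^ n * (conorm G x (cd u y) * ker G s x y)
      = f (x, cd u y) * Real.exp (-(qf G x (y - x) / (2 * s ^ 2))) := by
    simp only [ker, f]
    field_simp
  rw [e]
  have hfy : f (y, cd u y) = conorm G y (cd u y) * dens G y := rfl
  have hf0 : ∀ z v, 0 ≤ f (z, v) := fun z v =>
    mul_nonneg (Real.sqrt_nonneg _) (dens_pos h z).le
  rw [← hfy]
  have hw0 : 0 ≤ gw D x s0 y := (Real.exp_pos _).le
  by_cases hy : y ∈ K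
  swap
  · have hz : ∀ z, f (z, cd u y) = 0 := fun z => by simp [f, cd_eq_zero hu hy, conorm, pairing]
    simp [hz]
  rcases le_or_gt ‖y - x‖ ρ with hnear | hfar
  · refine le_add_of_le_of_nonneg ?_ (mul_nonneg (mul_nonneg hC.le (Real.exp_pos _).le) (hf0 _ _))
    have h1 := (hmod x hx y (hnear.trans (min_le_left _ _)) (cd u y)).1
    have h2 : Real.exp (-(qf G x (y - x) / (2 * s ^ 2))) ≤ gw D x s0 y := by
      refine Real.exp_le_exp.2 (neg_le_neg ?_)
      have hDu := hD x hx (y - x) (hnear.trans (min_le_right _ _))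
      rw [add_sub_cancel] at hDu
      rw [hs0, div_le_div_iff₀ (by positivity) (by positivity)]
      have := mul_le_mul_of_nonneg_right hDu (by positivity : (0 : ℝ) ≤ 2 * s ^ 2)
      linarith
    calc f (x, cd u y) * Real.exp (-(qf G x (y - x) / (2 * s ^ 2)))
        ≤ (1 + δ) * f (y, cd u y) * gw D x s0 y :=
          mul_le_mul h1 h2 (Real.exp_pos _).le (mul_nonneg (by linarith) (hf0 _ _))
      _ = _ := by ring
  · refine le_add_of_nonneg_of_le (mul_nonneg (by linarith) (mul_nonneg hw0 (hf0 _ _))) ?_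
    have h1 := hCb (x, y) ⟨hx, hy⟩ (cd u y)
    have h2 : Real.exp (-(qf G x (y - x) / (2 * s ^ 2))) ≤ E := by
      refine Real.exp_le_exp.2 (neg_le_neg ?_)
      have h3 : ρ ≤ CA * √(qf G x (y - x)) := hfar.le.trans (hCAb x hx (y - x))
      have h4 := pow_le_pow_left₀ (by positivity : (0 : ℝ) ≤ ρ) h3 2
      rw [mul_pow, Real.sq_sqrt (qf_nonneg h x _)] at h4
      rw [div_div, div_le_div_iff₀ (by positivity) (by positivity)]
      have := mul_le_mul_of_nonneg_right h4 (by positivity : (0 : ℝ) ≤ 2 * s ^ 2)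
      linarith
    calc f (x, cd u y) * Real.exp (-(qf G x (y - x) / (2 * s ^ 2)))
        ≤ C * f (y, cd u y) * E :=
          mul_le_mul h1 h2 (Real.exp_pos _).le (mul_nonneg hC.le (hf0 _ _))
      _ = _ := by ring

/-- A Gaussian tail is negligible against every power. -/
theorem exists_exp_small {a : ℝ} (ha : 0 < a) (B : ℝ) (k : ℕ) (hk : 1 ≤ k) {δ : ℝ} (hδ : 0 < δ) :
    ∃ σ : ℝ, 0 < σ ∧ ∀ s, 0 < s → s < σ → B * Real.exp (-(a / s ^ 2)) ≤ δ * s ^ k := by
  set P := (|B| + 1) * ((k.factorial : ℝ) / a ^ k)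
  have hP : 0 < P := by positivity
  refine ⟨min 1 (δ / P), lt_min one_pos (by positivity), fun s hs hsσ => ?_⟩
  have h1 : (a / s ^ 2) ^ k / k.factorial ≤ Real.exp (a / s ^ 2) :=
    Real.pow_div_factorial_le_exp _ (by positivity) k
  have h2 : Real.exp (-(a / s ^ 2)) ≤ (k.factorial : ℝ) / a ^ k * (s ^ k * s ^ k) := by
    rw [Real.exp_neg]
    refine (inv_anti₀ (by positivity) h1).trans (le_of_eq ?_)
    rw [inv_div, div_pow, ← pow_mul, mul_comm 2 k, pow_mul, sq]
    field_simp
  have h3 : s ^ k ≤ s := by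
    calc s ^ k ≤ s ^ 1 := pow_le_pow_of_le_one hs.le (hsσ.le.trans (min_le_left _ _)) hk
      _ = s := pow_one s
  calc B * Real.exp (-(a / s ^ 2)) ≤ (|B| + 1) * ((k.factorial : ℝ) / a ^ k * (s ^ k * s ^ k)) :=
        mul_le_mul (by linarith [le_abs_self B]) h2 (Real.exp_pos _).le (by positivity)
    _ = P * s ^ k * s ^ k := by simp only [P]; ring
    _ ≤ δ * s ^ k := by
        refine mul_le_mul_of_nonneg_right ?_ (by positivity)
        have h4 := hsσ.le.trans (min_le_right _ _)
        rw [le_div_iff₀ hP] at h4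
        calc P * s ^ k ≤ P * s := mul_le_mul_of_nonneg_left h3 hP.le
          _ ≤ δ := by linarith

/-- A near indicator supported in a ball has, at every small scale, a centre in the ball with the
Gaussian perimeter of a hyperplane. -/
theorem startPin (n : ℕ) : StartPin n := by
  intro hn G D h o R P₀ v₀ ε s₁ hR hP₀ hv₀ hε hs₁
  set K := {y | D o y ≤ R}
  have hK : IsCompact K := h.proper o R
  obtain ⟨δ, hδ, hδ'⟩ : ∃ δ : ℝ, 0 < δ ∧
      1 - ε ≤ (1 - 3 * δ) / ((1 + δ) * √(1 + δ) ^ (n - 1)) := by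
    have hc : ContinuousAt (fun δ : ℝ => (1 - 3 * δ) / ((1 + δ) * √(1 + δ) ^ (n - 1))) 0 := by
      refine ContinuousAt.div (by fun_prop) (by fun_prop) ?_
      simp
    have h1 : ∀ᶠ δ in 𝓝[>] (0 : ℝ), 1 - ε < (1 - 3 * δ) / ((1 + δ) * √(1 + δ) ^ (n - 1)) :=
      (hc.eventually (lt_mem_nhds (by simp; linarith))).filter_mono nhdsWithin_le_nhds
    obtain ⟨δ, hδ1, hδ2⟩ := (h1.and self_mem_nhdsWithin).exists
    exact ⟨δ, hδ2, hδ1.le⟩
  set κ := min (√δ / 2) (1 / 4)
  have hκ : 0 < κ := lt_min (half_pos (Real.sqrt_pos.2 hδ)) (by norm_num)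
  have hκ2 : 4 * κ ^ 2 ≤ δ := by
    have h1 := pow_le_pow_left₀ hκ.le (min_le_left (√δ / 2) (1 / 4)) 2
    rw [div_pow, Real.sq_sqrt hδ.le] at h1
    linarith
  obtain ⟨σ1, η1, hσ1, hη1, hmed⟩ := exists_median h (by omega) o hR hκ
    ((min_le_right _ _).trans_lt (by norm_num)) P₀ hv₀
  obtain ⟨a, C, ha, hC, hcon⟩ := avg_conorm_le h hK hδ
  obtain ⟨σ2, hσ2, hexp⟩ := exists_exp_small ha (C * P₀ / √(2 * π) ^ (n - 1)) (n - 1) (by omega) hδ
  obtain ⟨dM, hdM⟩ := hK.exists_bound_of_continuousOn (continuous_dens h).continuousOn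
  obtain ⟨dm, hdm, hdmb⟩ := hK.exists_forall_le' (continuous_dens h).continuousOn
    fun y _ => dens_pos h y
  set r := √(1 + δ)
  have hr : 1 ≤ r := Real.one_le_sqrt.2 (by linarith)
  set s := min (min σ1 σ2) (s₁ / r) / 2
  have hs : 0 < s := by positivity
  have hsσ : s < min (min σ1 σ2) (s₁ / r) := half_lt_self (by positivity)
  set Kk := (|dM| + 1) / (√(2 * π) * s) ^ n / dm with hKk
  have hKk0 : 0 < Kk := by positivity
  refine ⟨r * s, min η1 (δ / 4 / Kk), by positivity, ?_, lt_min hη1 (by positivity),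
    fun u hu hper hvol hgap => ?_⟩
  · have := hsσ.le.trans (min_le_right _ _)
    rw [le_div_iff₀ (by positivity)] at this
    linarith
  obtain ⟨x, hx, hθ⟩ := hmed s hs (hsσ.trans_le ((min_le_left _ _).trans (min_le_left _ _))) u hu
    hper hvol (hgap.trans (min_le_left _ _))
  refine ⟨x, hx, ?_⟩
  have hu01 := hu.2.2
  have hq : avg G s (fun y => u y * (1 - u y)) x ≤ δ / 4 := by
    have h1 : avg G s (fun y => u y * (1 - u y)) x ≤ Kk * gap G u := by
      rw [avg, gap, ← integral_const_mul]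
      refine integral_mono_of_nonneg (Eventually.of_forall fun y => mul_nonneg
        (mul_nonneg (hu01 y).1 (sub_nonneg.2 (hu01 y).2)) (ker_nonneg h hs x y)) ?_
        (Eventually.of_forall fun y => ?_)
      · exact ((((hu.1.continuous).mul (continuous_const.sub hu.1.continuous)).mul
          (continuous_dens h)).integrable_of_hasCompactSupport
          (comp_hasCompactSupport hK hu).mul_right.mul_right).const_mul _
      · simp only
        by_cases hy : y ∈ K
        swap
        · simp [comp_eq_zero hu hy]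
        rw [mul_left_comm Kk]
        refine mul_le_mul_of_nonneg_left ?_ (mul_nonneg (hu01 y).1 (sub_nonneg.2 (hu01 y).2))
        have hx' := hdM x hx
        rw [Real.norm_of_nonneg (dens_pos h x).le] at hx'
        calc ker G s x y ≤ dens G x / (√(2 * π) * s) ^ n :=
              mul_le_of_le_one_right (div_nonneg (dens_pos h x).le (by positivity))
                (Real.exp_le_one_iff.2 (neg_nonpos.2 (div_nonneg (qf_nonneg h x _) (by positivity))))
          _ ≤ (|dM| + 1) / (√(2 * π) * s) ^ n := by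
              gcongr; linarith [le_abs_self dM]
          _ = Kk * dm := by rw [hKk, div_mul_cancel₀ _ hdm.ne']
          _ ≤ Kk * dens G y := mul_le_mul_of_nonneg_left (hdmb y hy) hKk0.le
    have h2 := mul_le_mul_of_nonneg_left (hgap.trans (min_le_right _ _)) hKk0.le
    rw [mul_div_cancel₀ _ hKk0.ne'] at h2
    linarith
  have hA := avg_gradient_ge h hK hu hs x hθ hq
  have hB := hcon u hu x hx s hs
  set m := √(2 * π) * s
  have hm : 0 < m := by positivity
  set Q := gQ G D x (r * s) u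
  set A := avg G s (fun y => conorm G x (cd u y)) x
  have hsq : √(π / 2) * (s * A) = m / 2 * A := by
    have e : √(π / 2) = √(2 * π) / 2 := by
      rw [show π / 2 = 2 * π / 2 ^ 2 by ring, Real.sqrt_div' _ (by positivity),
        Real.sqrt_sq zero_le_two]
    rw [e]; simp only [m]; ring
  rw [hsq] at hA
  have hper0 : 0 ≤ per G u :=
    integral_nonneg fun y => mul_nonneg (Real.sqrt_nonneg _) (dens_pos h y).le
  have hmn : m ^ n = m ^ (n - 1) * m := by
    rw [← pow_succ]; congr 1; omega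
  have hexp' : C * Real.exp (-(a / s ^ 2)) * per G u ≤ δ * m ^ (n - 1) := by
    have h1 := hexp s hs (hsσ.trans_le ((min_le_left _ _).trans (min_le_right _ _)))
    rw [div_mul_eq_mul_div, div_le_iff₀ (by positivity)] at h1
    calc C * Real.exp (-(a / s ^ 2)) * per G u ≤ C * Real.exp (-(a / s ^ 2)) * P₀ :=
          mul_le_mul_of_nonneg_left hper (by positivity)
      _ ≤ _ := by simp only [m, mul_pow]; linarith
  have key : (1 - 3 * δ) * m ^ (n - 1) ≤ (1 + δ) * Q := by
    have h1 : 1 - 2 * δ ≤ m * A := by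
      have e : 2 * (1 / 2 + κ) * (1 - (1 / 2 + κ)) = (1 - 4 * κ ^ 2) / 2 := by ring
      linarith
    have h2 := mul_le_mul_of_nonneg_left h1 (pow_nonneg hm.le (n - 1))
    rw [← mul_assoc, ← hmn] at h2
    linarith
  have hsqrt : √(2 * π * (r * s) ^ 2) ^ ((n : ℝ) - 1) = (m * r) ^ (n - 1) := by
    rw [show ((n : ℝ) - 1) = ((n - 1 : ℕ) : ℝ) by rw [Nat.cast_sub (by omega)]; simp,
      Real.rpow_natCast, Real.sqrt_mul (by positivity), Real.sqrt_sq (by positivity)]
    congr 1
    ring
  rw [hsqrt]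
  have h3 : (1 - ε) * (m * r) ^ (n - 1) ≤ (1 - 3 * δ) * m ^ (n - 1) / (1 + δ) := by
    calc (1 - ε) * (m * r) ^ (n - 1)
        ≤ (1 - 3 * δ) / ((1 + δ) * r ^ (n - 1)) * (m * r) ^ (n - 1) :=
          mul_le_mul_of_nonneg_right hδ' (by positivity)
      _ = _ := by rw [mul_pow]; field_simp
  refine h3.trans ?_
  rw [div_le_iff₀ (by linarith)]
  linarith

end Vale.Agent.P219.CH
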