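import Vale.Agent.P219.CH.VarField

/-!
# The pointwise first variation, uniformly on a compact set
-/

noncomputable section

open MeasureTheory Set Filter Topology Matrix

namespace Vale.Agent.P219.CH

variable {n : ℕ} {G : (Fin n → ℝ) → Matrix (Fin n) (Fin n) ℝ}
  {D : (Fin n → ℝ) → (Fin n → ℝ) → ℝ}

/-- `defect` with all its arguments in one product. -/
def defectU (G : (Fin n → ℝ) → Matrix (Fin n) (Fin n) ℝ)
    (w : ℝ × (Fin n → ℝ) × (Fin n → ℝ) × ((Fin n → ℝ) →L[ℝ] (Fin n → ℝ)) × (Fin n → ℝ)) : ℝ :=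
  defect G w.2.1 w.2.2.1 w.2.2.2.1 w.2.2.2.2 w.1

lemma IsCH.contDiff_pairing (h : IsCH G D) :
    ContDiff ℝ 1 fun p : (Fin n → ℝ) × (Fin n → ℝ) => pairing G p.1 p.2 p.2 := by
  simp only [pairing_eq_sum]
  exact ContDiff.sum fun i _ => ContDiff.sum fun j _ => ((contDiff_apply ℝ ℝ i).comp contDiff_snd).mul
    (((h.contDiff_inv i j).comp contDiff_fst).mul ((contDiff_apply ℝ ℝ j).comp contDiff_snd))

lemma IsCH.contDiffAt_defectU (h : IsCH G D) (y v : Fin n → ℝ)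
    (L : (Fin n → ℝ) →L[ℝ] (Fin n → ℝ)) {ξ : Fin n → ℝ} (hξ : ξ ≠ 0) :
    ContDiffAt ℝ 1 (defectU G) ((0 : ℝ), y, v, L, ξ) := by
  set W := ℝ × (Fin n → ℝ) × (Fin n → ℝ) × ((Fin n → ℝ) →L[ℝ] (Fin n → ℝ)) × (Fin n → ℝ)
  have ht : ContDiff ℝ 1 fun w : W => w.1 := contDiff_fst
  have hy : ContDiff ℝ 1 fun w : W => w.2.1 := contDiff_fst.comp contDiff_snd
  have hv : ContDiff ℝ 1 fun w : W => w.2.2.1 :=
    contDiff_fst.comp (contDiff_snd.comp contDiff_snd)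
  have hL : ContDiff ℝ 1 fun w : W => w.2.2.2.1 :=
    contDiff_fst.comp (contDiff_snd.comp (contDiff_snd.comp contDiff_snd))
  have hx : ContDiff ℝ 1 fun w : W => w.2.2.2.2 :=
    contDiff_snd.comp (contDiff_snd.comp (contDiff_snd.comp contDiff_snd))
  have hLa : ∀ a b, ContDiff ℝ 1 fun w : W => w.2.2.2.1 (ev b) a := fun a b =>
    (contDiff_apply ℝ ℝ a).comp (hL.clm_apply contDiff_const)
  have hpull : ContDiff ℝ 1 fun w : W => w.2.2.2.2 + w.1 • pull w.2.2.2.1 w.2.2.2.2 := by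
    refine hx.add (ht.smul (contDiff_pi.2 fun b => ?_))
    simp only [pull, dotProduct]
    exact ContDiff.sum fun a _ => ((contDiff_apply ℝ ℝ a).comp hx).mul (hLa a b)
  have hdet : ContDiff ℝ 1 fun w : W => (1 + w.1 • opMat w.2.2.2.1).det := by
    refine contDiff_det_of_entries fun a b => ?_
    simp only [Matrix.add_apply, Matrix.smul_apply, smul_eq_mul, opMat, Matrix.of_apply]
    exact contDiff_const.add (ht.mul (hLa a b))
  have hz : ContDiff ℝ 1 fun w : W => w.2.1 + w.1 • w.2.2.1 := hy.add (ht.smul hv)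
  have hne := (h.pairing_self_pos y hξ).ne'
  have h1 : ContDiffAt ℝ 1 (fun w : W => conorm G w.2.1 (w.2.2.2.2 + w.1 • pull w.2.2.2.1 w.2.2.2.2))
      ((0 : ℝ), y, v, L, ξ) :=
    (h.contDiff_pairing.comp (hy.prodMk hpull)).contDiffAt.sqrt (by simpa using hne)
  have h2 : ContDiffAt ℝ 1 (fun w : W => conorm G (w.2.1 + w.1 • w.2.2.1) w.2.2.2.2)
      ((0 : ℝ), y, v, L, ξ) :=
    (h.contDiff_pairing.comp (hz.prodMk hx)).contDiffAt.sqrt (by simpa using hne)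
  exact (h1.mul (h.contDiff_dens.comp hy).contDiffAt).sub
    (hdet.contDiffAt.mul ((h.contDiff_dens.comp hz).contDiffAt.mul h2))

lemma hasDerivAt_defectU {y v : Fin n → ℝ} {L : (Fin n → ℝ) →L[ℝ] (Fin n → ℝ)} {ξ : Fin n → ℝ}
    {t : ℝ} (hd : ContDiffAt ℝ 1 (defectU G) (t, y, v, L, ξ)) :
    HasDerivAt (defect G y v L ξ) (fderiv ℝ (defectU G) (t, y, v, L, ξ) (1, 0)) t := by
  have hline : HasDerivAt
      (fun r : ℝ => (r, (y, v, L, ξ))) ((1 : ℝ), (0 : (Fin n → ℝ) × (Fin n → ℝ) ×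
        ((Fin n → ℝ) →L[ℝ] (Fin n → ℝ)) × (Fin n → ℝ))) t :=
    (hasDerivAt_id t).prodMk (hasDerivAt_const t (y, v, L, ξ))
  exact (hd.differentiableAt one_ne_zero).hasFDerivAt.comp_hasDerivAt t hline

lemma IsCH.firstVar_smul (h : IsCH G D) (x : Fin n → ℝ) (s : ℝ) (y : Fin n → ℝ) {k : ℝ} (hk : 0 < k)
    (ξ : Fin n → ℝ) : firstVar G D x s y (k • ξ) = k * firstVar G D x s y ξ := by
  rw [firstVar, firstVar, h.conorm_smul, pairing_smul_left, abs_of_pos hk]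
  rcases eq_or_ne (conorm G y ξ) 0 with h0 | h0
  · simp [h0]
  · field_simp

lemma IsCH.defect_smul (h : IsCH G D) (y v : Fin n → ℝ) (L : (Fin n → ℝ) →L[ℝ] (Fin n → ℝ))
    (ξ : Fin n → ℝ) {k : ℝ} (hk : 0 < k) (t : ℝ) :
    defect G y v L (k • ξ) t = k * defect G y v L ξ t := by
  have e : k • ξ + t • pull L (k • ξ) = k • (ξ + t • pull L ξ) := by
    funext i; simp [pull, smul_dotProduct]; ring
  rw [defect, defect, e, h.conorm_smul, h.conorm_smul, abs_of_pos hk]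
  ring

/-- The pointwise part of the variation pin. -/
theorem defectPin (n : ℕ) : DefectPin n := by
  intro G D h K hK a b e ha _ he
  set P : Set ((Fin n → ℝ) × ℝ × (Fin n → ℝ) × (Fin n → ℝ)) := K ×ˢ Icc a b ×ˢ K ×ˢ Metric.sphere 0 1
  have hP : IsCompact P := hK.prod (isCompact_Icc.prod (hK.prod (isCompact_sphere _ _)))
  set Q : ℝ → ((Fin n → ℝ) × ℝ × (Fin n → ℝ) × (Fin n → ℝ)) → Prop := fun t w => 0 ≤ t →
    defect G w.2.2.1 (gfield G D w.1 w.2.1 w.2.2.1) (fderiv ℝ (gfield G D w.1 w.2.1) w.2.2.1)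
        w.2.2.2 t ≤
      -(t * ((1 + t • opMat (fderiv ℝ (gfield G D w.1 w.2.1) w.2.2.1)).det *
        dens G (w.2.2.1 + t • gfield G D w.1 w.2.1 w.2.2.1) *
        (firstVar G D w.1 w.2.1 (w.2.2.1 + t • gfield G D w.1 w.2.1 w.2.2.1) w.2.2.2 -
          e * conorm G (w.2.2.1 + t • gfield G D w.1 w.2.1 w.2.2.1) w.2.2.2)))
  have h0 : ∀ w ∈ P, ∀ᶠ q : ℝ × ((Fin n → ℝ) × ℝ × (Fin n → ℝ) × (Fin n → ℝ)) in 𝓝 ((0 : ℝ), w), Q q.1 q.2 := by
    rintro ⟨x₀, s₀, y₀, ξ₀⟩ ⟨-, hs₀, -, hsph⟩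
    have hξ : ξ₀ ≠ 0 := fun h0 => by simp only at hsph; simp [h0] at hsph
    have hs : s₀ ≠ 0 := (ha.trans_le hs₀.1).ne'
    set c : (Fin n → ℝ) → ℝ := fun _ => 1
    have ecut : ∀ x s, cutField G D c (x, (s ^ 2)⁻¹) = gfield G D x s := fun x s => by
      funext z; rw [cutField_eq, one_smul]
    -- the maps
    have hcs : ContinuousAt (fun q : ℝ × ((Fin n → ℝ) × ℝ × (Fin n → ℝ) × (Fin n → ℝ)) => ((q.2.1, (q.2.2.1 ^ 2)⁻¹), q.2.2.2.1))
        ((0 : ℝ), x₀, s₀, y₀, ξ₀) := by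
      refine ContinuousAt.prodMk (ContinuousAt.prodMk
        (Continuous.continuousAt (continuous_fst.comp continuous_snd)) (ContinuousAt.inv₀
        (Continuous.continuousAt ((continuous_fst.comp (continuous_snd.comp continuous_snd)).pow 2))
        (pow_ne_zero 2 hs)))
        (Continuous.continuousAt
          (continuous_fst.comp (continuous_snd.comp (continuous_snd.comp continuous_snd))))
    have hv : ContinuousAt (fun q : ℝ × ((Fin n → ℝ) × ℝ × (Fin n → ℝ) × (Fin n → ℝ)) => gfield G D q.2.1 q.2.2.1 q.2.2.2.1)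
        ((0 : ℝ), x₀, s₀, y₀, ξ₀) := by
      refine ((h.contDiff_cutField (χ := c) contDiff_const).continuous.continuousAt.comp hcs
        ).congr_of_eventuallyEq (Eventually.of_forall fun q => ?_)
      simp [Function.uncurry, ecut]
    have hL : ContinuousAt (fun q : ℝ × ((Fin n → ℝ) × ℝ × (Fin n → ℝ) × (Fin n → ℝ)) => fderiv ℝ (gfield G D q.2.1 q.2.2.1) q.2.2.2.1)
        ((0 : ℝ), x₀, s₀, y₀, ξ₀) := by
      refine ((h.continuous_fderiv_cutField (χ := c) contDiff_const).continuousAt.comp hcs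
        ).congr_of_eventuallyEq (Eventually.of_forall fun q => ?_)
      simp [ecut]
    have hT : ContinuousAt (fun q : ℝ × ((Fin n → ℝ) × ℝ × (Fin n → ℝ) × (Fin n → ℝ)) => q.1) ((0 : ℝ), x₀, s₀, y₀, ξ₀) :=
      Continuous.continuousAt (by fun_prop)
    have hY : ContinuousAt (fun q : ℝ × ((Fin n → ℝ) × ℝ × (Fin n → ℝ) × (Fin n → ℝ)) => q.2.2.2.1) ((0 : ℝ), x₀, s₀, y₀, ξ₀) :=
      Continuous.continuousAt (by fun_prop)
    have hX : ContinuousAt (fun q : ℝ × ((Fin n → ℝ) × ℝ × (Fin n → ℝ) × (Fin n → ℝ)) => q.2.2.2.2) ((0 : ℝ), x₀, s₀, y₀, ξ₀) :=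
      Continuous.continuousAt (by fun_prop)
    have hx : ContinuousAt (fun q : ℝ × ((Fin n → ℝ) × ℝ × (Fin n → ℝ) × (Fin n → ℝ)) => q.2.1) ((0 : ℝ), x₀, s₀, y₀, ξ₀) :=
      Continuous.continuousAt (by fun_prop)
    have hS : ContinuousAt (fun q : ℝ × ((Fin n → ℝ) × ℝ × (Fin n → ℝ) × (Fin n → ℝ)) => q.2.2.1 ^ 2) ((0 : ℝ), x₀, s₀, y₀, ξ₀) :=
      Continuous.continuousAt (by fun_prop)
    set v₀ := gfield G D x₀ s₀ y₀
    set L₀ := fderiv ℝ (gfield G D x₀ s₀) y₀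
    have hΨ : ContinuousAt (fun q : ℝ × ((Fin n → ℝ) × ℝ × (Fin n → ℝ) × (Fin n → ℝ)) => (q.1, q.2.2.2.1, gfield G D q.2.1 q.2.2.1 q.2.2.2.1,
        fderiv ℝ (gfield G D q.2.1 q.2.2.1) q.2.2.2.1, q.2.2.2.2)) ((0 : ℝ), x₀, s₀, y₀, ξ₀) :=
      hT.prodMk (hY.prodMk (hv.prodMk (hL.prodMk hX)))
    have hC := h.contDiffAt_defectU y₀ v₀ L₀ hξ
    have hval : fderiv ℝ (defectU G) ((0 : ℝ), y₀, v₀, L₀, ξ₀) (1, 0) = defect' G y₀ v₀ L₀ ξ₀ :=
      (hasDerivAt_defectU hC).unique (h.hasDerivAt_defect y₀ v₀ L₀ hξ)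
    set g : ℝ × ((Fin n → ℝ) × ℝ × (Fin n → ℝ) × (Fin n → ℝ)) → ℝ := fun q => fderiv ℝ (defectU G) (q.1, q.2.2.2.1,
      gfield G D q.2.1 q.2.2.1 q.2.2.2.1, fderiv ℝ (gfield G D q.2.1 q.2.2.1) q.2.2.2.1,
      q.2.2.2.2) (1, 0)
    have hg : ContinuousAt g ((0 : ℝ), x₀, s₀, y₀, ξ₀) :=
      ((ContinuousLinearMap.apply ℝ ℝ _).continuous.continuousAt.comp
        ((hC.continuousAt_fderiv one_ne_zero).comp_of_eq hΨ rfl))
    have hsmooth : ∀ᶠ q : ℝ × ((Fin n → ℝ) × ℝ × (Fin n → ℝ) × (Fin n → ℝ)) in 𝓝 ((0 : ℝ), x₀, s₀, y₀, ξ₀), ContDiffAt ℝ 1 (defectU G)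
        (q.1, q.2.2.2.1, gfield G D q.2.1 q.2.2.1 q.2.2.2.1,
          fderiv ℝ (gfield G D q.2.1 q.2.2.1) q.2.2.2.1, q.2.2.2.2) :=
      hΨ.eventually (hC.eventually (by simp))
    set R : ℝ × ((Fin n → ℝ) × ℝ × (Fin n → ℝ) × (Fin n → ℝ)) → ℝ := fun q =>
      (1 + q.1 • opMat (fderiv ℝ (gfield G D q.2.1 q.2.2.1) q.2.2.2.1)).det *
        dens G (q.2.2.2.1 + q.1 • gfield G D q.2.1 q.2.2.1 q.2.2.2.1) *
        (firstVar G D q.2.1 q.2.2.1 (q.2.2.2.1 + q.1 • gfield G D q.2.1 q.2.2.1 q.2.2.2.1) q.2.2.2.2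
          - e * conorm G (q.2.2.2.1 + q.1 • gfield G D q.2.1 q.2.2.1 q.2.2.2.1) q.2.2.2.2)
    have hR : ContinuousAt R ((0 : ℝ), x₀, s₀, y₀, ξ₀) := by
      have hz := hY.add (hT.smul hv)
      have hd : ContinuousAt (fun q : ℝ × ((Fin n → ℝ) × ℝ × (Fin n → ℝ) × (Fin n → ℝ)) =>
          (1 + q.1 • opMat (fderiv ℝ (gfield G D q.2.1 q.2.2.1) q.2.2.2.1)).det)
          ((0 : ℝ), x₀, s₀, y₀, ξ₀) :=
        (continuous_id.matrix_det).continuousAt.comp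
          (continuousAt_const.add (hT.smul (continuous_opMat.continuousAt.comp hL)))
      have hco : ContinuousAt (fun q : ℝ × ((Fin n → ℝ) × ℝ × (Fin n → ℝ) × (Fin n → ℝ)) => conorm G
          (q.2.2.2.1 + q.1 • gfield G D q.2.1 q.2.2.1 q.2.2.2.1) q.2.2.2.2)
          ((0 : ℝ), x₀, s₀, y₀, ξ₀) := h.continuous_conorm.continuousAt.comp (hz.prodMk hX)
      have hDz := h.continuous_D.continuousAt.comp (hx.prodMk hz)
      have hcd : Continuous fun p : (Fin n → ℝ) × (Fin n → ℝ) => cd (D p.1) p.2 := by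
        refine continuous_pi fun i => ?_
        have h1 : ContDiff ℝ 1 fun p : (Fin n → ℝ) × (Fin n → ℝ) => fderiv ℝ (D p.1) p.2 := by
          refine ContDiff.fderiv (m := 2) (n := 1)
            (f := fun (p : (Fin n → ℝ) × (Fin n → ℝ)) (z : Fin n → ℝ) => D p.1 z) ?_
            contDiff_snd le_rfl
          exact h.smooth_dist.comp ((contDiff_fst.comp contDiff_fst).prodMk contDiff_snd)
        exact h1.continuous.clm_apply continuous_const
      have hnp := h.continuous_pairing.continuousAt.comp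
        (hz.prodMk (hX.prodMk (hcd.continuousAt.comp (hx.prodMk hz))))
      refine (hd.mul (h.continuous_dens.continuousAt.comp hz)).mul (ContinuousAt.sub ?_
        (continuousAt_const.mul hco))
      refine (Real.continuous_exp.continuousAt.comp (hDz.div hS (pow_ne_zero 2 hs)).neg).mul
        (((continuousAt_const.sub (continuousAt_const.mul (hDz.div hS (pow_ne_zero 2 hs)))).mul
          hco).add (((hnp.pow 2).div hco ?_).div hS (pow_ne_zero 2 hs)))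
      simpa using (h.conorm_pos y₀ hξ).ne'
    have hneg : g ((0 : ℝ), x₀, s₀, y₀, ξ₀) + R ((0 : ℝ), x₀, s₀, y₀, ξ₀) < 0 := by
      have h1 := h.defect'_gfield_le x₀ s₀ y₀ hξ
      have h2 := mul_pos (h.dens_pos y₀) (mul_pos he (h.conorm_pos y₀ hξ))
      simp only [g, R, zero_smul, add_zero, Matrix.det_one, one_mul]
      rw [hval, mul_sub]
      linarith
    set g₀ := g ((0 : ℝ), x₀, s₀, y₀, ξ₀)
    set R₀ := R ((0 : ℝ), x₀, s₀, y₀, ξ₀)
    set ε := -(g₀ + R₀) / 2 with hε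
    have hε0 : 0 < ε := by rw [hε]; linarith
    have hev := (hsmooth.and (hg.eventually (Iio_mem_nhds (show g₀ < g₀ + ε by linarith)))).and
      (hR.eventually (Iio_mem_nhds (show R₀ < R₀ + ε by linarith)))
    obtain ⟨δ, hδ, hsub⟩ := Metric.eventually_nhds_iff.1 hev
    refine Metric.eventually_nhds_iff.2 ⟨δ, hδ, fun q hq => ?_⟩
    obtain ⟨t, x, s, y, ξ⟩ := q
    intro ht
    simp only at ht ⊢
    rcases eq_or_lt_of_le ht with rfl | htpos
    · simp [defect, mul_comm]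
    have hmem : ∀ r ∈ Icc (0 : ℝ) t, dist (r, x, s, y, ξ) ((0 : ℝ), x₀, s₀, y₀, ξ₀) < δ := by
      intro r hr
      refine lt_of_le_of_lt ?_ hq
      rw [Prod.dist_eq, Prod.dist_eq (x := (t, x, s, y, ξ))]
      refine max_le_max ?_ le_rfl
      simp only [Real.dist_eq, sub_zero]
      rw [abs_of_nonneg hr.1, abs_of_nonneg ht]
      exact hr.2
    have hd : ∀ r ∈ Icc (0 : ℝ) t, HasDerivAt (defect G y (gfield G D x s y)
        (fderiv ℝ (gfield G D x s) y) ξ) (g (r, x, s, y, ξ)) r := fun r hr =>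
      hasDerivAt_defectU (hsub (hmem r hr)).1.1
    obtain ⟨r, hr, hslope⟩ := exists_hasDerivAt_eq_slope _ _ htpos
      (fun r hr => (hd r hr).continuousAt.continuousWithinAt)
      (fun r hr => hd r (Ioo_subset_Icc_self hr))
    have hgr : g (r, x, s, y, ξ) < g₀ + ε := (hsub (hmem r (Ioo_subset_Icc_self hr))).1.2
    have hRt : R (t, x, s, y, ξ) < R₀ + ε := (hsub hq).2
    have hz0 : defect G y (gfield G D x s y) (fderiv ℝ (gfield G D x s) y) ξ 0 = 0 := by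
      simp [defect, mul_comm]
    rw [hz0, sub_zero, sub_zero, eq_div_iff htpos.ne'] at hslope
    have h3 : (g (r, x, s, y, ξ) + R (t, x, s, y, ξ)) * t ≤ 0 :=
      mul_nonpos_of_nonpos_of_nonneg (by linarith [hε]) ht
    show _ ≤ -(t * R (t, x, s, y, ξ))
    rw [← hslope]
    linarith
  obtain ⟨τ, hτ, hsub⟩ := Metric.eventually_nhds_iff.1
    (hP.eventually_forall_of_forall_eventually (x₀ := (0 : ℝ)) (P := Q) h0)
  refine ⟨τ / 2, by positivity, fun t ht x hx s hs y hy ξ => ?_⟩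
  rcases eq_or_ne ξ 0 with rfl | hξ
  · have hp : pull (fderiv ℝ (gfield G D x s) y) (0 : Fin n → ℝ) = 0 := by
      funext i; simp [pull]
    simp [defect, hp, firstVar, pairing, conorm_zero]
  have hn : 0 < ‖ξ‖ := norm_pos_iff.2 hξ
  have hu : ‖ξ‖⁻¹ • ξ ∈ Metric.sphere (0 : Fin n → ℝ) 1 := by
    rw [mem_sphere_zero_iff_norm, norm_smul, norm_inv, norm_norm, inv_mul_cancel₀ hn.ne']
  have h1 := hsub (show dist t 0 < τ by
    rw [dist_zero_right, Real.norm_eq_abs, abs_of_nonneg ht.1]; linarith [ht.2])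
    (x, s, y, ‖ξ‖⁻¹ • ξ) ⟨hx, hs, hy, hu⟩ ht.1
  have e0 : |‖ξ‖⁻¹| = ‖ξ‖⁻¹ := abs_of_nonneg (inv_nonneg.2 hn.le)
  simp only [h.defect_smul _ _ _ _ (inv_pos.2 hn), h.firstVar_smul _ _ _ (inv_pos.2 hn),
    h.conorm_smul, e0] at h1
  refine le_of_mul_le_mul_left ?_ (inv_pos.2 hn)
  linarith

end Vale.Agent.P219.CH
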