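import Vale.Agent.P219.CH.VarChange

/-!
# The first variation of perimeter, volume and gap
-/

noncomputable section

open MeasureTheory Set Filter Topology Matrix

namespace Vale.Agent.P219.CH

variable {n : ℕ} {G : (Fin n → ℝ) → Matrix (Fin n) (Fin n) ℝ}
  {D : (Fin n → ℝ) → (Fin n → ℝ) → ℝ} {K : Set (Fin n → ℝ)} {u : (Fin n → ℝ) → ℝ}

/-- The gap after a step. -/
theorem IsCH.gap_step (h : IsCH G D) (hK : IsCompact K) {r : ℝ} (hKr : K ⊆ Metric.closedBall 0 r)
    (hu : Comp K u) {Z : (Fin n → ℝ) → Fin n → ℝ} (hZ : ContDiff ℝ 1 Z) {B m t C : ℝ}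
    (hB : ∀ y, ‖Z y‖ ≤ B ∧ ‖fderiv ℝ Z y‖ ≤ B) (hm : 0 < m)
    (hmd : ∀ y, ‖y‖ ≤ r + 1 → m ≤ dens G y) (hC : 0 ≤ C)
    (hjac : ∀ (L : (Fin n → ℝ) →L[ℝ] (Fin n → ℝ)) (y v : Fin n → ℝ) (t : ℝ), ‖L‖ ≤ B → ‖y‖ ≤ r →
      ‖v‖ ≤ B → t ∈ Icc (0 : ℝ) 1 → dens G y ≤ (1 + t • opMat L).det * dens G (y + t • v) + C * t)
    (ht : t ∈ Icc (0 : ℝ) 1) (htB : t * B < 1)
    (hdet : ∀ y, 1 / 2 ≤ (1 + t • opMat (fderiv ℝ Z y)).det)
    (hsupp : ∀ y, y + t • Z y ∈ K → y ∈ K) :
    gap G (fun y => u (y + t • Z y)) ≤ (1 + 2 * C / m * t) * gap G u := by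
  have hk : 0 ≤ 2 * C / m * t := mul_nonneg (by positivity) ht.1
  set g : (Fin n → ℝ) → ℝ := fun z => (1 + 2 * C / m * t) * (u z * (1 - u z) * dens G z)
  obtain ⟨hint, hle⟩ := setIntegral_step_le hK.measurableSet (hZ.differentiable one_ne_zero)
    (fun y => (hB y).2) ht.1 htB (fun y _ => le_trans (by norm_num) (hdet y))
    (g := g) (((hu.integrable hK (((continuous_const (y := (1 : ℝ))).sub hu.1.continuous).mul h.continuous_dens)).congr (Eventually.of_forall fun z => by simp only [Pi.mul_apply, Pi.sub_apply]; ring)).const_mul _)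
    fun z => mul_nonneg (by linarith) (mul_nonneg (mul_nonneg (hu.2.2 z).1
      (sub_nonneg.2 (hu.2.2 z).2)) (h.dens_pos z).le)
  refine le_trans ?_ (hle.trans (le_of_eq (by rw [gap, ← integral_const_mul])))
  rw [gap, ← setIntegral_eq_integral_of_forall_compl_eq_zero (s := K) fun y hy => by
    rw [image_eq_zero_of_notMem_tsupport fun hs => hy (hsupp y (hu.2.1 hs))]; ring]
  have hcu : Continuous fun y => u (y + t • Z y) :=
    hu.1.continuous.comp (continuous_id.add (hZ.continuous.const_smul t))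
  refine setIntegral_mono_on (((hcu.mul (continuous_const.sub hcu)).mul
    h.continuous_dens).continuousOn.integrableOn_compact hK) hint hK.measurableSet fun y hy => ?_
  have hyr : ‖y‖ ≤ r := by simpa using hKr hy
  have hzr : ‖y + t • Z y‖ ≤ r + 1 := by
    refine (norm_add_le _ _).trans ?_
    rw [norm_smul, Real.norm_eq_abs, abs_of_nonneg ht.1]
    nlinarith [mul_le_mul_of_nonneg_left (hB y).1 ht.1]
  have h1 := hjac (fderiv ℝ Z y) y (Z y) t (hB y).2 hyr (hB y).1 ht
  have h2 : C * t ≤ 2 * C / m * t *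
      ((1 + t • opMat (fderiv ℝ Z y)).det * dens G (y + t • Z y)) := by
    calc C * t = 2 * C / m * t * (1 / 2 * m) := by field_simp
      _ ≤ _ := mul_le_mul_of_nonneg_left
          (mul_le_mul (hdet y) (hmd _ hzr) hm.le (le_trans (by norm_num) (hdet y))) hk
  have h3 : 0 ≤ u (y + t • Z y) * (1 - u (y + t • Z y)) :=
    mul_nonneg (hu.2.2 _).1 (sub_nonneg.2 (hu.2.2 _).2)
  calc u (y + t • Z y) * (1 - u (y + t • Z y)) * dens G y
      ≤ u (y + t • Z y) * (1 - u (y + t • Z y)) * ((1 + 2 * C / m * t) *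
          ((1 + t • opMat (fderiv ℝ Z y)).det * dens G (y + t • Z y))) :=
        mul_le_mul_of_nonneg_left (by linarith) h3
    _ = _ := by simp only [g]; ring

/-- The differential of a competitor after a step. -/
lemma cd_step {Z : (Fin n → ℝ) → Fin n → ℝ} (hu : ContDiff ℝ 1 u) (hZ : ContDiff ℝ 1 Z) (t : ℝ)
    (y : Fin n → ℝ) :
    cd (fun z => u (z + t • Z z)) y =
      cd u (y + t • Z y) + t • pull (fderiv ℝ Z y) (cd u (y + t • Z y)) := by
  have h1 : HasFDerivAt (fun z => z + t • Z z)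
      (ContinuousLinearMap.id ℝ (Fin n → ℝ) + t • fderiv ℝ Z y) y :=
    (hasFDerivAt_id y).add (((hZ.differentiable one_ne_zero y).hasFDerivAt).const_smul t)
  have h2 : HasFDerivAt (fun z => u (z + t • Z z)) _ y :=
    ((hu.differentiable one_ne_zero _).hasFDerivAt).comp y h1
  funext i
  simp only [cd, h2.fderiv, pull, Pi.add_apply, Pi.smul_apply, smul_eq_mul]
  rw [cd_dotProduct]
  simp [ev]

lemma IsCH.abs_firstVar_le (h : IsCH G D) {x y : Fin n → ℝ} {s a B : ℝ} (ha : 0 < a) (hs : a ≤ s)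
    (hB : D x y ≤ B) (ξ : Fin n → ℝ) :
    |firstVar G D x s y ξ| ≤ ((n : ℝ) + 1 + 4 * (B / a ^ 2)) * conorm G y ξ := by
  have hd := h.dist_nonneg x y
  have hc := conorm_nonneg (G := G) y ξ
  have h1 : pairing G y ξ (cd (D x) y) ^ 2 / conorm G y ξ ≤ conorm G y ξ * (2 * D x y) := by
    rcases eq_or_lt_of_le hc with h0 | h0
    · simp [← h0]
    · rw [div_le_iff₀ h0]
      have h2 := pow_le_pow_left₀ (abs_nonneg _) (h.abs_pairing_le y ξ (cd (D x) y)) 2
      rw [sq_abs, mul_pow, h.conorm_sq y (cd (D x) y), h.eikonal] at h2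
      exact h2.trans_eq (by ring)
  have hs2 : a ^ 2 ≤ s ^ 2 := pow_le_pow_left₀ ha.le hs 2
  have h2 : D x y / s ^ 2 ≤ B / a ^ 2 := div_le_div₀ (hd.trans hB) hB (by positivity) hs2
  have h3 : 0 ≤ D x y / s ^ 2 := div_nonneg hd (sq_nonneg _)
  have h4 : 0 ≤ pairing G y ξ (cd (D x) y) ^ 2 / conorm G y ξ / s ^ 2 :=
    div_nonneg (div_nonneg (sq_nonneg _) hc) (sq_nonneg _)
  have h5 : pairing G y ξ (cd (D x) y) ^ 2 / conorm G y ξ / s ^ 2 ≤
      2 * (B / a ^ 2) * conorm G y ξ := by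
    calc _ ≤ conorm G y ξ * (2 * D x y) / s ^ 2 := div_le_div_of_nonneg_right h1 (sq_nonneg _)
      _ = 2 * (D x y / s ^ 2) * conorm G y ξ := by ring
      _ ≤ _ := mul_le_mul_of_nonneg_right (by linarith) hc
  rw [firstVar, abs_mul, abs_of_pos (gw_pos x s y)]
  refine (mul_le_of_le_one_left (abs_nonneg _) (h.gw_le_one x s y)).trans (abs_le.2 ⟨?_, ?_⟩) <;>
    nlinarith [mul_le_mul_of_nonneg_right h2 hc, mul_nonneg h3 hc,
      mul_nonneg (Nat.cast_nonneg n : (0 : ℝ) ≤ n) hc]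

/-- The perimeter after a step. -/
theorem IsCH.per_step (h : IsCH G D) (hK : IsCompact K) (hu : Comp K u) {x : Fin n → ℝ} {s a Bd : ℝ}
    (ha : 0 < a) (hs : a ≤ s) (hBd : ∀ y ∈ K, D x y ≤ Bd)
    {Z : (Fin n → ℝ) → Fin n → ℝ} (hZ : ContDiff ℝ 1 Z) {B t e : ℝ}
    (hB : ∀ y, ‖fderiv ℝ Z y‖ ≤ B) (hZK : ∀ y ∈ K, Z y = gfield G D x s y ∧
      fderiv ℝ Z y = fderiv ℝ (gfield G D x s) y) (ht : 0 ≤ t) (he : 0 ≤ e) (htB : t * B < 1)
    (htV : t * ((n : ℝ) + 1 + 4 * (Bd / a ^ 2)) ≤ 1)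
    (hdet : ∀ y, 0 ≤ (1 + t • opMat (fderiv ℝ Z y)).det)
    (hdef : ∀ y ∈ K, ∀ ξ : Fin n → ℝ,
        defect G y (gfield G D x s y) (fderiv ℝ (gfield G D x s) y) ξ t ≤
          -(t * ((1 + t • opMat (fderiv ℝ (gfield G D x s) y)).det *
            dens G (y + t • gfield G D x s y) *
            (firstVar G D x s (y + t • gfield G D x s y) ξ -
              e * conorm G (y + t • gfield G D x s y) ξ))))
    (hsupp : ∀ y, y + t • Z y ∈ K → y ∈ K) :
    per G (fun y => u (y + t • Z y)) ≤ per G u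
      - t * (((n : ℝ) - 1) * gQ G D x s u - 2 * gMom G D x s u + gNormal G D x s u)
      + t * e * per G u := by
  have hD := h.continuous_D_left x
  have i0 : Integrable fun y => conorm G y (cd u y) * dens G y := by
    simpa using h.integrable_mul_conorm hK hu (continuous_const (y := (1 : ℝ)))
  have i1 := h.integrable_mul_conorm hK hu (h.continuous_gw x s)
  have i2 : Integrable fun y => D x y / s ^ 2 * gw D x s y *
      (conorm G y (cd u y) * dens G y) :=
    h.integrable_mul_conorm hK hu ((hD.div_const (s ^ 2)).mul (h.continuous_gw x s))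
  have i3 := h.integrable_normal hK hu x s
  set g : (Fin n → ℝ) → ℝ := fun z => (1 + t * e) * (conorm G z (cd u z) * dens G z) -
    t * (((n : ℝ) - 1) * (gw D x s z * (conorm G z (cd u z) * dens G z)) -
      2 * (D x z / s ^ 2 * gw D x s z * (conorm G z (cd u z) * dens G z)) +
      normalPart G D x u z ^ 2 / conorm G z (cd u z) / s ^ 2 * gw D x s z * dens G z)
  have ig : Integrable g :=
    (i0.const_mul _).sub ((((i1.const_mul _).sub (i2.const_mul 2)).add i3).const_mul t)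
  have eg : ∀ z, g z = dens G z *
      ((1 + t * e) * conorm G z (cd u z) - t * firstVar G D x s z (cd u z)) := fun z => by
    simp only [g, firstVar, normalPart]; ring
  have eI : ∫ z, g z = per G u
      - t * (((n : ℝ) - 1) * gQ G D x s u - 2 * gMom G D x s u + gNormal G D x s u)
      + t * e * per G u := by
    have j1 : Integrable fun z => ((n : ℝ) - 1) * (gw D x s z * (conorm G z (cd u z) * dens G z)) :=
      i1.const_mul _
    have j2 : Integrable fun z => 2 * (D x z / s ^ 2 * gw D x s z *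
        (conorm G z (cd u z) * dens G z)) := i2.const_mul 2
    have j12 : Integrable fun z => ((n : ℝ) - 1) * (gw D x s z * (conorm G z (cd u z) * dens G z)) -
        2 * (D x z / s ^ 2 * gw D x s z * (conorm G z (cd u z) * dens G z)) := j1.sub j2
    have j123 : Integrable fun z => t * (((n : ℝ) - 1) * (gw D x s z * (conorm G z (cd u z) * dens G z)) -
        2 * (D x z / s ^ 2 * gw D x s z * (conorm G z (cd u z) * dens G z)) +
        normalPart G D x u z ^ 2 / conorm G z (cd u z) / s ^ 2 * gw D x s z * dens G z) :=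
      (j12.add i3).const_mul t
    simp only [g]
    rw [integral_sub (i0.const_mul _) j123, integral_const_mul,
      integral_const_mul, integral_add j12 i3, integral_sub j1 j2, integral_const_mul,
      integral_const_mul, per, gQ, gMom, gNormal]
    ring
  have hg0 : ∀ z, 0 ≤ g z := by
    intro z
    rw [eg]
    refine mul_nonneg (h.dens_pos z).le ?_
    by_cases hz : z ∈ K
    · have h1 := h.abs_firstVar_le ha hs (hBd z hz) (cd u z)
      have h2 := mul_le_mul_of_nonneg_left ((le_abs_self _).trans h1) ht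
      have h3 := mul_le_mul_of_nonneg_right htV (conorm_nonneg (G := G) z (cd u z))
      have h4 := mul_nonneg (mul_nonneg ht he) (conorm_nonneg (G := G) z (cd u z))
      linarith
    · simp [cd_eq_zero_of_notMem fun hs => hz (hu.2.1 hs), conorm_zero, firstVar, pairing]
  obtain ⟨hint, hle⟩ := setIntegral_step_le hK.measurableSet (hZ.differentiable one_ne_zero)
    hB ht htB (fun y _ => hdet y) ig hg0
  refine le_trans ?_ (hle.trans eI.le)
  have hts : ∀ y ∉ K, cd (fun y => u (y + t • Z y)) y = 0 := fun y hy => by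
    rw [cd_step hu.1 hZ, cd_eq_zero_of_notMem fun hs => hy (hsupp y (hu.2.1 hs))]
    funext i; simp [pull]
  rw [per, ← setIntegral_eq_integral_of_forall_compl_eq_zero (s := K) fun y hy => by
    rw [hts y hy, conorm_zero, zero_mul]]
  have hcd : ContDiff ℝ 1 fun y => u (y + t • Z y) :=
    hu.1.comp (contDiff_id.add (hZ.const_smul t))
  refine setIntegral_mono_on (((h.continuous_conorm_cd hcd).mul
    h.continuous_dens).continuousOn.integrableOn_compact hK) hint hK.measurableSet fun y hy => ?_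
  obtain ⟨e1, e2⟩ := hZK y hy
  rw [cd_step hu.1 hZ, eg, e2, e1]
  have := hdef y hy (cd u (y + t • gfield G D x s y))
  rw [defect] at this
  linarith

/-- The volume after a step. -/
theorem IsCH.vol_step (h : IsCH G D) (hK : IsCompact K) (hu : Comp K u) {x : Fin n → ℝ} {s : ℝ}
    {Z : (Fin n → ℝ) → Fin n → ℝ} (hZ : ContDiff ℝ 1 Z) (hZc : HasCompactSupport Z) {B τ t e : ℝ}
    (hB : ∀ y, ‖fderiv ℝ Z y‖ ≤ B)
    (ht : t ∈ Icc 0 τ) (he : 0 ≤ e) (htB : τ * B < 1)
    (hdet : ∀ r ∈ Icc 0 τ, ∀ y, 0 ≤ (1 + r • opMat (fderiv ℝ Z y)).det)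
    (hflux : ∀ r ∈ Icc 0 τ, ∀ y ∈ K, ∀ ξ : Fin n → ℝ,
      |ξ ⬝ᵥ Z y| * dens G y ≤ (1 + r • opMat (fderiv ℝ Z y)).det * dens G (y + r • Z y) *
        (|ξ ⬝ᵥ gfield G D x s (y + r • Z y)| + e * conorm G (y + r • Z y) ξ))
    (hsupp : ∀ r ∈ Icc 0 τ, ∀ y, y + r • Z y ∈ K → y ∈ K) :
    vol G u - t * gFlux G D x s u - t * e * per G u ≤ vol G (fun y => u (y + t • Z y)) := by
  rcases eq_or_lt_of_le ht.1 with rfl | htpos
  · simp
  have hdu : Continuous (fderiv ℝ u) := hu.1.continuous_fderiv one_ne_zero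
  have hduc : HasCompactSupport (fderiv ℝ u) :=
    (HasCompactSupport.intro hK fun y hy =>
      image_eq_zero_of_notMem_tsupport fun hs => hy (hu.2.1 hs)).fderiv ℝ
  obtain ⟨Cu, hCu⟩ := hduc.exists_bound_of_continuous hdu
  obtain ⟨CZ, hCZ⟩ := hZc.exists_bound_of_continuous hZ.continuous
  set f : ℝ → (Fin n → ℝ) → ℝ := fun r y => u (y + r • Z y) * dens G y
  set f' : ℝ → (Fin n → ℝ) → ℝ := fun r y => fderiv ℝ u (y + r • Z y) (Z y) * dens G y
  have hcf : ∀ r, Continuous (f r) := fun r =>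
    (hu.1.continuous.comp (continuous_id.add (hZ.continuous.const_smul r))).mul h.continuous_dens
  have hcf' : ∀ r, Continuous (f' r) := fun r =>
    ((hdu.comp (continuous_id.add (hZ.continuous.const_smul r))).clm_apply hZ.continuous).mul
      h.continuous_dens
  have hint : ∀ r, Integrable (f r) := by
    intro r
    refine (hcf r).integrable_of_hasCompactSupport (HasCompactSupport.intro (hK.union hZc)
      fun y hy => ?_)
    rw [Set.mem_union, not_or] at hy
    simp [f, image_eq_zero_of_notMem_tsupport hy.2,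
      image_eq_zero_of_notMem_tsupport (fun hs => hy.1 (hu.2.1 hs))]
  set bound : (Fin n → ℝ) → ℝ := (tsupport Z).indicator fun y => Cu * CZ * dens G y
  have hbound : Integrable bound :=
    ((continuous_const.mul h.continuous_dens).continuousOn.integrableOn_compact
      hZc).integrable_indicator (isClosed_tsupport Z).measurableSet
  have hder : ∀ r : ℝ, HasDerivAt (fun r => ∫ y, f r y) (∫ y, f' r y) r := fun r => by
    refine (hasDerivAt_integral_of_dominated_loc_of_deriv_le (μ := volume) (F' := f') (bound := bound)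
      (Metric.ball_mem_nhds r one_pos) (Eventually.of_forall fun q => (hcf q).aestronglyMeasurable)
      (hint r) (hcf' r).aestronglyMeasurable (Eventually.of_forall fun y q _ => ?_) hbound
      (Eventually.of_forall fun y q _ => ?_)).2
    · by_cases hy : y ∈ tsupport Z
      · simp only [bound, Set.indicator_of_mem hy, f', norm_mul,
          Real.norm_of_nonneg (h.dens_pos y).le]
        exact mul_le_mul_of_nonneg_right (((fderiv ℝ u _).le_opNorm _).trans
          (mul_le_mul (hCu _) (hCZ y) (norm_nonneg _) ((norm_nonneg _).trans (hCu y))))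
          (h.dens_pos y).le
      · simp [bound, Set.indicator_of_notMem hy, f', image_eq_zero_of_notMem_tsupport hy]
    · have h1 : HasDerivAt (fun q : ℝ => y + q • Z y) (Z y) q := by
        simpa using ((hasDerivAt_id q).smul_const (Z y)).const_add y
      exact (((hu.1.differentiable one_ne_zero _).hasFDerivAt).comp_hasDerivAt q h1).mul_const _
  have hslope : ∀ r ∈ Ico 0 t, ‖∫ y, f' r y‖ ≤ gFlux G D x s u + e * per G u := by
    intro r hr
    have hrτ : r ∈ Icc 0 τ := ⟨hr.1, hr.2.le.trans ht.2⟩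
    have i1 := h.integrable_flux hK hu x s
    have i0 : Integrable fun y => conorm G y (cd u y) * dens G y := by
      simpa using h.integrable_mul_conorm hK hu (continuous_const (y := (1 : ℝ)))
    set g : (Fin n → ℝ) → ℝ := fun z => |normalPart G D x u z| * gw D x s z * dens G z +
      e * (conorm G z (cd u z) * dens G z)
    have hrB : r * B < 1 := lt_of_le_of_lt
      (mul_le_mul_of_nonneg_right hrτ.2 ((norm_nonneg _).trans (hB 0))) htB
    obtain ⟨hint', hle⟩ := setIntegral_step_le hK.measurableSet (hZ.differentiable one_ne_zero)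
      hB hr.1 hrB (fun y _ => hdet r hrτ y) (g := g) (i1.add (i0.const_mul e))
      fun z => add_nonneg (mul_nonneg (mul_nonneg (abs_nonneg _) (gw_pos x s z).le) (h.dens_pos z).le)
        (mul_nonneg he (mul_nonneg (conorm_nonneg z _) (h.dens_pos z).le))
    refine le_trans ?_ (hle.trans_eq (by
      simp only [g]; rw [integral_add i1 (i0.const_mul e), integral_const_mul]; rfl))
    rw [← setIntegral_eq_integral_of_forall_compl_eq_zero (s := K) fun y hy => by
      simp [f', fderiv_of_notMem_tsupport ℝ fun hs => hy (hsupp r hrτ y (hu.2.1 hs))]]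
    refine (norm_integral_le_integral_norm _).trans ?_
    refine setIntegral_mono_on ((hcf' r).norm.continuousOn.integrableOn_compact hK) hint'
      hK.measurableSet fun y hy => ?_
    simp only [f', Real.norm_eq_abs, abs_mul, abs_of_pos (h.dens_pos y), ← cd_dotProduct]
    refine (hflux r hrτ y hy (cd u (y + r • Z y))).trans (le_of_eq ?_)
    simp only [g, gfield, dotProduct_smul, smul_eq_mul, abs_mul, abs_of_pos (gw_pos x s _)]
    simp only [normalPart, pairing, grad]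
    ring
  have hmvt := norm_image_sub_le_of_norm_deriv_le_segment' (f := fun r => ∫ y, f r y)
    (fun r _ => (hder r).hasDerivWithinAt) hslope t ⟨ht.1, le_rfl⟩
  have e0 : ∫ y, f 0 y = vol G u := by simp [f, vol]
  rw [e0, Real.norm_eq_abs, abs_le] at hmvt
  have e1 : vol G (fun y => u (y + t • Z y)) = ∫ y, f t y := rfl
  rw [e1]
  linarith [hmvt.1]

/-- The variation pin from its pointwise part. -/
theorem variationPin_of_defect (hdefect : ∀ n, DefectPin n) (n : ℕ) : VariationPin n := by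
  intro _ G D h o R a b e _ ha hab he
  set K : Set (Fin n → ℝ) := {y | D o y ≤ R}
  have hK : IsCompact K := h.proper o R
  set q₀ := (b ^ 2)⁻¹
  set q₁ := (a ^ 2)⁻¹
  obtain ⟨χ, r, B, hχ, hχc, -, hr, hKr, hB0, hone, hbd⟩ := h.exists_cutoff hK q₀ q₁
  have hq₀ : 0 ≤ q₀ := inv_nonneg.2 (sq_nonneg b)
  obtain ⟨τd, hτd, hdef⟩ := hdefect n G D h K hK a b e ha hab he
  obtain ⟨τs, hτs, hsupp⟩ := h.exists_support_step o R (χ := χ) hKr hB0 hone
    (P := K ×ˢ Icc q₀ q₁) (fun p hp => ⟨hp.1, hq₀.trans hp.2.1⟩) (fun p hp y => (hbd p hp y).1)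
  obtain ⟨τf, hτf, hflux⟩ := h.exists_flux_step hK q₀ q₁ he
  obtain ⟨τj, hτj, hdetb⟩ := exists_det_step (n := n) B
  obtain ⟨Cj, hCj, hjac⟩ := h.exists_jacobian_bound r B
  obtain ⟨md, hmd, hmdle⟩ : ∃ md : ℝ, 0 < md ∧ ∀ y, ‖y‖ ≤ r + 1 → md ≤ dens G y := by
    obtain ⟨y₀, -, hy₀⟩ := (isCompact_closedBall (0 : Fin n → ℝ) (r + 1)).exists_isMinOn
      ⟨0, by simp; linarith⟩ h.continuous_dens.continuousOn
    exact ⟨dens G y₀, h.dens_pos y₀, fun y hy => hy₀ (by simpa using hy)⟩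
  obtain ⟨Bd, hBd0, hBd⟩ : ∃ Bd : ℝ, 0 ≤ Bd ∧ ∀ x ∈ K, ∀ y ∈ K, D x y ≤ Bd := by
    obtain ⟨Bd, hBd⟩ := (hK.prod hK).bddAbove_image
      (h.continuous_D.continuousOn (s := K ×ˢ K))
    exact ⟨max Bd 0, le_max_right _ _,
      fun x hx y hy => (hBd ⟨(x, y), ⟨hx, hy⟩, rfl⟩).trans (le_max_left _ _)⟩
  obtain ⟨Cv, hCvd⟩ : ∃ Cv : ℝ, Cv = (n : ℝ) + 1 + 4 * (Bd / a ^ 2) := ⟨_, rfl⟩
  have hCv : 0 < Cv := by rw [hCvd]; positivity
  obtain ⟨τ, hτ⟩ : ∃ τ : ℝ, τ = min (min (min τd τs) (min τf τj))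
      (min 1 (min (1 / (B + 1)) (1 / Cv))) := ⟨_, rfl⟩
  have hτpos : 0 < τ := by rw [hτ]; positivity
  have hle : τ ≤ τd ∧ τ ≤ τs ∧ τ ≤ τf ∧ τ ≤ τj ∧ τ ≤ 1 ∧ τ ≤ 1 / (B + 1) ∧ τ ≤ 1 / Cv := by
    rw [hτ]
    simp only [min_le_iff, le_refl, true_or, or_true, and_self]
  obtain ⟨hle1, hle2, hle3, hle4, hle5, hle6, hle7⟩ := hle
  refine ⟨τ, 2 * Cj / md, hτpos, by positivity, fun t x s u ht htτ hx hs hu => ?_⟩
  have hs0 : 0 < s := ha.trans_le hs.1
  have hp : (x, (s ^ 2)⁻¹) ∈ K ×ˢ Icc q₀ q₁ := by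
    refine ⟨hx, ?_, ?_⟩
    · exact inv_anti₀ (by positivity) (pow_le_pow_left₀ hs0.le hs.2 2)
    · exact inv_anti₀ (by positivity) (pow_le_pow_left₀ ha.le hs.1 2)
  set Z := cutField G D χ (x, (s ^ 2)⁻¹)
  have hZd : ContDiff ℝ 1 Z :=
    (h.contDiff_cutField hχ).comp (contDiff_const.prodMk contDiff_id)
  have hZc : HasCompactSupport Z := by
    refine HasCompactSupport.intro hχc fun y hy => ?_
    simp [Z, cutField, image_eq_zero_of_notMem_tsupport hy]
  have hcut1 : cutField G D (fun _ => (1 : ℝ)) (x, (s ^ 2)⁻¹) = gfield G D x s := by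
    funext z; rw [cutField_eq, one_smul]
  have hZK : ∀ y ∈ K, Z y = gfield G D x s y ∧
      fderiv ℝ Z y = fderiv ℝ (gfield G D x s) y := by
    intro y hy
    have hyr : ‖y‖ ≤ r := by simpa using hKr hy
    have hev : Z =ᶠ[𝓝 y] gfield G D x s := by
      filter_upwards [hone y (by linarith)] with z hz
      show cutField G D χ (x, (s ^ 2)⁻¹) z = _
      rw [cutField_eq, hz, one_smul]
    exact ⟨hev.eq_of_nhds, hev.fderiv_eq⟩
  have hB' : ∀ y, ‖Z y‖ ≤ B ∧ ‖fderiv ℝ Z y‖ ≤ B := hbd _ hp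
  have htB : τ * B < 1 := by
    calc τ * B ≤ 1 / (B + 1) * B := mul_le_mul_of_nonneg_right hle6 hB0
      _ < 1 := by rw [div_mul_eq_mul_div, div_lt_one (by positivity)]; linarith
  have hdet : ∀ q ∈ Icc (0 : ℝ) τ, ∀ y, 1 / 2 ≤ (1 + q • opMat (fderiv ℝ Z y)).det :=
    fun q hq y => hdetb q ⟨hq.1, hq.2.trans hle4⟩ _ (hB' y).2
  have hsupp' : ∀ q ∈ Icc (0 : ℝ) τ, ∀ y, y + q • Z y ∈ K → y ∈ K :=
    fun q hq y hy => hsupp q ⟨hq.1, hq.2.trans hle2⟩ _ hp y hy
  have htI : t ∈ Icc (0 : ℝ) τ := ⟨ht.le, htτ⟩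
  have htB' : t * B < 1 := lt_of_le_of_lt (mul_le_mul_of_nonneg_right htτ hB0) htB
  refine ⟨fun y => u (y + t • Z y), ⟨hu.1.comp (contDiff_id.add (hZd.const_smul t)), ?_,
    fun y => hu.2.2 _⟩, ?_, ?_, ?_⟩
  · refine closure_minimal (fun y hy => hsupp' t htI y (hu.2.1 ?_)) hK.isClosed
    exact subset_tsupport _ hy
  · refine h.per_step hK hu ha hs.1 (hBd x hx) hZd (fun y => (hB' y).2) hZK ht.le he.le htB' ?_
      (fun y => le_trans (by norm_num) (hdet t htI y))
      (fun y hy ξ => hdef t ⟨ht.le, htτ.trans hle1⟩ x hx s hs y hy ξ) (hsupp' t htI)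
    rw [← hCvd]
    calc t * Cv ≤ 1 / Cv * Cv := mul_le_mul_of_nonneg_right (htτ.trans hle7) hCv.le
      _ = 1 := div_mul_cancel₀ _ hCv.ne'
  · refine h.vol_step hK hu hZd hZc (fun y => (hB' y).2) htI he.le htB
      (fun q hq y => le_trans (by norm_num) (hdet q hq y)) ?_ hsupp'
    intro q hq y hy ξ
    have hf := hflux q ⟨hq.1, hq.2.trans hle3⟩ _ hp y hy ξ
    rw [hcut1] at hf
    rw [(hZK y hy).1, (hZK y hy).2]
    exact hf
  · exact h.gap_step hK hKr hu hZd hB' hmd hmdle hCj hjac ⟨ht.le, htτ.trans hle5⟩ htB'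
      (hdet t htI) (hsupp' t htI)

end Vale.Agent.P219.CH
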