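import Vale.Agent.P219.CH.Profile
import Vale.Agent.P219.CH.Yau
import Vale.Agent.P219.CH.Main
import Vale.Agent.P219.CH.Min
import Vale.Agent.P219.CH.Variation
import Vale.Agent.P219.CH.VarDefect
import Vale.Agent.P219.CH.Start
import Vale.Agent.P219.CH.Fraction

/-!
# P219: a dimension-free fraction of the profile of the space form, for every upper curvature bound
-/

noncomputable section

open MeasureTheory Set Filter Topology Matrix

namespace Vale.Agent.P219.CH

variable {n : ℕ} {G : (Fin n → ℝ) → Matrix (Fin n) (Fin n) ℝ}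
  {D : (Fin n → ℝ) → (Fin n → ℝ) → ℝ}

/-- The inequality with the constant `lam n`. -/
theorem isoperimetricCH : IsoperimetricCH :=
  isoperimetricCH_of_pins (variationPin_of_defect defectPin) startPin minPin

/-- Three fifths of the profile of the space form of curvature `-b ^ 2`, in every dimension. -/
theorem IsCH.three_fifths (h : IsCH G D) (hn : 2 ≤ n) {b : ℝ} (hb0 : 0 ≤ b) (hb : Bent G D b)
    {Ω : Set (Fin n → ℝ)} {A : ℝ} (hΩ : MeasurableSet Ω) (hB : Bornology.IsBounded Ω)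
    (hA : PerimeterLE G Ω A) :
    ∃ r, 0 ≤ r ∧
      (volume (Metric.ball (0 : EuclideanSpace ℝ (Fin n)) 1)).toReal * modelVol n b r = volG G Ω ∧
      3 / 5 * ((volume (Metric.ball (0 : EuclideanSpace ℝ (Fin n)) 1)).toReal * modelArea n b r)
        ≤ A := by
  set ω := (volume (Metric.ball (0 : EuclideanSpace ℝ (Fin n)) 1)).toReal with hω
  have hω0 : 0 < ω :=
    ENNReal.toReal_pos (Metric.measure_ball_pos volume _ one_pos).ne' measure_ball_lt_top.ne
  have hn0 : (0 : ℝ) < n := by exact_mod_cast (by omega : 0 < n)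
  have hV : 0 ≤ volG G Ω := setIntegral_nonneg hΩ fun y _ => (h.dens_pos y).le
  obtain ⟨r, hr, hq⟩ := exists_modelVol_eq (show 1 ≤ n by omega) b (div_nonneg hV hω0.le)
  have hVq : ω * modelVol n b r = volG G Ω := by
    rw [hq, mul_div_cancel₀ _ hω0.ne']
  refine ⟨r, hr, hVq, ?_⟩
  have hq0 : 0 ≤ modelVol n b r := hq ▸ div_nonneg hV hω0.le
  set q := modelVol n b r
  have hS : 3 / 4 * Vale.Agent.P219.sharpConst n * volG G Ω ^ (((n : ℝ) - 1) / n) ≤ A :=
    le_trans (mul_le_mul_of_nonneg_right (three_quarters_le_lam hn) (Real.rpow_nonneg hV _))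
      (isoperimetricCH n hn G D h Ω A hΩ hB hA)
  have hY := h.linear_bound (by omega) hb0 hb hΩ hB hA
  have e : Vale.Agent.P219.sharpConst n * volG G Ω ^ (((n : ℝ) - 1) / n) =
      ω * ((n : ℝ) * q ^ (((n : ℝ) - 1) / n)) := by
    rw [Vale.Agent.P219.sharpConst, ← hω, ← hVq, Real.mul_rpow hω0.le hq0]
    calc (n : ℝ) * ω ^ (1 / n : ℝ) * (ω ^ (((n : ℝ) - 1) / n) * q ^ (((n : ℝ) - 1) / n))
        = (n : ℝ) * (ω ^ (1 / n : ℝ) * ω ^ (((n : ℝ) - 1) / n)) * q ^ (((n : ℝ) - 1) / n) := by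
          ring
      _ = _ := by
          rw [← Real.rpow_add hω0, show 1 / (n : ℝ) + ((n : ℝ) - 1) / n = 1 by field_simp; ring,
            Real.rpow_one]
          ring
  rw [mul_assoc, e] at hS
  rw [← hVq] at hY
  have hprof := modelArea_sq_le hn b hr
  have hA0 : 0 ≤ A := le_trans (by positivity) hS
  have h1 : 0 ≤ ω * ((n : ℝ) * q ^ (((n : ℝ) - 1) / n)) := by positivity
  have h2 : 0 ≤ ((n : ℝ) - 1) * b * (ω * q) :=
    mul_nonneg (mul_nonneg (sub_nonneg.2 (Nat.one_le_cast.2 (by omega))) hb0) (by positivity)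
  have h3 := pow_le_pow_left₀ (by positivity) hS 2
  have h4 := pow_le_pow_left₀ h2 hY 2
  have h5 := mul_le_mul_of_nonneg_left hprof (sq_nonneg ω)
  refine (abs_le.1 (abs_le_of_sq_le_sq ?_ hA0)).2
  nlinarith

end Vale.Agent.P219.CH
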