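import Mathlib

/-!
# P219: the isoperimetric profile of the space form of curvature `-b ^ 2`, bounded by its two limits
-/

noncomputable section

open MeasureTheory Set Filter Topology

namespace Vale.Agent.P219.CH

variable {b r : ℝ}

/-- The function `sn` of curvature `-b ^ 2`. -/
def sn (b r : ℝ) : ℝ := if b = 0 then r else Real.sinh (b * r) / b

/-- The volume of the model ball of radius `r`, divided by that of the Euclidean unit ball. -/
def modelVol (n : ℕ) (b r : ℝ) : ℝ := n * ∫ t in (0 : ℝ)..r, sn b t ^ (n - 1)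

/-- The area of the model sphere of radius `r`, divided by the volume of the Euclidean unit
ball. -/
def modelArea (n : ℕ) (b r : ℝ) : ℝ := n * sn b r ^ (n - 1)

lemma sn_zero (b : ℝ) : sn b 0 = 0 := by
  unfold sn; split_ifs <;> simp

lemma hasDerivAt_sn (b r : ℝ) : HasDerivAt (sn b) (Real.cosh (b * r)) r := by
  by_cases hb : b = 0
  · subst hb
    rw [show sn 0 = id from funext fun t => by simp [sn], zero_mul, Real.cosh_zero]
    exact hasDerivAt_id r
  · have h : HasDerivAt (fun t => Real.sinh (b * t) / b) (Real.cosh (b * r) * b / b) r :=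
      (((hasDerivAt_id r).const_mul b).sinh.div_const b).congr_deriv (by simp)
    rw [mul_div_assoc, div_self hb, mul_one] at h
    rw [show sn b = fun t => Real.sinh (b * t) / b from funext fun t => by simp [sn, hb]]
    exact h

lemma continuous_sn (b : ℝ) : Continuous (sn b) :=
  continuous_iff_continuousAt.2 fun r => (hasDerivAt_sn b r).continuousAt

lemma hasDerivAt_cosh_sn (b r : ℝ) :
    HasDerivAt (fun t => Real.cosh (b * t)) (b ^ 2 * sn b r) r := by
  refine (((hasDerivAt_id r).const_mul b).cosh).congr_deriv ?_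
  by_cases hb : b = 0
  · simp [hb]
  · simp [sn, hb]; field_simp

lemma cosh_sq_sn (b r : ℝ) : Real.cosh (b * r) ^ 2 = 1 + b ^ 2 * sn b r ^ 2 := by
  rw [Real.cosh_sq]
  by_cases hb : b = 0
  · simp [hb]
  · simp [sn, hb]; field_simp; ring

lemma le_sn (b : ℝ) (hr : 0 ≤ r) : r ≤ sn b r := by
  have h : MonotoneOn (fun t => sn b t - t) (Ici (0 : ℝ)) :=
    monotoneOn_of_hasDerivWithinAt_nonneg (convex_Ici 0)
      ((continuous_sn b).sub continuous_id).continuousOn
      (fun t _ => ((hasDerivAt_sn b t).sub (hasDerivAt_id t)).hasDerivWithinAt)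
      fun t _ => by simpa using Real.one_le_cosh (b * t)
  simpa [sn_zero] using h self_mem_Ici hr hr

lemma sn_nonneg (b : ℝ) (hr : 0 ≤ r) : 0 ≤ sn b r := hr.trans (le_sn b hr)

lemma hasDerivAt_modelVol (n : ℕ) (b r : ℝ) :
    HasDerivAt (modelVol n b) (n * sn b r ^ (n - 1)) r :=
  (((continuous_sn b).pow (n - 1)).integral_hasStrictDerivAt 0 r).hasDerivAt.const_mul _

lemma continuous_modelVol (n : ℕ) (b : ℝ) : Continuous (modelVol n b) :=
  continuous_iff_continuousAt.2 fun r => (hasDerivAt_modelVol n b r).continuousAt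

lemma modelVol_zero (n : ℕ) (b : ℝ) : modelVol n b 0 = 0 := by simp [modelVol]

lemma pow_le_modelVol {n : ℕ} (hn : 1 ≤ n) (b : ℝ) (hr : 0 ≤ r) :
    r ^ n ≤ modelVol n b r := by
  have h : MonotoneOn (fun t => modelVol n b t - t ^ n) (Ici (0 : ℝ)) :=
    monotoneOn_of_hasDerivWithinAt_nonneg (convex_Ici 0)
      ((continuous_modelVol n b).sub (continuous_pow n)).continuousOn
      (fun t _ => ((hasDerivAt_modelVol n b t).sub (hasDerivAt_pow n t)).hasDerivWithinAt)
      fun t ht => by
        rw [interior_Ici] at ht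
        rw [sub_nonneg]
        exact mul_le_mul_of_nonneg_left (pow_le_pow_left₀ (le_of_lt ht) (le_sn b (le_of_lt ht)) _)
          (Nat.cast_nonneg n)
  simpa [modelVol_zero, zero_pow (show n ≠ 0 by omega)] using h self_mem_Ici hr hr

lemma modelVol_le_pow {n : ℕ} (hn : 1 ≤ n) (b : ℝ) (hr : 0 ≤ r) :
    modelVol n b r ≤ sn b r ^ n := by
  have h : MonotoneOn (fun t => sn b t ^ n - modelVol n b t) (Ici (0 : ℝ)) :=
    monotoneOn_of_hasDerivWithinAt_nonneg (convex_Ici 0)
      (((continuous_sn b).pow n).sub (continuous_modelVol n b)).continuousOn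
      (fun t _ => (((hasDerivAt_sn b t).pow n).sub (hasDerivAt_modelVol n b t)).hasDerivWithinAt)
      fun t ht => by
        rw [interior_Ici] at ht
        rw [sub_nonneg]
        exact le_mul_of_one_le_right
          (mul_nonneg (Nat.cast_nonneg n) (pow_nonneg (sn_nonneg b (le_of_lt ht)) _))
          (Real.one_le_cosh _)
  simpa [modelVol_zero, sn_zero, zero_pow (show n ≠ 0 by omega)] using h self_mem_Ici hr hr

lemma exists_modelVol_eq {n : ℕ} (hn : 1 ≤ n) (b : ℝ) {V : ℝ} (hV : 0 ≤ V) :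
    ∃ r, 0 ≤ r ∧ modelVol n b r = V := by
  have h1 : V ≤ modelVol n b (max 1 V) := by
    refine le_trans ?_ (pow_le_modelVol hn b (le_trans zero_le_one (le_max_left 1 V)))
    exact (le_max_right 1 V).trans (le_self_pow₀ (le_max_left 1 V) (by omega))
  obtain ⟨r, hr, h⟩ := intermediate_value_Icc (le_trans zero_le_one (le_max_left 1 V))
    (continuous_modelVol n b).continuousOn
    (show V ∈ Icc (modelVol n b 0) (modelVol n b (max 1 V)) from
      ⟨by rw [modelVol_zero]; exact hV, h1⟩)
  exact ⟨r, hr.1, h⟩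

lemma strictMonoOn_modelVol {n : ℕ} (hn : 1 ≤ n) (b : ℝ) :
    StrictMonoOn (modelVol n b) (Ici 0) :=
  strictMonoOn_of_deriv_pos (convex_Ici 0) (continuous_modelVol n b).continuousOn fun t ht => by
    rw [interior_Ici] at ht
    rw [(hasDerivAt_modelVol n b t).deriv]
    exact mul_pos (by exact_mod_cast hn) (pow_pos (lt_of_lt_of_le ht (le_sn b (le_of_lt ht))) _)

/-- The step behind `modelArea_sq_le`. -/
lemma sn_pow_cosh_le (k : ℕ) (b : ℝ) (hr : 0 ≤ r) :
    sn b r ^ k * Real.cosh (b * r) ≤ modelVol (k + 2) b r ^ ((k : ℝ) / (k + 2)) +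
      ((k : ℝ) + 1) / (k + 2) * b ^ 2 * modelVol (k + 2) b r := by
  set q := modelVol (k + 2) b with hq
  have hk : (0 : ℝ) < k + 2 := by positivity
  have hk2 : (0 : ℝ) ≤ (k : ℝ) / (k + 2) := by positivity
  set F : ℝ → ℝ := fun t => q t ^ ((k : ℝ) / (k + 2)) + ((k : ℝ) + 1) / (k + 2) * b ^ 2 * q t -
    sn b t ^ k * Real.cosh (b * t) with hF
  have hc : Continuous F := by
    have := continuous_modelVol (k + 2) b
    exact (((this.rpow_const fun _ => Or.inr hk2).add (continuous_const.mul this)).sub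
      (((continuous_sn b).pow k).mul (Real.continuous_cosh.comp (continuous_const.mul continuous_id))))
  have h : MonotoneOn F (Ici (0 : ℝ)) := by
    refine monotoneOn_of_hasDerivWithinAt_nonneg (convex_Ici 0) hc.continuousOn
      (f' := fun t => (((k + 2 : ℕ) : ℝ) * sn b t ^ (k + 2 - 1)) * ((k : ℝ) / (k + 2)) *
          q t ^ ((k : ℝ) / (k + 2) - 1) +
        ((k : ℝ) + 1) / (k + 2) * b ^ 2 * (((k + 2 : ℕ) : ℝ) * sn b t ^ (k + 2 - 1)) -
        (k * sn b t ^ (k - 1) * Real.cosh (b * t) * Real.cosh (b * t) +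
          sn b t ^ k * (b ^ 2 * sn b t)))
      (fun t ht => ?_) fun t ht => ?_
    · rw [interior_Ici] at ht
      have hq0 : 0 < q t :=
        lt_of_lt_of_le (pow_pos ht _) (pow_le_modelVol (by omega) b (le_of_lt ht))
      exact ((((hasDerivAt_modelVol (k + 2) b t).rpow_const (Or.inl hq0.ne')).add
        ((hasDerivAt_modelVol (k + 2) b t).const_mul _)).sub
        (((hasDerivAt_sn b t).pow k).mul (hasDerivAt_cosh_sn b t))).hasDerivWithinAt
    · rw [interior_Ici] at ht
      set s := sn b t with hs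
      have hs0 : 0 < s := lt_of_lt_of_le ht (le_sn b (le_of_lt ht))
      have hq0 : 0 < q t :=
        lt_of_lt_of_le (pow_pos ht _) (pow_le_modelVol (by omega) b (le_of_lt ht))
      have hle : q t ≤ s ^ (k + 2) := modelVol_le_pow (by omega) b (le_of_lt ht)
      have h2 : (s ^ 2)⁻¹ ≤ q t ^ ((k : ℝ) / (k + 2) - 1) := by
        have e : (k : ℝ) / (k + 2) - 1 = -2 / (k + 2) := by field_simp; ring
        rw [e]
        refine le_trans (le_of_eq ?_)
          (Real.rpow_le_rpow_of_nonpos hq0 hle (div_nonpos_of_nonpos_of_nonneg (by norm_num) hk.le))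
        rw [← Real.rpow_natCast s (k + 2), ← Real.rpow_mul hs0.le]
        push_cast
        rw [mul_div_cancel₀ _ hk.ne', Real.rpow_neg hs0.le]
        norm_num
      have hkk : (k : ℝ) * s ^ (k - 1) = k * s ^ k / s := by
        rcases Nat.eq_zero_or_pos k with h0 | h0
        · simp [h0]
        · rw [eq_div_iff hs0.ne', mul_assoc, ← pow_succ, Nat.sub_add_cancel h0]
      have hd : 0 ≤ (k : ℝ) * s ^ (k + 1) * (q t ^ ((k : ℝ) / (k + 2) - 1) - (s ^ 2)⁻¹) :=
        mul_nonneg (by positivity) (sub_nonneg.2 h2)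
      refine le_trans hd (le_of_eq ?_)
      rw [hkk, show k + 2 - 1 = k + 1 by omega, mul_assoc (k * s ^ k / s), ← sq, cosh_sq_sn b t,
        ← hs]
      push_cast
      field_simp
      ring
  have h0 : F 0 = 0 := by
    simp only [hF, hq, modelVol_zero, sn_zero, mul_zero, add_zero, Real.cosh_zero, mul_one]
    rcases Nat.eq_zero_or_pos k with h0 | h0
    · simp [h0]
    · rw [Real.zero_rpow (by positivity), zero_pow h0.ne', sub_self]
  have := h self_mem_Ici hr hr
  rw [h0] at this
  simp only [hF] at this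
  linarith

/-- The model area is at most the root of the sum of the squares of the Euclidean profile and of
the linear bound; equality holds in dimension two. -/
theorem modelArea_sq_le {n : ℕ} (hn : 2 ≤ n) (b : ℝ) (hr : 0 ≤ r) :
    modelArea n b r ^ 2 ≤ ((n : ℝ) * modelVol n b r ^ (((n : ℝ) - 1) / n)) ^ 2 +
      (((n : ℝ) - 1) * b * modelVol n b r) ^ 2 := by
  obtain ⟨k, rfl⟩ : ∃ k, n = k + 2 := ⟨n - 2, by omega⟩
  set q := modelVol (k + 2) b with hq
  have hk : (0 : ℝ) < k + 2 := by positivity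
  push_cast
  rw [show (k : ℝ) + 2 - 1 = k + 1 by ring]
  set F : ℝ → ℝ := fun t => ((k : ℝ) + 2) ^ 2 * q t ^ (2 * ((k : ℝ) + 1) / (k + 2)) +
    (((k : ℝ) + 1) * b) ^ 2 * q t ^ 2 - ((k : ℝ) + 2) ^ 2 * sn b t ^ (2 * k + 2) with hF
  have hc : Continuous F := by
    have := continuous_modelVol (k + 2) b
    exact ((continuous_const.mul (this.rpow_const fun _ => Or.inr (by positivity))).add
      (continuous_const.mul (this.pow 2))).sub (continuous_const.mul ((continuous_sn b).pow _))
  have h : MonotoneOn F (Ici (0 : ℝ)) := by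
    refine monotoneOn_of_hasDerivWithinAt_nonneg (convex_Ici 0) hc.continuousOn
      (f' := fun t => ((k : ℝ) + 2) ^ 2 * ((((k + 2 : ℕ) : ℝ) * sn b t ^ (k + 2 - 1)) *
          (2 * ((k : ℝ) + 1) / (k + 2)) * q t ^ (2 * ((k : ℝ) + 1) / (k + 2) - 1)) +
        (((k : ℝ) + 1) * b) ^ 2 * (2 * q t ^ (2 - 1) *
          (((k + 2 : ℕ) : ℝ) * sn b t ^ (k + 2 - 1))) -
        ((k : ℝ) + 2) ^ 2 * (((2 * k + 2 : ℕ) : ℝ) * sn b t ^ (2 * k + 2 - 1) *
          Real.cosh (b * t)))
      (fun t ht => ?_) fun t ht => ?_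
    · rw [interior_Ici] at ht
      have hq0 : 0 < q t :=
        lt_of_lt_of_le (pow_pos ht _) (pow_le_modelVol (by omega) b (le_of_lt ht))
      refine ((((hasDerivAt_modelVol (k + 2) b t).rpow_const (Or.inl hq0.ne')).const_mul _).add
        (((hasDerivAt_modelVol (k + 2) b t).pow 2).const_mul _)).sub
        (((hasDerivAt_sn b t).pow (2 * k + 2)).const_mul _) |>.hasDerivWithinAt
    · rw [interior_Ici] at ht
      have hs0 : 0 ≤ sn b t := sn_nonneg b (le_of_lt ht)
      have key := sn_pow_cosh_le k b (le_of_lt ht)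
      rw [← hq] at key
      have e : 2 * ((k : ℝ) + 1) / (k + 2) - 1 = (k : ℝ) / (k + 2) := by field_simp; ring
      have hd : 0 ≤ 2 * ((k : ℝ) + 1) * ((k : ℝ) + 2) ^ 2 * sn b t ^ (k + 1) *
          (q t ^ ((k : ℝ) / (k + 2)) + ((k : ℝ) + 1) / (k + 2) * b ^ 2 * q t -
            sn b t ^ k * Real.cosh (b * t)) :=
        mul_nonneg (by positivity) (by linarith)
      refine le_trans hd (le_of_eq ?_)
      rw [e, show k + 2 - 1 = k + 1 by omega, show 2 * k + 2 - 1 = k + 1 + k by omega, pow_add]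
      push_cast
      field_simp
      ring
  have h0 : F 0 = 0 := by
    simp only [hF, hq, modelVol_zero, sn_zero]
    rw [Real.zero_rpow (by positivity)]
    simp
  have := h self_mem_Ici hr hr
  rw [h0] at this
  simp only [hF] at this
  have hq0 : 0 ≤ q r := (pow_nonneg hr _).trans (pow_le_modelVol (by omega) b hr)
  have e1 : (q r ^ (((k : ℝ) + 1) / (k + 2))) ^ 2 = q r ^ (2 * ((k : ℝ) + 1) / (k + 2)) := by
    rw [← Real.rpow_natCast (q r ^ (((k : ℝ) + 1) / (k + 2))) 2, ← Real.rpow_mul hq0]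
    push_cast; ring_nf
  rw [mul_pow, e1, mul_pow, modelArea, show k + 2 - 1 = k + 1 by omega]
  push_cast
  rw [mul_pow _ (sn b r ^ (k + 1)), ← pow_mul, show (k + 1) * 2 = 2 * k + 2 by ring]
  linarith

end Vale.Agent.P219.CH
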