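import Vale.Agent.P219.CH.Basic

/-!
# The Gaussian perimeter as a function of the scale
-/

noncomputable section

open MeasureTheory Set Filter Topology Matrix

namespace Vale.Agent.P219.CH

variable {n : ℕ} {G : (Fin n → ℝ) → Matrix (Fin n) (Fin n) ℝ}
  {D : (Fin n → ℝ) → (Fin n → ℝ) → ℝ} {K : Set (Fin n → ℝ)} {u : (Fin n → ℝ) → ℝ}

lemma IsCH.continuous_D_left (h : IsCH G D) (x : Fin n → ℝ) : Continuous (D x) :=
  (h.contDiff_D x).continuous

lemma IsCH.continuous_gw (h : IsCH G D) (x : Fin n → ℝ) (s : ℝ) : Continuous (gw D x s) :=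
  Real.continuous_exp.comp ((h.continuous_D_left x).div_const _).neg

lemma gw_pos (x : Fin n → ℝ) (s : ℝ) (y : Fin n → ℝ) : 0 < gw D x s y := Real.exp_pos _

lemma IsCH.gw_le_one (h : IsCH G D) (x : Fin n → ℝ) (s : ℝ) (y : Fin n → ℝ) : gw D x s y ≤ 1 :=
  Real.exp_le_one_iff.2 (neg_nonpos.2 (div_nonneg (h.dist_nonneg x y) (sq_nonneg s)))

lemma IsCH.gQ_nonneg (h : IsCH G D) (x : Fin n → ℝ) (s : ℝ) (u : (Fin n → ℝ) → ℝ) :
    0 ≤ gQ G D x s u :=
  integral_nonneg fun y =>
    mul_nonneg (gw_pos x s y).le (mul_nonneg (conorm_nonneg y _) (h.dens_pos y).le)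

theorem IsCH.hasDerivAt_gQ (h : IsCH G D) (hK : IsCompact K) (hu : Comp K u) (x : Fin n → ℝ)
    {s : ℝ} (hs : 0 < s) :
    HasDerivAt (fun r => gQ G D x r u) (2 / s * gMom G D x s u) s := by
  set μf : (Fin n → ℝ) → ℝ := fun y => conorm G y (cd u y) * dens G y with hμf
  have hμ0 : ∀ y, 0 ≤ μf y := fun y => mul_nonneg (conorm_nonneg y _) (h.dens_pos y).le
  have hD : Continuous (D x) := h.continuous_D_left x
  have key := hasDerivAt_integral_of_dominated_loc_of_deriv_le (μ := volume)
    (F := fun r y => gw D x r y * μf y)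
    (F' := fun r y => 2 / r * (D x y / r ^ 2 * gw D x r y * μf y))
    (x₀ := s) (s := Metric.ball s (s / 2))
    (bound := fun y => 16 / s ^ 3 * D x y * μf y)
    (Metric.ball_mem_nhds s (by positivity))
    (Eventually.of_forall fun r =>
      (h.integrable_mul_conorm hK hu (h.continuous_gw x r)).aestronglyMeasurable)
    (h.integrable_mul_conorm hK hu (h.continuous_gw x s))
    ((h.integrable_mul_conorm hK hu ((hD.div_const _).mul (h.continuous_gw x s))).const_mul
      _).aestronglyMeasurable ?_
    (h.integrable_mul_conorm hK hu (continuous_const.mul hD)) ?_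
  · refine key.2.congr_deriv ?_
    rw [gMom, ← integral_const_mul]
  · refine Eventually.of_forall fun y r hr => ?_
    rw [Metric.mem_ball, Real.dist_eq, abs_lt] at hr
    have hr0 : 0 < r := by linarith
    have hd := h.dist_nonneg x y
    have e1 : 2 / r * (D x y / r ^ 2 * gw D x r y * μf y) =
        2 / r ^ 3 * gw D x r y * (D x y * μf y) := by
      field_simp
    rw [Real.norm_eq_abs, e1, abs_of_nonneg (mul_nonneg (mul_nonneg (by positivity)
      (gw_pos x r y).le) (mul_nonneg hd (hμ0 y))), mul_assoc (16 / s ^ 3)]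
    refine mul_le_mul_of_nonneg_right ?_ (mul_nonneg hd (hμ0 y))
    refine (mul_le_of_le_one_right (by positivity) (h.gw_le_one x r y)).trans ?_
    rw [div_le_div_iff₀ (by positivity) (by positivity)]
    have : (s / 2) ^ 3 ≤ r ^ 3 := pow_le_pow_left₀ (by positivity) (by linarith) 3
    linarith [show (s / 2) ^ 3 = s ^ 3 / 8 by ring]
  · refine Eventually.of_forall fun y r hr => ?_
    rw [Metric.mem_ball, Real.dist_eq, abs_lt] at hr
    have hr0 : r ≠ 0 := by linarith
    have h1 : HasDerivAt (fun q : ℝ => -(D x y / q ^ 2)) (2 / r * (D x y / r ^ 2)) r := by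
      have h2 := ((hasDerivAt_const r (D x y)).div (hasDerivAt_pow 2 r) (pow_ne_zero 2 hr0)).neg
      refine h2.congr_deriv ?_
      field_simp
      ring
    exact (h1.exp.mul_const (μf y)).congr_deriv (by simp only [gw]; ring)

/-- Jensen at the level `m/4`: the perimeter dominates the tilted Gaussian perimeter. -/
theorem IsCH.le_per (h : IsCH G D) (hK : IsCompact K) (hu : Comp K u) (x : Fin n → ℝ) (s z₀ : ℝ) :
    Real.exp z₀ * (gQ G D x s u + gMom G D x s u - z₀ * gQ G D x s u) ≤ per G u := by
  have hD := h.continuous_D_left x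
  have i1 := h.integrable_mul_conorm hK hu (h.continuous_gw x s)
  have i2 : Integrable fun y => D x y / s ^ 2 * gw D x s y *
      (conorm G y (cd u y) * dens G y) :=
    h.integrable_mul_conorm hK hu ((hD.div_const (s ^ 2)).mul (h.continuous_gw x s))
  have i3 := i1.const_mul z₀
  have i12 : Integrable fun y => gw D x s y * (conorm G y (cd u y) * dens G y) +
      D x y / s ^ 2 * gw D x s y * (conorm G y (cd u y) * dens G y) := i1.add i2
  rw [gQ, gMom, per, ← integral_const_mul z₀, ← integral_add i1 i2, ← integral_sub i12 i3,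
    ← integral_const_mul]
  refine integral_mono ((i12.sub i3).const_mul _)
    (by simpa using h.integrable_mul_conorm hK hu (continuous_const (y := (1 : ℝ)))) fun y => ?_
  have hc : 0 ≤ conorm G y (cd u y) * dens G y :=
    mul_nonneg (conorm_nonneg y _) (h.dens_pos y).le
  set z := D x y / s ^ 2
  have hw : gw D x s y = Real.exp (-z) := rfl
  have : Real.exp z₀ * Real.exp (-z) * (1 + z - z₀) ≤ 1 := by
    have h1 := Real.add_one_le_exp (z - z₀)
    calc Real.exp z₀ * Real.exp (-z) * (1 + z - z₀)
        ≤ Real.exp z₀ * Real.exp (-z) * Real.exp (z - z₀) :=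
          mul_le_mul_of_nonneg_left (by linarith) (by positivity)
      _ = 1 := by
          rw [← Real.exp_add, ← Real.exp_add, show z₀ + -z + (z - z₀) = 0 by ring, Real.exp_zero]
  rw [hw]
  calc Real.exp z₀ * (Real.exp (-z) * (conorm G y (cd u y) * dens G y) +
        z * Real.exp (-z) * (conorm G y (cd u y) * dens G y) -
        z₀ * (Real.exp (-z) * (conorm G y (cd u y) * dens G y)))
      = Real.exp z₀ * Real.exp (-z) * (1 + z - z₀) * (conorm G y (cd u y) * dens G y) := by ring
    _ ≤ 1 * (conorm G y (cd u y) * dens G y) := mul_le_mul_of_nonneg_right this hc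
    _ = _ := one_mul _

lemma IsCH.continuous_normalPart (h : IsCH G D) (hu : ContDiff ℝ 1 u) (x : Fin n → ℝ) :
    Continuous (normalPart G D x u) :=
  h.continuous_pairing.comp (continuous_id.prodMk ((continuous_cd hu).prodMk
    (continuous_cd ((h.contDiff_D x).of_le one_le_two))))

lemma normalPart_eq_zero (x : Fin n → ℝ) {y : Fin n → ℝ} (hy : cd u y = 0) :
    normalPart G D x u y = 0 := by simp [normalPart, pairing, hy]

lemma IsCH.integrable_flux (h : IsCH G D) (hK : IsCompact K) (hu : Comp K u) (x : Fin n → ℝ)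
    (s : ℝ) : Integrable fun y => |normalPart G D x u y| * gw D x s y * dens G y := by
  refine Continuous.integrable_of_hasCompactSupport
    (((h.continuous_normalPart hu.1 x).abs.mul (h.continuous_gw x s)).mul h.continuous_dens) ?_
  refine HasCompactSupport.intro hK fun y hy => ?_
  rw [normalPart_eq_zero x (cd_eq_zero_of_notMem fun hs => hy (hu.2.1 hs))]
  simp

lemma IsCH.normalSq_div_le (h : IsCH G D) (x : Fin n → ℝ) (u : (Fin n → ℝ) → ℝ) (y : Fin n → ℝ) :
    normalPart G D x u y ^ 2 / conorm G y (cd u y) ≤ conorm G y (cd u y) * (2 * D x y) := by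
  rcases eq_or_lt_of_le (conorm_nonneg (G := G) y (cd u y)) with hc | hc
  · simp [← hc]
  · rw [div_le_iff₀ hc]
    have h1 := pow_le_pow_left₀ (abs_nonneg _) (h.abs_normalPart_le x u y) 2
    rw [sq_abs, mul_pow, Real.sq_sqrt (by linarith [h.dist_nonneg x y])] at h1
    exact h1.trans_eq (by ring)

lemma IsCH.integrable_normal (h : IsCH G D) (hK : IsCompact K) (hu : Comp K u) (x : Fin n → ℝ)
    (s : ℝ) : Integrable fun y =>
      normalPart G D x u y ^ 2 / conorm G y (cd u y) / s ^ 2 * gw D x s y * dens G y := by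
  refine Integrable.mono' (h.integrable_mul_conorm hK hu
    (((continuous_const (y := (2 : ℝ))).mul (h.continuous_D_left x)).div_const (s ^ 2) |>.mul
      (h.continuous_gw x s))) ?_ (Eventually.of_forall fun y => ?_)
  · refine (Measurable.mul (Measurable.mul (Measurable.div_const (Measurable.div
      ((h.continuous_normalPart hu.1 x).measurable.pow_const 2)
      (h.continuous_conorm_cd hu.1).measurable) _) (h.continuous_gw x s).measurable)
      h.continuous_dens.measurable).aestronglyMeasurable
  · have h0 : 0 ≤ normalPart G D x u y ^ 2 / conorm G y (cd u y) :=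
      div_nonneg (sq_nonneg _) (conorm_nonneg y _)
    rw [Real.norm_eq_abs, abs_of_nonneg (mul_nonneg (mul_nonneg (div_nonneg h0 (sq_nonneg s))
      (gw_pos x s y).le) (h.dens_pos y).le)]
    calc normalPart G D x u y ^ 2 / conorm G y (cd u y) / s ^ 2 * gw D x s y * dens G y
        ≤ conorm G y (cd u y) * (2 * D x y) / s ^ 2 * gw D x s y * dens G y :=
          mul_le_mul_of_nonneg_right (mul_le_mul_of_nonneg_right
            (div_le_div_of_nonneg_right (h.normalSq_div_le x u y) (sq_nonneg s))
            (gw_pos x s y).le) (h.dens_pos y).le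
      _ = _ := by simp only [Pi.mul_apply]; ring

/-- Completing the square in the normal component. -/
theorem IsCH.flux_sub_normal_le (h : IsCH G D) (hK : IsCompact K) (hu : Comp K u)
    (x : Fin n → ℝ) {s : ℝ} (hs : 0 < s) (b : ℝ) :
    b * gFlux G D x s u - gNormal G D x s u ≤ b ^ 2 * s ^ 2 / 4 * gQ G D x s u := by
  have i1 := (h.integrable_flux hK hu x s).const_mul b
  have i2 := h.integrable_normal hK hu x s
  rw [gFlux, gNormal, gQ, ← integral_const_mul, ← integral_const_mul, ← integral_sub i1 i2]
  refine integral_mono (i1.sub i2)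
    ((h.integrable_mul_conorm hK hu (h.continuous_gw x s)).const_mul _) fun y => ?_
  have hw := gw_pos (D := D) x s y
  have hρ := h.dens_pos y
  rcases eq_or_lt_of_le (conorm_nonneg (G := G) y (cd u y)) with hc | hc
  · have := h.abs_normalPart_le x u y
    rw [← hc, zero_mul] at this
    simp [← hc, abs_nonpos_iff.1 this]
  · have key : b * |normalPart G D x u y| - normalPart G D x u y ^ 2 / conorm G y (cd u y) / s ^ 2
        ≤ b ^ 2 * s ^ 2 / 4 * conorm G y (cd u y) := by
      rw [← sq_abs (normalPart G D x u y)]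
      generalize |normalPart G D x u y| = a
      generalize conorm G y (cd u y) = c at hc
      have e : b * a - a ^ 2 / c / s ^ 2 =
          b ^ 2 * s ^ 2 / 4 * c - (a - b * s ^ 2 * c / 2) ^ 2 / (c * s ^ 2) := by
        field_simp
        ring
      rw [e]
      exact sub_le_self _ (by positivity)
    calc b * (|normalPart G D x u y| * gw D x s y * dens G y) -
          normalPart G D x u y ^ 2 / conorm G y (cd u y) / s ^ 2 * gw D x s y * dens G y
        = (b * |normalPart G D x u y| - normalPart G D x u y ^ 2 / conorm G y (cd u y) / s ^ 2) *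
            (gw D x s y * dens G y) := by ring
      _ ≤ b ^ 2 * s ^ 2 / 4 * conorm G y (cd u y) * (gw D x s y * dens G y) :=
          mul_le_mul_of_nonneg_right key (by positivity)
      _ = _ := by ring

theorem IsCH.flux_le (h : IsCH G D) (hK : IsCompact K) (hu : Comp K u) (x : Fin n → ℝ) (s : ℝ)
    {B : ℝ} (hB : ∀ y ∈ K, D x y ≤ B) :
    gFlux G D x s u ≤ Real.sqrt (2 * B) * per G u := by
  rw [gFlux, per, ← integral_const_mul]
  refine integral_mono (h.integrable_flux hK hu x s)
    (h.integrable_mul_conorm hK hu continuous_const) fun y => ?_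
  by_cases hy : y ∈ K
  · calc |normalPart G D x u y| * gw D x s y * dens G y
        ≤ conorm G y (cd u y) * Real.sqrt (2 * B) * 1 * dens G y := by
          refine mul_le_mul_of_nonneg_right (mul_le_mul ((h.abs_normalPart_le x u y).trans
            (mul_le_mul_of_nonneg_left (Real.sqrt_le_sqrt (by linarith [hB y hy]))
              (conorm_nonneg y _))) (h.gw_le_one x s y) (gw_pos x s y).le
            (mul_nonneg (conorm_nonneg y _) (Real.sqrt_nonneg _))) (h.dens_pos y).le
      _ = _ := by ring
  · have hc := cd_eq_zero_of_notMem (u := u) fun hs => hy (hu.2.1 hs)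
    simp [normalPart_eq_zero x hc, hc, conorm_zero]

end Vale.Agent.P219.CH
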