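import Vale.Agent.P219.CH.Defs

/-!
# The flat metric is a Cartan-Hadamard metric
-/

noncomputable section

open MeasureTheory Set Filter Topology Matrix

namespace Vale.Agent.P219.CH

variable {n : ℕ}

/-- The flat metric. -/
def flatG (n : ℕ) : (Fin n → ℝ) → Matrix (Fin n) (Fin n) ℝ := fun _ => 1

/-- Half the squared Euclidean distance. -/
def flatD (n : ℕ) : (Fin n → ℝ) → (Fin n → ℝ) → ℝ := fun x y => (1 / 2) * ∑ i, (y i - x i) ^ 2

lemma hasFDerivAt_flatD (x y : Fin n → ℝ) :
    HasFDerivAt (flatD n x)
      (∑ i, (y i - x i) • ContinuousLinearMap.proj (R := ℝ) (φ := fun _ : Fin n => ℝ) i) y := by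
  have h : ∀ i : Fin n, HasFDerivAt (fun z : Fin n → ℝ => (z i - x i) ^ 2)
      ((2 * (y i - x i)) • ContinuousLinearMap.proj (R := ℝ) (φ := fun _ : Fin n => ℝ) i) y := by
    intro i
    have h1 := ((ContinuousLinearMap.proj (R := ℝ) (φ := fun _ : Fin n => ℝ) i).hasFDerivAt
      (x := y)).sub_const (x i)
    simpa [two_mul, add_smul] using h1.pow 2
  refine ((HasFDerivAt.fun_sum fun i _ => h i).const_mul (1 / 2 : ℝ)).congr_fderiv ?_
  rw [Finset.smul_sum]
  refine Finset.sum_congr rfl fun i _ => ?_
  rw [smul_smul]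
  congr 1
  ring

lemma cd_flatD (x y : Fin n → ℝ) : cd (flatD n x) y = fun i => y i - x i := by
  funext i
  rw [cd, (hasFDerivAt_flatD x y).fderiv]
  simp [Pi.single_apply]

/-- The flat metric with half the squared distance satisfies the conditions. -/
theorem isCH_flat (n : ℕ) : IsCH (flatG n) (flatD n) where
  smooth_metric i j := by simpa [flatG] using contDiff_const
  posDef y := Matrix.PosDef.one
  smooth_dist := by
    unfold flatD
    fun_prop
  dist_self x := by simp [flatD]
  eikonal x y := by
    simp [pairing, flatG, cd_flatD, flatD, dotProduct, sq]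
  hessian x y v := by
    have hd : fderiv ℝ (flatD n x) = fun z =>
        ∑ i, (z i - x i) • ContinuousLinearMap.proj (R := ℝ) (φ := fun _ : Fin n => ℝ) i :=
      funext fun z => (hasFDerivAt_flatD x z).fderiv
    have h2 : HasFDerivAt (fun z : Fin n → ℝ =>
        ∑ i, (z i - x i) • ContinuousLinearMap.proj (R := ℝ) (φ := fun _ : Fin n => ℝ) i)
        (∑ i, (ContinuousLinearMap.proj (R := ℝ) (φ := fun _ : Fin n => ℝ) i).smulRight
          (ContinuousLinearMap.proj (R := ℝ) (φ := fun _ : Fin n => ℝ) i)) y :=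
      HasFDerivAt.fun_sum fun i _ => (((ContinuousLinearMap.proj (R := ℝ)
        (φ := fun _ : Fin n => ℝ) i).hasFDerivAt (x := y)).sub_const (x i)).smul_const
          (ContinuousLinearMap.proj (R := ℝ) (φ := fun _ : Fin n => ℝ) i)
    have hG : ∀ w, dG (flatG n) y w = 0 := fun w => by
      ext i j; simp [dG, flatG]
    rw [hess, hd, h2.fderiv, hG, hG]
    simp [flatG, dotProduct]
  cosine o x y := by
    refine le_of_eq ?_
    simp only [pairing, flatG, cd_flatD, flatD, inv_one, Matrix.one_mulVec, dotProduct,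
      Finset.mul_sum, ← Finset.sum_sub_distrib, ← Finset.sum_add_distrib]
    exact Finset.sum_congr rfl fun i _ => by ring
  proper o R := by
    refine Metric.isCompact_of_isClosed_isBounded
      (isClosed_le (by unfold flatD; fun_prop) continuous_const) ?_
    refine (Metric.isBounded_closedBall (x := o) (r := Real.sqrt (2 * max R 0))).subset ?_
    intro y hy
    rw [Metric.mem_closedBall, dist_pi_le_iff (Real.sqrt_nonneg _)]
    intro i
    rw [Real.dist_eq]
    refine Real.abs_le_sqrt ?_
    have h1 := Finset.single_le_sum (f := fun j => (y j - o j) ^ 2) (fun j _ => sq_nonneg _)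
      (Finset.mem_univ i)
    have h2 : (1 / 2 : ℝ) * ∑ j, (y j - o j) ^ 2 ≤ R := hy
    have h3 := le_max_left R 0
    linarith

end Vale.Agent.P219.CH
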