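import Vale.Agent.P219.CH.Defs

/-!
# Pointwise facts about the metric, covectors and competitors
-/

noncomputable section

open MeasureTheory Set Filter Topology Matrix

namespace Vale.Agent.P219.CH

variable {n : ℕ} {G : (Fin n → ℝ) → Matrix (Fin n) (Fin n) ℝ}
  {D : (Fin n → ℝ) → (Fin n → ℝ) → ℝ}

lemma IsCH.det_pos (h : IsCH G D) (y : Fin n → ℝ) : 0 < (G y).det := (h.posDef y).det_pos

lemma IsCH.dens_pos (h : IsCH G D) (y : Fin n → ℝ) : 0 < dens G y := Real.sqrt_pos.2 (h.det_pos y)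

lemma contDiff_det_of_entries {k : WithTop ℕ∞} {X : Type*} [NormedAddCommGroup X] [NormedSpace ℝ X]
    {m : ℕ} {M : X → Matrix (Fin m) (Fin m) ℝ} (hM : ∀ i j, ContDiff ℝ k fun y => M y i j) :
    ContDiff ℝ k fun y => (M y).det := by
  simp only [Matrix.det_apply]
  exact ContDiff.sum fun σ _ => (contDiff_prod fun i _ => hM _ _).const_smul _

lemma IsCH.contDiff_det (h : IsCH G D) : ContDiff ℝ 1 fun y => (G y).det :=
  contDiff_det_of_entries h.smooth_metric

lemma IsCH.contDiff_dens (h : IsCH G D) : ContDiff ℝ 1 (dens G) :=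
  h.contDiff_det.sqrt fun y => (h.det_pos y).ne'

lemma IsCH.continuous_dens (h : IsCH G D) : Continuous (dens G) := h.contDiff_dens.continuous

lemma IsCH.contDiff_inv (h : IsCH G D) (i j : Fin n) :
    ContDiff ℝ 1 fun y => (G y)⁻¹ i j := by
  have ha : ContDiff ℝ 1 fun y => (G y).adjugate i j := by
    simp only [Matrix.adjugate_apply]
    refine contDiff_det_of_entries fun a b => ?_
    simp only [Matrix.updateRow_apply]
    split_ifs
    · exact contDiff_const
    · exact h.smooth_metric a b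
  have : (fun y => (G y)⁻¹ i j) = fun y => ((G y).det)⁻¹ * (G y).adjugate i j := by
    funext y
    rw [Matrix.inv_def, Matrix.smul_apply, Ring.inverse_eq_inv', smul_eq_mul]
  rw [this]
  exact (h.contDiff_det.inv fun y => (h.det_pos y).ne').mul ha

lemma IsCH.posDef_inv (h : IsCH G D) (y : Fin n → ℝ) : ((G y)⁻¹).PosDef := (h.posDef y).inv

lemma pairing_eq_sum (y ξ η : Fin n → ℝ) :
    pairing G y ξ η = ∑ i, ∑ j, ξ i * ((G y)⁻¹ i j * η j) := by
  simp only [pairing, dotProduct, mulVec, Finset.mul_sum]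

lemma IsCH.pairing_comm (h : IsCH G D) (y ξ η : Fin n → ℝ) :
    pairing G y ξ η = pairing G y η ξ := by
  simp only [pairing_eq_sum]
  rw [Finset.sum_comm]
  refine Finset.sum_congr rfl fun i _ => Finset.sum_congr rfl fun j _ => ?_
  have hs : (G y)⁻¹ j i = (G y)⁻¹ i j := by
    have := (h.posDef_inv y).isHermitian.apply i j
    simpa using this
  rw [hs]; ring

lemma pairing_add_left (y ξ ξ' η : Fin n → ℝ) :
    pairing G y (ξ + ξ') η = pairing G y ξ η + pairing G y ξ' η := add_dotProduct _ _ _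

lemma pairing_smul_left (c : ℝ) (y ξ η : Fin n → ℝ) :
    pairing G y (c • ξ) η = c * pairing G y ξ η := smul_dotProduct _ _ _

lemma IsCH.pairing_self_pos (h : IsCH G D) (y : Fin n → ℝ) {ξ : Fin n → ℝ} (hξ : ξ ≠ 0) :
    0 < pairing G y ξ ξ := by
  simpa [pairing] using (h.posDef_inv y).dotProduct_mulVec_pos hξ

lemma IsCH.pairing_self_nonneg (h : IsCH G D) (y ξ : Fin n → ℝ) : 0 ≤ pairing G y ξ ξ := by
  simpa [pairing] using (h.posDef_inv y).posSemidef.dotProduct_mulVec_nonneg ξ

lemma conorm_nonneg (y ξ : Fin n → ℝ) : 0 ≤ conorm G y ξ := Real.sqrt_nonneg _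

lemma IsCH.conorm_sq (h : IsCH G D) (y ξ : Fin n → ℝ) :
    conorm G y ξ ^ 2 = pairing G y ξ ξ := Real.sq_sqrt (h.pairing_self_nonneg y ξ)

lemma IsCH.conorm_smul (h : IsCH G D) (c : ℝ) (y ξ : Fin n → ℝ) :
    conorm G y (c • ξ) = |c| * conorm G y ξ := by
  rw [conorm, pairing_smul_left, h.pairing_comm, pairing_smul_left, ← mul_assoc, ← sq,
    Real.sqrt_mul (sq_nonneg c), Real.sqrt_sq_eq_abs, conorm]

lemma IsCH.conorm_pos (h : IsCH G D) (y : Fin n → ℝ) {ξ : Fin n → ℝ} (hξ : ξ ≠ 0) :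
    0 < conorm G y ξ := Real.sqrt_pos.2 (h.pairing_self_pos y hξ)

lemma IsCH.abs_pairing_le (h : IsCH G D) (y ξ η : Fin n → ℝ) :
    |pairing G y ξ η| ≤ conorm G y ξ * conorm G y η := by
  have key : ∀ t : ℝ, 0 ≤ pairing G y η η * (t * t) + 2 * pairing G y ξ η * t + pairing G y ξ ξ := by
    intro t
    have h1 := h.pairing_self_nonneg y (ξ + t • η)
    simp only [pairing_add_left, pairing_smul_left] at h1
    rw [h.pairing_comm y ξ (ξ + t • η), h.pairing_comm y η (ξ + t • η)] at h1
    simp only [pairing_add_left, pairing_smul_left] at h1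
    rw [h.pairing_comm y η ξ] at h1
    linarith
  have hd := discrim_le_zero key
  rw [discrim] at hd
  rw [conorm, conorm, ← Real.sqrt_mul (h.pairing_self_nonneg y ξ)]
  refine Real.abs_le_sqrt ?_
  nlinarith

lemma cd_dotProduct (f : (Fin n → ℝ) → ℝ) (y v : Fin n → ℝ) :
    cd f y ⬝ᵥ v = fderiv ℝ f y v := by
  conv_rhs => rw [show v = ∑ i, v i • (Pi.single i (1 : ℝ) : Fin n → ℝ) by
    funext j; simp [Finset.sum_apply, Pi.single_apply]]
  simp [cd, dotProduct, map_sum, map_smul, mul_comm]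

lemma pairing_cd (f : (Fin n → ℝ) → ℝ) (y : Fin n → ℝ) (g : (Fin n → ℝ) → ℝ) :
    pairing G y (cd f y) (cd g y) = fderiv ℝ f y (grad G g y) := by
  rw [← cd_dotProduct]; rfl

lemma IsCH.dist_nonneg (h : IsCH G D) (x y : Fin n → ℝ) : 0 ≤ D x y := by
  have := h.eikonal x y
  linarith [h.pairing_self_nonneg y (cd (D x) y)]

lemma IsCH.abs_normalPart_le (h : IsCH G D) (x : Fin n → ℝ) (u : (Fin n → ℝ) → ℝ)
    (y : Fin n → ℝ) :
    |normalPart G D x u y| ≤ conorm G y (cd u y) * Real.sqrt (2 * D x y) := by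
  refine (h.abs_pairing_le y _ _).trans (le_of_eq ?_)
  rw [conorm, conorm, h.eikonal]

lemma IsCH.contDiff_D (h : IsCH G D) (x : Fin n → ℝ) : ContDiff ℝ 2 (D x) :=
  h.smooth_dist.comp (contDiff_const.prodMk contDiff_id)

lemma IsCH.continuous_D (h : IsCH G D) :
    Continuous fun p : (Fin n → ℝ) × (Fin n → ℝ) => D p.1 p.2 := h.smooth_dist.continuous

lemma continuous_cd {f : (Fin n → ℝ) → ℝ} (hf : ContDiff ℝ 1 f) : Continuous (cd f) :=
  continuous_pi fun _ => (hf.continuous_fderiv one_ne_zero).clm_apply continuous_const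

lemma IsCH.continuous_pairing (h : IsCH G D) :
    Continuous fun p : (Fin n → ℝ) × (Fin n → ℝ) × (Fin n → ℝ) =>
      pairing G p.1 p.2.1 p.2.2 := by
  simp only [pairing_eq_sum]
  exact continuous_finsetSum _ fun i _ => continuous_finsetSum _ fun j _ =>
    ((continuous_apply i).comp (continuous_fst.comp continuous_snd)).mul
      (((h.contDiff_inv i j).continuous.comp continuous_fst).mul
        ((continuous_apply j).comp (continuous_snd.comp continuous_snd)))

lemma IsCH.continuous_conorm (h : IsCH G D) :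
    Continuous fun p : (Fin n → ℝ) × (Fin n → ℝ) => conorm G p.1 p.2 :=
  (h.continuous_pairing.comp (continuous_fst.prodMk (continuous_snd.prodMk continuous_snd))).sqrt

lemma IsCH.continuous_conorm_cd (h : IsCH G D) {u : (Fin n → ℝ) → ℝ} (hu : ContDiff ℝ 1 u) :
    Continuous fun y => conorm G y (cd u y) :=
  h.continuous_conorm.comp (continuous_id.prodMk (continuous_cd hu))

lemma cd_eq_zero_of_notMem {u : (Fin n → ℝ) → ℝ} {y : Fin n → ℝ} (hy : y ∉ tsupport u) :
    cd u y = 0 := by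
  funext i
  simp [cd, fderiv_of_notMem_tsupport ℝ hy]

lemma conorm_zero (y : Fin n → ℝ) : conorm G y 0 = 0 := by simp [conorm, pairing]

/-- A continuous function against `|du| dvol` is integrable. -/
lemma IsCH.integrable_mul_conorm (h : IsCH G D) {K : Set (Fin n → ℝ)} (hK : IsCompact K)
    {u : (Fin n → ℝ) → ℝ} (hu : Comp K u) {f : (Fin n → ℝ) → ℝ} (hf : Continuous f) :
    Integrable fun y => f y * (conorm G y (cd u y) * dens G y) := by
  refine Continuous.integrable_of_hasCompactSupport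
    (hf.mul ((h.continuous_conorm_cd hu.1).mul h.continuous_dens)) ?_
  refine HasCompactSupport.intro hK fun y hy => ?_
  rw [cd_eq_zero_of_notMem fun hs => hy (hu.2.1 hs), conorm_zero, zero_mul, mul_zero]

lemma IsCH.per_nonneg (h : IsCH G D) (u : (Fin n → ℝ) → ℝ) : 0 ≤ per G u :=
  integral_nonneg fun y => mul_nonneg (conorm_nonneg y _) (h.dens_pos y).le

lemma IsCH.gap_nonneg (h : IsCH G D) {u : (Fin n → ℝ) → ℝ} (hu : ∀ y, u y ∈ Icc (0 : ℝ) 1) :
    0 ≤ gap G u :=
  integral_nonneg fun y =>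
    mul_nonneg (mul_nonneg (hu y).1 (sub_nonneg.2 (hu y).2)) (h.dens_pos y).le

lemma Comp.integrable {K : Set (Fin n → ℝ)} (hK : IsCompact K) {u : (Fin n → ℝ) → ℝ}
    (hu : Comp K u) {f : (Fin n → ℝ) → ℝ} (hf : Continuous f) :
    Integrable fun y => u y * f y := by
  refine Continuous.integrable_of_hasCompactSupport (hu.1.continuous.mul hf) ?_
  refine HasCompactSupport.intro hK fun y hy => ?_
  rw [image_eq_zero_of_notMem_tsupport fun hs => hy (hu.2.1 hs), zero_mul]

lemma IsCH.vol_le (h : IsCH G D) {K : Set (Fin n → ℝ)} (hK : IsCompact K)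
    {u : (Fin n → ℝ) → ℝ} (hu : Comp K u) : vol G u ≤ volG G K := by
  rw [vol, volG, ← integral_indicator hK.measurableSet]
  refine integral_mono (hu.integrable hK h.continuous_dens)
    ((h.continuous_dens.continuousOn.integrableOn_compact hK).integrable_indicator hK.measurableSet)
    fun y => ?_
  by_cases hy : y ∈ K
  · rw [Set.indicator_of_mem hy]
    exact mul_le_of_le_one_left (h.dens_pos y).le (hu.2.2 y).2
  · rw [Set.indicator_of_notMem hy, image_eq_zero_of_notMem_tsupport fun hs => hy (hu.2.1 hs),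
      zero_mul]

end Vale.Agent.P219.CH
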