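import Vale.Agent.P219.CH.Defs
import Vale.Agent.P219.Gauss.Rotation

/-!
# P219, Gaussian start: frozen frames, the Gaussian average, compactness and translations
-/

noncomputable section

open MeasureTheory ProbabilityTheory Set Filter Topology Matrix
open scoped ENNReal NNReal Real RealInnerProductSpace MatrixOrder

namespace Vale.Agent.P219.CH

variable {n : ℕ} {G : (Fin n → ℝ) → Matrix (Fin n) (Fin n) ℝ}
  {D : (Fin n → ℝ) → (Fin n → ℝ) → ℝ}

/-- The quadratic form of the metric at `x`. -/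
def qf (G : (Fin n → ℝ) → Matrix (Fin n) (Fin n) ℝ) (x h : Fin n → ℝ) : ℝ := h ⬝ᵥ (G x *ᵥ h)

/-- The Gaussian density of scale `s` of the metric frozen at `x`. -/
def ker (G : (Fin n → ℝ) → Matrix (Fin n) (Fin n) ℝ) (s : ℝ) (x y : Fin n → ℝ) : ℝ :=
  dens G x / (√(2 * π) * s) ^ n * Real.exp (-(qf G x (y - x) / (2 * s ^ 2)))

/-- The frozen Gaussian average. -/
def avg (G : (Fin n → ℝ) → Matrix (Fin n) (Fin n) ℝ) (s : ℝ) (f : (Fin n → ℝ) → ℝ)
    (x : Fin n → ℝ) : ℝ :=
  ∫ y, f y * ker G s x y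

theorem continuous_G (h : IsCH G D) : Continuous G :=
  continuous_matrix fun i j => (h.smooth_metric i j).continuous

theorem continuous_G_inv (h : IsCH G D) : Continuous fun y => (G y)⁻¹ := by
  have hG := continuous_G h
  refine continuous_iff_continuousAt.2 fun y => ?_
  exact (continuousAt_matrix_inv _ (NormedRing.inverse_continuousAt
    (Units.mk0 _ (h.posDef y).det_pos.ne'))).comp hG.continuousAt

theorem continuous_dens (h : IsCH G D) : Continuous (dens G) :=
  Real.continuous_sqrt.comp (continuous_G h).matrix_det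

theorem dens_pos (h : IsCH G D) (y : Fin n → ℝ) : 0 < dens G y :=
  Real.sqrt_pos.2 (h.posDef y).det_pos

theorem continuous_cd {u : (Fin n → ℝ) → ℝ} (hu : ContDiff ℝ 1 u) : Continuous (cd u) :=
  continuous_pi fun i => (hu.continuous_fderiv one_ne_zero).clm_apply continuous_const

theorem cd_dot (f : (Fin n → ℝ) → ℝ) (y v : Fin n → ℝ) : fderiv ℝ f y v = cd f y ⬝ᵥ v := by
  conv_lhs => rw [← Finset.univ_sum_single v]
  rw [map_sum, dotProduct]
  refine Finset.sum_congr rfl fun i _ => ?_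
  rw [show (Pi.single i (v i) : Fin n → ℝ) = v i • Pi.single i 1 by simp [← Pi.single_smul],
    map_smul, smul_eq_mul, mul_comm]
  rfl

theorem continuous_pairing (h : IsCH G D) :
    Continuous fun p : (Fin n → ℝ) × (Fin n → ℝ) => pairing G p.1 p.2 p.2 :=
  continuous_snd.dotProduct (((continuous_G_inv h).comp continuous_fst).matrix_mulVec continuous_snd)

theorem continuous_conorm (h : IsCH G D) :
    Continuous fun p : (Fin n → ℝ) × (Fin n → ℝ) => conorm G p.1 p.2 :=
  Real.continuous_sqrt.comp (continuous_pairing h)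

theorem pairing_pos (h : IsCH G D) (y : Fin n → ℝ) {ξ : Fin n → ℝ} (hξ : ξ ≠ 0) :
    0 < pairing G y ξ ξ := by
  simpa [pairing] using (h.posDef y).inv.dotProduct_mulVec_pos hξ

theorem pairing_nonneg (h : IsCH G D) (y ξ : Fin n → ℝ) : 0 ≤ pairing G y ξ ξ := by
  by_cases hξ : ξ = 0
  · simp [pairing, hξ]
  · exact (pairing_pos h y hξ).le

theorem conorm_smul (h : IsCH G D) (y ξ : Fin n → ℝ) (a : ℝ) :
    conorm G y (a • ξ) = |a| * conorm G y ξ := by
  have e : pairing G y (a • ξ) (a • ξ) = a ^ 2 * pairing G y ξ ξ := by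
    simp only [pairing, mulVec_smul, smul_dotProduct, dotProduct_smul, smul_eq_mul]
    ring
  have := pairing_nonneg h y ξ
  rw [conorm, e, Real.sqrt_mul (sq_nonneg a), Real.sqrt_sq_eq_abs, conorm]

theorem D_nonneg (h : IsCH G D) (x y : Fin n → ℝ) : 0 ≤ D x y := by
  linarith [h.eikonal x y, pairing_nonneg h y (cd (D x) y)]

theorem qf_pos (h : IsCH G D) (x : Fin n → ℝ) {v : Fin n → ℝ} (hv : v ≠ 0) : 0 < qf G x v := by
  simpa [qf] using (h.posDef x).dotProduct_mulVec_pos hv

theorem qf_smul (x v : Fin n → ℝ) (a : ℝ) : qf G x (a • v) = a ^ 2 * qf G x v := by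
  simp only [qf, mulVec_smul, smul_dotProduct, dotProduct_smul, smul_eq_mul]
  ring

theorem qf_nonneg (h : IsCH G D) (x v : Fin n → ℝ) : 0 ≤ qf G x v := by
  by_cases hv : v = 0
  · simp [qf, hv]
  · exact (qf_pos h x hv).le

theorem continuous_qf (h : IsCH G D) :
    Continuous fun p : (Fin n → ℝ) × (Fin n → ℝ) => qf G p.1 p.2 :=
  continuous_snd.dotProduct (((continuous_G h).comp continuous_fst).matrix_mulVec continuous_snd)

theorem continuous_ker (h : IsCH G D) (s : ℝ) :
    Continuous fun p : (Fin n → ℝ) × (Fin n → ℝ) => ker G s p.1 p.2 :=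
  (((continuous_dens h).comp continuous_fst).div_const _).mul (Real.continuous_exp.comp
    (((continuous_qf h).comp (continuous_fst.prodMk (continuous_snd.sub continuous_fst))).div_const
      _).neg)

theorem ker_nonneg (h : IsCH G D) {s : ℝ} (hs : 0 < s) (x y : Fin n → ℝ) : 0 ≤ ker G s x y :=
  mul_nonneg (div_nonneg (dens_pos h x).le (by positivity)) (Real.exp_pos _).le

/-! ## Frames -/

theorem exists_frame (h : IsCH G D) (x : Fin n → ℝ) :
    ∃ A : Matrix (Fin n) (Fin n) ℝ, A.transpose = A ∧ A * G x * A = 1 ∧ A * A = (G x)⁻¹ ∧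
      |A.det| = (dens G x)⁻¹ := by
  set M := G x
  have hM := h.posDef x
  set B := CFC.sqrt M
  have hBB : B * B = M := CFC.sqrt_mul_sqrt_self M hM.posSemidef.nonneg
  have hBt : B.transpose = B := by
    have := (CFC.sqrt_nonneg M).posSemidef.isHermitian.eq
    rwa [conjTranspose_eq_transpose_of_trivial] at this
  have hdet : B.det * B.det = M.det := by rw [← det_mul, hBB]
  have hB : IsUnit B.det := isUnit_iff_ne_zero.2 fun h0 => hM.det_pos.ne' (by rw [← hdet, h0, zero_mul])
  refine ⟨B⁻¹, ?_, ?_, ?_, ?_⟩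
  · rw [transpose_nonsing_inv, hBt]
  · rw [← hBB, ← Matrix.mul_assoc, nonsing_inv_mul B hB, Matrix.one_mul, mul_nonsing_inv B hB]
  · rw [← hBB, Matrix.mul_inv_rev]
  · rw [det_nonsing_inv, Ring.inverse_eq_inv', abs_inv, dens, show G x = M from rfl, ← hdet,
      Real.sqrt_mul_self_eq_abs]

/-- The affine map from the standard space to the frame at `x`. -/
def toFrame (A : Matrix (Fin n) (Fin n) ℝ) (s : ℝ) (x : Fin n → ℝ)
    (z : EuclideanSpace ℝ (Fin n)) : Fin n → ℝ :=
  x + s • (A *ᵥ WithLp.ofLp z)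

theorem integral_toFrame (h : IsCH G D) {s : ℝ} (hs : 0 < s) {x : Fin n → ℝ}
    {A : Matrix (Fin n) (Fin n) ℝ} (hAt : A.transpose = A) (hA : A * G x * A = 1)
    (hdet : |A.det| = (dens G x)⁻¹) (f : (Fin n → ℝ) → ℝ) :
    ∫ z, f (toFrame A s x z) ∂stdGaussian (EuclideanSpace ℝ (Fin n)) = avg G s f x := by
  rw [Gauss.stdGaussian_eq_withDensity, integral_withDensity_eq_integral_toReal_smul (by fun_prop)
    (Eventually.of_forall fun _ => ENNReal.ofReal_lt_top)]
  set F : (Fin n → ℝ) → ℝ := fun y => f y * (Real.exp (-(qf G x (y - x) / (2 * s ^ 2)))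
    / √(2 * π) ^ n)
  have hM : (s • A).det ≠ 0 := by
    rw [det_smul]
    refine mul_ne_zero (pow_ne_zero _ hs.ne') fun h0 => ?_
    rw [h0, abs_zero] at hdet
    exact (inv_pos.2 (dens_pos h x)).ne hdet
  have e1 : ∀ z : EuclideanSpace ℝ (Fin n),
      (ENNReal.ofReal (Real.exp (-(1 / 2) * ‖z‖ ^ 2)
        / √(2 * π) ^ Module.finrank ℝ (EuclideanSpace ℝ (Fin n)))).toReal • f (toFrame A s x z)
      = (fun w => F (x + (s • A) *ᵥ w)) (WithLp.ofLp z) := fun z => by
    rw [ENNReal.toReal_ofReal (by positivity), finrank_euclideanSpace_fin, smul_eq_mul]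
    simp only [F, toFrame, smul_mulVec, add_sub_cancel_left, qf_smul]
    have hn : ‖z‖ ^ 2 = qf G x (A *ᵥ WithLp.ofLp z) := by
      rw [qf, mulVec_mulVec, dotProduct_mulVec, ← vecMul_transpose, hAt, vecMul_vecMul,
        ← Matrix.mul_assoc, hA, vecMul_one, EuclideanSpace.real_norm_sq_eq]
      simp [dotProduct, sq]
    rw [← hn, mul_comm]
    congr 3
    field_simp
  rw [integral_congr_ae (Eventually.of_forall e1),
    (PiLp.volume_preserving_ofLp (Fin n)).integral_comp
      (MeasurableEquiv.toLp 2 (Fin n → ℝ)).symm.measurableEmbedding (fun w => F (x + (s • A) *ᵥ w))]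
  have e2 : ∫ w, F (x + (s • A) *ᵥ w) = |((s • A).det)⁻¹| * ∫ y, F y := by
    have hmap := Real.map_matrix_volume_pi_eq_smul_volume_pi hM
    have hemb : MeasurableEmbedding (toLin' (s • A)) := by
      let e : (Fin n → ℝ) ≃ₗ[ℝ] (Fin n → ℝ) := Matrix.toLinearEquiv' (s • A)
        ((s • A).invertibleOfIsUnitDet (isUnit_iff_ne_zero.2 hM))
      exact e.toContinuousLinearEquiv.toHomeomorph.measurableEmbedding
    calc ∫ w, F (x + (s • A) *ᵥ w) = ∫ w, F (x + toLin' (s • A) w) := by
          simp only [toLin'_apply]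
      _ = ∫ y, F (x + y) ∂Measure.map (toLin' (s • A)) volume := (hemb.integral_map fun y => F (x + y)).symm
      _ = |((s • A).det)⁻¹| * ∫ y, F (x + y) := by
          rw [hmap, integral_smul_measure, ENNReal.toReal_ofReal (abs_nonneg _), smul_eq_mul]
      _ = _ := by rw [integral_add_left_eq_self F x]
  rw [e2, avg, ← integral_const_mul]
  refine integral_congr_ae (Eventually.of_forall fun y => ?_)
  simp only [F, ker]
  rw [det_smul, abs_inv, abs_mul, hdet, abs_of_pos (pow_pos hs _), Fintype.card_fin]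
  have := dens_pos h x
  field_simp
  ring

theorem norm_fderiv_toFrame (h : IsCH G D) {s : ℝ} (hs : 0 < s) {x : Fin n → ℝ}
    {A : Matrix (Fin n) (Fin n) ℝ} (hAt : A.transpose = A) (hAA : A * A = (G x)⁻¹)
    {u : (Fin n → ℝ) → ℝ} (hu : ContDiff ℝ 1 u) (z : EuclideanSpace ℝ (Fin n)) :
    ‖fderiv ℝ (fun z => u (toFrame A s x z)) z‖ = s * conorm G x (cd u (toFrame A s x z)) := by
  set y := toFrame A s x z
  let L : EuclideanSpace ℝ (Fin n) →L[ℝ] (Fin n → ℝ) := LinearMap.toContinuousLinearMap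
    ((s • (toLin' A)).comp (WithLp.linearEquiv 2 ℝ (Fin n → ℝ)).toLinearMap)
  have hL : ∀ w, L w = s • (A *ᵥ WithLp.ofLp w) := fun w => by simp [L]
  have e : (fun z => u (toFrame A s x z)) = u ∘ fun z => x + L z := by
    funext z; simp [toFrame, hL]
  set a : EuclideanSpace ℝ (Fin n) := WithLp.toLp 2 (s • (cd u y ᵥ* A))
  have hd : fderiv ℝ (fun z => u (toFrame A s x z)) z = InnerProductSpace.toDual ℝ _ a := by
    rw [e, ((hu.differentiable one_ne_zero (x + L z)).hasFDerivAt.comp z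
      (L.hasFDerivAt.const_add x)).fderiv]
    ext w
    have hy : x + L z = y := by rw [hL]; rfl
    rw [ContinuousLinearMap.comp_apply, hy, cd_dot, hL, InnerProductSpace.toDual_apply_apply,
      EuclideanSpace.inner_eq_star_dotProduct, star_trivial, dotProduct_smul, smul_eq_mul,
      dotProduct_mulVec]
    simp [a, dotProduct_comm, smul_dotProduct]
  rw [hd, LinearIsometryEquiv.norm_map, EuclideanSpace.norm_eq]
  have e2 : ∑ i, ‖a i‖ ^ 2 = s ^ 2 * pairing G x (cd u y) (cd u y) := by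
    rw [pairing, ← hAA, ← mulVec_mulVec, dotProduct_mulVec, dotProduct, Finset.mul_sum]
    refine Finset.sum_congr rfl fun i _ => ?_
    have : (A *ᵥ cd u y) i = (cd u y ᵥ* A) i := by
      conv_lhs => rw [← hAt, mulVec_transpose]
    rw [this]
    simp only [a, Pi.smul_apply, smul_eq_mul, Real.norm_eq_abs, sq_abs]
    ring
  rw [e2, Real.sqrt_mul (sq_nonneg s), Real.sqrt_sq hs.le, conorm]

/-! ## Compactness -/

/-- On a compact set of base points, two positive homogeneous functions are comparable. -/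
theorem exists_comparison {Y : Type*} [TopologicalSpace Y] {K : Set Y} (hK : IsCompact K)
    {f g : Y × (Fin n → ℝ) → ℝ} (hf : Continuous f) (hg : Continuous g)
    (hfs : ∀ y v (a : ℝ), 0 ≤ a → f (y, a • v) = a * f (y, v))
    (hgs : ∀ y v (a : ℝ), 0 ≤ a → g (y, a • v) = a * g (y, v))
    (hgp : ∀ y ∈ K, ∀ v, v ≠ 0 → 0 < g (y, v)) :
    ∃ C : ℝ, 0 < C ∧ ∀ y ∈ K, ∀ v, f (y, v) ≤ C * g (y, v) := by
  set S := K ×ˢ Metric.sphere (0 : Fin n → ℝ) 1
  have hS : IsCompact S := hK.prod (isCompact_sphere _ _)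
  have hpos : ∀ p ∈ S, 0 < g p := fun p hp => hgp p.1 hp.1 p.2 fun h0 => by
    have := hp.2
    simp [h0] at this
  obtain ⟨C, hC⟩ := hS.exists_bound_of_continuousOn
    (hf.continuousOn.div hg.continuousOn fun p hp => (hpos p hp).ne')
  refine ⟨|C| + 1, by positivity, fun y hy v => ?_⟩
  by_cases hv : v = 0
  · have a := hfs y v 0 le_rfl
    have b := hgs y v 0 le_rfl
    rw [zero_smul, zero_mul] at a b
    rw [hv, a, b, mul_zero]
  · have hn : 0 < ‖v‖ := norm_pos_iff.2 hv
    set w := ‖v‖⁻¹ • v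
    have hw : (y, w) ∈ S := ⟨hy, by simp [w, norm_smul, hn.ne']⟩
    have e : v = ‖v‖ • w := by simp [w, smul_smul, hn.ne']
    rw [e, hfs y w _ hn.le, hgs y w _ hn.le, ← mul_assoc, mul_comm (|C| + 1), mul_assoc]
    refine mul_le_mul_of_nonneg_left ?_ hn.le
    have h1 := hC _ hw
    rw [Real.norm_eq_abs, abs_le, Pi.div_apply] at h1
    calc f (y, w) = f (y, w) / g (y, w) * g (y, w) := (div_mul_cancel₀ _ (hpos _ hw).ne').symm
      _ ≤ (|C| + 1) * g (y, w) :=
        mul_le_mul_of_nonneg_right (h1.2.trans (by linarith [le_abs_self C])) (hpos _ hw).le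

/-- Near the diagonal a positive homogeneous function of the base point hardly varies. -/
theorem exists_modulus {K : Set (Fin n → ℝ)} (hK : IsCompact K)
    {f : (Fin n → ℝ) × (Fin n → ℝ) → ℝ} (hf : Continuous f) {c : ℝ}
    (hfs : ∀ y v (a : ℝ), 0 ≤ a → f (y, a • v) = a ^ c * f (y, v)) (hc : 0 < c)
    (hfp : ∀ y v, v ≠ 0 → 0 < f (y, v)) {δ : ℝ} (hδ : 0 < δ) :
    ∃ ρ : ℝ, 0 < ρ ∧ ρ ≤ 1 ∧
      ∀ x ∈ K, ∀ y, ‖y - x‖ ≤ ρ → ∀ v, f (x, v) ≤ (1 + δ) * f (y, v) ∧ f (y, v) ≤ (1 + δ) * f (x, v) := by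
  obtain ⟨B, hB⟩ := hK.isBounded.subset_closedBall (0 : Fin n → ℝ)
  set S := Metric.closedBall (0 : Fin n → ℝ) (B + 1) ×ˢ Metric.sphere (0 : Fin n → ℝ) 1
  have hS : IsCompact S := (isCompact_closedBall _ _).prod (isCompact_sphere _ _)
  have hpos : ∀ p ∈ S, 0 < f p := fun p hp => hfp p.1 p.2 fun h0 => by
    have := hp.2
    simp [h0] at this
  obtain ⟨m, hm, hmle⟩ := hS.exists_forall_le' hf.continuousOn hpos
  obtain ⟨ρ, hρ, hρu⟩ := Metric.uniformContinuousOn_iff.1
    (hS.uniformContinuousOn_of_continuous hf.continuousOn) (δ * m) (by positivity)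
  refine ⟨min (ρ / 2) 1, by positivity, min_le_right _ _, fun x hx y hy v => ?_⟩
  by_cases hv : v = 0
  · have a : ∀ z, f (z, 0) = 0 := fun z => by
      have := hfs z 0 0 le_rfl
      rwa [zero_smul, Real.zero_rpow hc.ne', zero_mul] at this
    simp [hv, a]
  · have hn : 0 < ‖v‖ := norm_pos_iff.2 hv
    set w := ‖v‖⁻¹ • v
    have hw : w ∈ Metric.sphere (0 : Fin n → ℝ) 1 := by simp [w, norm_smul, hn.ne']
    have h1 := hB hx
    rw [mem_closedBall_zero_iff] at h1
    have hy' : ‖y - x‖ ≤ 1 := hy.trans (min_le_right _ _)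
    have h2 := norm_le_norm_add_norm_sub' y x
    have sx : (x, w) ∈ S := ⟨mem_closedBall_zero_iff.2 (by linarith), hw⟩
    have sy : (y, w) ∈ S := ⟨mem_closedBall_zero_iff.2 (by linarith), hw⟩
    have hd : dist (x, w) (y, w) < ρ := by
      rw [Prod.dist_eq]
      simp only [dist_self]
      rw [max_eq_left dist_nonneg, dist_comm, dist_eq_norm]
      have := hy.trans (min_le_left _ _)
      linarith
    have hu := hρu _ sx _ sy hd
    rw [Real.dist_eq] at hu
    obtain ⟨u1, u2⟩ := abs_lt.1 hu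
    have mx := mul_le_mul_of_nonneg_left (hmle _ sx) hδ.le
    have my := mul_le_mul_of_nonneg_left (hmle _ sy) hδ.le
    have e : v = ‖v‖ • w := by simp [w, smul_smul, hn.ne']
    have hk : 0 ≤ ‖v‖ ^ c := Real.rpow_nonneg hn.le _
    rw [e, hfs x w _ hn.le, hfs y w _ hn.le]
    constructor <;>
    · rw [mul_left_comm]
      exact mul_le_mul_of_nonneg_left (by linarith) hk

/-! ## Translations -/

/-- The translation estimate in mean. -/
theorem integral_translate_le {u : (Fin n → ℝ) → ℝ} (hu : ContDiff ℝ 1 u)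
    (hc : HasCompactSupport u) (h : Fin n → ℝ) :
    ∫ x, |u (x + h) - u x| ≤ ‖h‖ * ∫ x, ‖fderiv ℝ u x‖ := by
  have hd := hu.continuous_fderiv one_ne_zero
  have hcs : HasCompactSupport fun x => ‖fderiv ℝ u x‖ := (hc.fderiv ℝ).norm
  have hi : Integrable fun x => ‖fderiv ℝ u x‖ := hd.norm.integrable_of_hasCompactSupport hcs
  have hu0 : Integrable u := hu.continuous.integrable_of_hasCompactSupport hc
  have hl : Integrable fun x => |u (x + h) - u x| := ((hu0.comp_add_right h).sub hu0).abs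
  set B := ‖h‖ * ∫ x, ‖fderiv ℝ u x‖
  have key : ∫⁻ x, ENNReal.ofReal |u (x + h) - u x| ≤ ENNReal.ofReal B := by
    calc ∫⁻ x, ENNReal.ofReal |u (x + h) - u x|
        ≤ ∫⁻ x, ∫⁻ τ in Ioc (0 : ℝ) 1, ENNReal.ofReal (‖h‖ * ‖fderiv ℝ u (x + τ • h)‖) := by
          refine lintegral_mono fun x => ?_
          have hder : ∀ τ ∈ uIcc (0 : ℝ) 1,
              HasDerivAt (fun τ : ℝ => u (x + τ • h)) (fderiv ℝ u (x + τ • h) h) τ := fun τ _ =>
            ((hu.differentiable one_ne_zero _).hasFDerivAt).comp_hasDerivAt τ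
              (((hasDerivAt_id τ).smul_const h).const_add x |>.congr_deriv (one_smul ℝ h))
          have hcont : Continuous fun τ : ℝ => fderiv ℝ u (x + τ • h) h :=
            (hd.comp (by fun_prop)).clm_apply continuous_const
          have e : u (x + h) - u x = ∫ τ in Ioc (0 : ℝ) 1, fderiv ℝ u (x + τ • h) h := by
            rw [← intervalIntegral.integral_of_le zero_le_one,
              intervalIntegral.integral_eq_sub_of_hasDerivAt hder (hcont.intervalIntegrable _ _)]
            simp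
          rw [← Real.enorm_eq_ofReal_abs, e]
          refine (enorm_integral_le_lintegral_enorm _).trans (lintegral_mono fun τ => ?_)
          rw [← ofReal_norm, mul_comm]
          exact ENNReal.ofReal_le_ofReal ((fderiv ℝ u (x + τ • h)).le_opNorm h)
      _ = ∫⁻ τ in Ioc (0 : ℝ) 1, ∫⁻ x, ENNReal.ofReal (‖h‖ * ‖fderiv ℝ u (x + τ • h)‖) := by
          refine lintegral_lintegral_swap (Measurable.aemeasurable ?_)
          exact ENNReal.measurable_ofReal.comp
            (continuous_const.mul (hd.comp (by fun_prop)).norm).measurable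
      _ = ENNReal.ofReal B := by
          have e : ∀ τ : ℝ, ∫⁻ x, ENNReal.ofReal (‖h‖ * ‖fderiv ℝ u (x + τ • h)‖)
              = ENNReal.ofReal B := fun τ => by
            rw [← ofReal_integral_eq_lintegral_ofReal ((hi.comp_add_right (τ • h)).const_mul _)
              (Eventually.of_forall fun x => by positivity), integral_const_mul,
              integral_add_right_eq_self fun x => ‖fderiv ℝ u x‖]
          simp only [e, setLIntegral_const, Real.volume_Ioc, sub_zero, ENNReal.ofReal_one, mul_one]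
  rw [← ofReal_integral_eq_lintegral_ofReal hl (Eventually.of_forall fun x => abs_nonneg _)] at key
  exact (ENNReal.ofReal_le_ofReal_iff
    (mul_nonneg (norm_nonneg _) (integral_nonneg fun x => norm_nonneg _))).1 key

end Vale.Agent.P219.CH
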