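import Vale.Agent.P219.CH.VarPin
import Vale.Agent.P219.CH.Gauss

/-!
# The cut Gaussian field on a compact set: uniform bounds
-/

noncomputable section

open MeasureTheory Set Filter Topology Matrix

namespace Vale.Agent.P219.CH

variable {n : ℕ} {G : (Fin n → ℝ) → Matrix (Fin n) (Fin n) ℝ}
  {D : (Fin n → ℝ) → (Fin n → ℝ) → ℝ}

/-- The cut field with the inverse square of the scale as parameter. -/
def cutField (G : (Fin n → ℝ) → Matrix (Fin n) (Fin n) ℝ) (D : (Fin n → ℝ) → (Fin n → ℝ) → ℝ)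
    (χ : (Fin n → ℝ) → ℝ) (p : (Fin n → ℝ) × ℝ) (y : Fin n → ℝ) : Fin n → ℝ :=
  χ y • (Real.exp (-(p.2 * D p.1 y)) • grad G (D p.1) y)

lemma cutField_eq (χ : (Fin n → ℝ) → ℝ) (x : Fin n → ℝ) (s : ℝ) (y : Fin n → ℝ) :
    cutField G D χ (x, (s ^ 2)⁻¹) y = χ y • gfield G D x s y := by
  simp [cutField, gfield, gw, div_eq_inv_mul]

lemma IsCH.contDiff_cutField (h : IsCH G D) {χ : (Fin n → ℝ) → ℝ} (hχ : ContDiff ℝ 1 χ) :
    ContDiff ℝ 1 (Function.uncurry (cutField G D χ)) := by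
  have hD : ContDiff ℝ 2 fun w : ((Fin n → ℝ) × ℝ) × (Fin n → ℝ) => D w.1.1 w.2 :=
    h.smooth_dist.comp ((contDiff_fst.comp contDiff_fst).prodMk contDiff_snd)
  have hcd : ContDiff ℝ 1 fun w : ((Fin n → ℝ) × ℝ) × (Fin n → ℝ) => cd (D w.1.1) w.2 := by
    refine contDiff_pi.2 fun i => ?_
    have h1 : ContDiff ℝ 1 fun w : ((Fin n → ℝ) × ℝ) × (Fin n → ℝ) =>
        fderiv ℝ (D w.1.1) w.2 := by
      refine ContDiff.fderiv (m := 2) (n := 1)
        (f := fun (w : ((Fin n → ℝ) × ℝ) × (Fin n → ℝ)) (z : Fin n → ℝ) => D w.1.1 z) ?_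
        contDiff_snd le_rfl
      exact h.smooth_dist.comp (((contDiff_fst.comp contDiff_fst).comp contDiff_fst).prodMk
        contDiff_snd)
    exact h1.clm_apply contDiff_const
  refine (hχ.comp contDiff_snd).smul ((Real.contDiff_exp.comp
    ((contDiff_snd.comp contDiff_fst).mul (hD.of_le one_le_two)).neg).smul ?_)
  refine contDiff_pi.2 fun a => ?_
  simp only [grad, mulVec, dotProduct]
  exact ContDiff.sum fun b _ => ((h.contDiff_inv a b).comp contDiff_snd).mul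
    ((contDiff_apply ℝ ℝ b).comp hcd)

lemma IsCH.continuous_fderiv_cutField (h : IsCH G D) {χ : (Fin n → ℝ) → ℝ}
    (hχ : ContDiff ℝ 1 χ) :
    Continuous fun w : ((Fin n → ℝ) × ℝ) × (Fin n → ℝ) => fderiv ℝ (cutField G D χ w.1) w.2 := by
  refine (ContDiff.fderiv (n := 0) (m := 1)
    (f := fun (w : ((Fin n → ℝ) × ℝ) × (Fin n → ℝ)) (z : Fin n → ℝ) => cutField G D χ w.1 z)
    ?_ contDiff_snd (by simp)).continuous
  exact (h.contDiff_cutField hχ).comp ((contDiff_fst.comp contDiff_fst).prodMk contDiff_snd)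

lemma continuous_opMat :
    Continuous fun L : (Fin n → ℝ) →L[ℝ] (Fin n → ℝ) => opMat L :=
  continuous_pi fun a => continuous_pi fun b =>
    (continuous_apply a).comp ((ContinuousLinearMap.apply ℝ (Fin n → ℝ) (ev b)).continuous)

/-- The gradient is bounded by the covector norm on a compact set. -/
lemma IsCH.exists_norm_inv_mulVec_le (h : IsCH G D) {S : Set (Fin n → ℝ)} (hS : IsCompact S) :
    ∃ C : ℝ, 0 ≤ C ∧ ∀ y ∈ S, ∀ ξ, ‖(G y)⁻¹ *ᵥ ξ‖ ≤ C * conorm G y ξ := by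
  have hsph : IsCompact (Metric.sphere (0 : Fin n → ℝ) 1) := isCompact_sphere _ _
  have hne : ∀ p ∈ S ×ˢ Metric.sphere (0 : Fin n → ℝ) 1, conorm G p.1 p.2 ≠ 0 := by
    rintro ⟨y, ξ⟩ ⟨-, hξ⟩
    refine (h.conorm_pos y fun h0 => ?_).ne'
    simp only at h0
    simp [h0] at hξ
  have hg : Continuous fun p : (Fin n → ℝ) × (Fin n → ℝ) => ‖(G p.1)⁻¹ *ᵥ p.2‖ := by
    refine Continuous.norm (continuous_pi fun a => ?_)
    simp only [mulVec, dotProduct]
    exact continuous_finsetSum _ fun b _ =>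
      ((h.contDiff_inv a b).continuous.comp continuous_fst).mul
        ((continuous_apply b).comp continuous_snd)
  obtain ⟨C, hC⟩ := (hS.prod hsph).bddAbove_image
    (hg.continuousOn.div h.continuous_conorm.continuousOn hne)
  refine ⟨max C 0, le_max_right _ _, fun y hy ξ => ?_⟩
  rcases eq_or_ne ξ 0 with rfl | hξ
  · simp [conorm_zero]
  have hn : 0 < ‖ξ‖ := norm_pos_iff.2 hξ
  have hu : ‖ξ‖⁻¹ • ξ ∈ Metric.sphere (0 : Fin n → ℝ) 1 := by
    rw [mem_sphere_zero_iff_norm, norm_smul, norm_inv, norm_norm, inv_mul_cancel₀ hn.ne']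
  have h1 := (hC ⟨(y, ‖ξ‖⁻¹ • ξ), ⟨hy, hu⟩, rfl⟩).trans (le_max_left C 0)
  simp only [Pi.div_apply, mulVec_smul, norm_smul, h.conorm_smul, norm_inv, norm_norm, abs_inv,
    abs_norm] at h1
  rw [mul_div_mul_left _ _ (inv_ne_zero hn.ne'), div_le_iff₀ (h.conorm_pos y hξ)] at h1
  exact h1

/-- `t ↦ det (1 + tL) dens (y + tv)` varies linearly. -/
lemma IsCH.exists_jacobian_bound (h : IsCH G D) (r B : ℝ) :
    ∃ C : ℝ, 0 ≤ C ∧ ∀ (L : (Fin n → ℝ) →L[ℝ] (Fin n → ℝ)) (y v : Fin n → ℝ) (t : ℝ), ‖L‖ ≤ B →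
      ‖y‖ ≤ r → ‖v‖ ≤ B → t ∈ Icc (0 : ℝ) 1 →
      dens G y ≤ (1 + t • opMat L).det * dens G (y + t • v) + C * t := by
  set f : ℝ × (((Fin n → ℝ) →L[ℝ] (Fin n → ℝ)) × (Fin n → ℝ) × (Fin n → ℝ)) → ℝ :=
    fun w => (1 + w.1 • opMat w.2.1).det * dens G (w.2.2.1 + w.1 • w.2.2.2)
  have hf : ContDiff ℝ 1 f := by
    refine (contDiff_det_of_entries fun a b => ?_).mul (h.contDiff_dens.comp
      ((contDiff_fst.comp (contDiff_snd.comp contDiff_snd)).add
        (contDiff_fst.smul (contDiff_snd.comp (contDiff_snd.comp contDiff_snd)))))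
    simp only [Matrix.add_apply, Matrix.smul_apply, smul_eq_mul, opMat, Matrix.of_apply]
    exact contDiff_const.add (contDiff_fst.mul ((contDiff_apply ℝ ℝ a).comp
      ((contDiff_fst.comp contDiff_snd).clm_apply contDiff_const)))
  set S := Icc (0 : ℝ) 1 ×ˢ (Metric.closedBall (0 : (Fin n → ℝ) →L[ℝ] (Fin n → ℝ)) B ×ˢ
    (Metric.closedBall (0 : Fin n → ℝ) r ×ˢ Metric.closedBall (0 : Fin n → ℝ) B))
  have hS : IsCompact S := isCompact_Icc.prod ((isCompact_closedBall _ _).prod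
    ((isCompact_closedBall _ _).prod (isCompact_closedBall _ _)))
  have hcv : Convex ℝ S := (convex_Icc _ _).prod ((convex_closedBall _ _).prod
    ((convex_closedBall _ _).prod (convex_closedBall _ _)))
  obtain ⟨C, hC⟩ := hS.bddAbove_image (hf.continuous_fderiv one_ne_zero).norm.continuousOn
  refine ⟨max C 0, le_max_right _ _, fun L y v t hL hy hv ht => ?_⟩
  have h0 : ((0 : ℝ), L, y, v) ∈ S :=
    ⟨⟨le_rfl, zero_le_one⟩, by simpa using hL, by simpa using hy, by simpa using hv⟩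
  have h1 : (t, L, y, v) ∈ S := ⟨ht, by simpa using hL, by simpa using hy, by simpa using hv⟩
  have h2 := hcv.norm_image_sub_le_of_norm_fderiv_le (f := f) (C := max C 0)
    (fun z _ => hf.differentiable one_ne_zero z)
    (fun z hz => (hC ⟨z, hz, rfl⟩).trans (le_max_left _ _)) h0 h1
  have e : ((t, L, y, v) : ℝ × ((Fin n → ℝ) →L[ℝ] (Fin n → ℝ)) × (Fin n → ℝ) × (Fin n → ℝ)) -
      (0, L, y, v) = (t, 0, 0, 0) := by simp [Prod.ext_iff]
  rw [e, Prod.norm_mk, Real.norm_eq_abs, Real.norm_eq_abs, Prod.norm_mk, Prod.norm_mk] at h2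
  simp only [norm_zero, max_self, abs_of_nonneg ht.1, max_eq_left ht.1] at h2
  have h3 : f (0, L, y, v) = dens G y := by simp [f]
  rw [abs_le] at h2
  linarith [h2.1]

end Vale.Agent.P219.CH
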