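import Mathlib

/-!
# P219: Cartan-Hadamard metrics on coordinate space, and the parts of the Gaussian monotonicity proof

A metric on `Fin n → ℝ` is a field `G` of positive definite matrices, and `D x y` stands for half
the squared geodesic distance.
-/

noncomputable section

open MeasureTheory Set Filter Topology Matrix

namespace Vale.Agent.P219.CH

variable {n : ℕ}

/-- The coordinates of the differential of `f` at `y`. -/
def cd (f : (Fin n → ℝ) → ℝ) (y : Fin n → ℝ) : Fin n → ℝ :=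
  fun i => fderiv ℝ f y (Pi.single i 1)

/-- The inner product of two covectors at `y`. -/
def pairing (G : (Fin n → ℝ) → Matrix (Fin n) (Fin n) ℝ) (y ξ η : Fin n → ℝ) : ℝ :=
  ξ ⬝ᵥ ((G y)⁻¹ *ᵥ η)

/-- The norm of a covector at `y`. -/
def conorm (G : (Fin n → ℝ) → Matrix (Fin n) (Fin n) ℝ) (y ξ : Fin n → ℝ) : ℝ :=
  Real.sqrt (pairing G y ξ ξ)

/-- The gradient of `f` at `y`. -/
def grad (G : (Fin n → ℝ) → Matrix (Fin n) (Fin n) ℝ) (f : (Fin n → ℝ) → ℝ) (y : Fin n → ℝ) :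
    Fin n → ℝ :=
  (G y)⁻¹ *ᵥ cd f y

/-- The derivative of the matrix field `G` at `y` along `v`. -/
def dG (G : (Fin n → ℝ) → Matrix (Fin n) (Fin n) ℝ) (y v : Fin n → ℝ) :
    Matrix (Fin n) (Fin n) ℝ :=
  Matrix.of fun i j => fderiv ℝ (fun z => G z i j) y v

/-- The Riemannian Hessian of `f` at `y` on the vector `v`. -/
def hess (G : (Fin n → ℝ) → Matrix (Fin n) (Fin n) ℝ) (f : (Fin n → ℝ) → ℝ) (y v : Fin n → ℝ) :
    ℝ :=
  fderiv ℝ (fderiv ℝ f) y v v - grad G f y ⬝ᵥ (dG G y v *ᵥ v)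
    + (1 / 2) * (v ⬝ᵥ (dG G y (grad G f y) *ᵥ v))

/-- The Riemannian density. -/
def dens (G : (Fin n → ℝ) → Matrix (Fin n) (Fin n) ℝ) (y : Fin n → ℝ) : ℝ :=
  Real.sqrt (G y).det

/-- A Cartan-Hadamard metric with its half squared distance `D`: the gradient of `D x` has norm
`d(x,·)`, its Hessian is at least the metric, the law of cosines of nonpositive curvature holds and
closed balls are compact. -/
structure IsCH (G : (Fin n → ℝ) → Matrix (Fin n) (Fin n) ℝ)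
    (D : (Fin n → ℝ) → (Fin n → ℝ) → ℝ) : Prop where
  smooth_metric : ∀ i j, ContDiff ℝ 1 fun y => G y i j
  posDef : ∀ y, (G y).PosDef
  smooth_dist : ContDiff ℝ 2 fun p : (Fin n → ℝ) × (Fin n → ℝ) => D p.1 p.2
  dist_self : ∀ x, D x x = 0
  eikonal : ∀ x y, pairing G y (cd (D x) y) (cd (D x) y) = 2 * D x y
  hessian : ∀ x y v, v ⬝ᵥ (G y *ᵥ v) ≤ hess G (D x) y v
  cosine : ∀ o x y, D o y - pairing G y (cd (D o) y) (cd (D x) y) + D x y ≤ D o x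
  proper : ∀ o R, IsCompact {y | D o y ≤ R}

/-- The Riemannian volume of a set. -/
def volG (G : (Fin n → ℝ) → Matrix (Fin n) (Fin n) ℝ) (Ω : Set (Fin n → ℝ)) : ℝ :=
  ∫ y in Ω, dens G y

/-- `A` bounds the relaxed Riemannian perimeter of `Ω`. -/
def PerimeterLE (G : (Fin n → ℝ) → Matrix (Fin n) (Fin n) ℝ) (Ω : Set (Fin n → ℝ)) (A : ℝ) :
    Prop :=
  ∃ (S : Set (Fin n → ℝ)) (v : ℕ → (Fin n → ℝ) → ℝ), IsCompact S ∧
    (∀ j, ContDiff ℝ 1 (v j) ∧ tsupport (v j) ⊆ S) ∧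
    Tendsto (fun j => ∫ y, |v j y - Ω.indicator 1 y|) atTop (𝓝 0) ∧
    ∀ j, ∫ y, conorm G y (cd (v j) y) * dens G y ≤ A

/-- The constant of the theorem: its `n`-th power is `n^(n-1) (4π/(n-1))^((n-1)/2)`. -/
def lam (n : ℕ) : ℝ :=
  ((n : ℝ) ^ ((n : ℝ) - 1) * (4 * Real.pi / ((n : ℝ) - 1)) ^ (((n : ℝ) - 1) / 2)) ^ (1 / n : ℝ)

/-- Every Cartan-Hadamard manifold satisfies the isoperimetric inequality with the constant
`lam n`. -/
def IsoperimetricCH : Prop :=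
  ∀ n : ℕ, 2 ≤ n → ∀ (G : (Fin n → ℝ) → Matrix (Fin n) (Fin n) ℝ)
    (D : (Fin n → ℝ) → (Fin n → ℝ) → ℝ), IsCH G D →
    ∀ (Ω : Set (Fin n → ℝ)) (A : ℝ), MeasurableSet Ω → Bornology.IsBounded Ω →
      PerimeterLE G Ω A → lam n * volG G Ω ^ (((n : ℝ) - 1) / n) ≤ A

/-! ## Competitors and the quantities of the proof -/

/-- A competitor supported in `K`. -/
def Comp (K : Set (Fin n → ℝ)) (u : (Fin n → ℝ) → ℝ) : Prop :=
  ContDiff ℝ 1 u ∧ tsupport u ⊆ K ∧ ∀ y, u y ∈ Icc (0 : ℝ) 1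

/-- The perimeter of a competitor. -/
def per (G : (Fin n → ℝ) → Matrix (Fin n) (Fin n) ℝ) (u : (Fin n → ℝ) → ℝ) : ℝ :=
  ∫ y, conorm G y (cd u y) * dens G y

/-- The volume of a competitor. -/
def vol (G : (Fin n → ℝ) → Matrix (Fin n) (Fin n) ℝ) (u : (Fin n → ℝ) → ℝ) : ℝ :=
  ∫ y, u y * dens G y

/-- The distance of a competitor from being an indicator. -/
def gap (G : (Fin n → ℝ) → Matrix (Fin n) (Fin n) ℝ) (u : (Fin n → ℝ) → ℝ) : ℝ :=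
  ∫ y, u y * (1 - u y) * dens G y

/-- The Gaussian weight of scale `s` centred at `x`. -/
def gw (D : (Fin n → ℝ) → (Fin n → ℝ) → ℝ) (x : Fin n → ℝ) (s : ℝ) (y : Fin n → ℝ) : ℝ :=
  Real.exp (-(D x y / s ^ 2))

/-- The component of the gradient of `D x` normal to the level sets of `u`, times `|du|`. -/
def normalPart (G : (Fin n → ℝ) → Matrix (Fin n) (Fin n) ℝ)
    (D : (Fin n → ℝ) → (Fin n → ℝ) → ℝ) (x : Fin n → ℝ) (u : (Fin n → ℝ) → ℝ) (y : Fin n → ℝ) :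
    ℝ :=
  pairing G y (cd u y) (cd (D x) y)

/-- The Gaussian perimeter. -/
def gQ (G : (Fin n → ℝ) → Matrix (Fin n) (Fin n) ℝ) (D : (Fin n → ℝ) → (Fin n → ℝ) → ℝ)
    (x : Fin n → ℝ) (s : ℝ) (u : (Fin n → ℝ) → ℝ) : ℝ :=
  ∫ y, gw D x s y * (conorm G y (cd u y) * dens G y)

/-- The Gaussian perimeter with the weight `D / s ^ 2`. -/
def gMom (G : (Fin n → ℝ) → Matrix (Fin n) (Fin n) ℝ) (D : (Fin n → ℝ) → (Fin n → ℝ) → ℝ)
    (x : Fin n → ℝ) (s : ℝ) (u : (Fin n → ℝ) → ℝ) : ℝ :=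
  ∫ y, D x y / s ^ 2 * gw D x s y * (conorm G y (cd u y) * dens G y)

/-- The normal part of the Gaussian moment. -/
def gNormal (G : (Fin n → ℝ) → Matrix (Fin n) (Fin n) ℝ) (D : (Fin n → ℝ) → (Fin n → ℝ) → ℝ)
    (x : Fin n → ℝ) (s : ℝ) (u : (Fin n → ℝ) → ℝ) : ℝ :=
  ∫ y, normalPart G D x u y ^ 2 / conorm G y (cd u y) / s ^ 2 * gw D x s y * dens G y

/-- The Gaussian flux. -/
def gFlux (G : (Fin n → ℝ) → Matrix (Fin n) (Fin n) ℝ) (D : (Fin n → ℝ) → (Fin n → ℝ) → ℝ)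
    (x : Fin n → ℝ) (s : ℝ) (u : (Fin n → ℝ) → ℝ) : ℝ :=
  ∫ y, |normalPart G D x u y| * gw D x s y * dens G y

/-! ## Pins -/

/-- First variation: pulling a competitor back by a small step along the Gaussian gradient field. -/
def VariationPin (n : ℕ) : Prop :=
  2 ≤ n → ∀ (G : (Fin n → ℝ) → Matrix (Fin n) (Fin n) ℝ)
    (D : (Fin n → ℝ) → (Fin n → ℝ) → ℝ), IsCH G D →
    ∀ (o : Fin n → ℝ) (R a b e : ℝ), 0 < R → 0 < a → a ≤ b → 0 < e →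
    ∃ τ C : ℝ, 0 < τ ∧ 0 ≤ C ∧
      ∀ t x s u, 0 < t → t ≤ τ → D o x ≤ R → s ∈ Icc a b → Comp {y | D o y ≤ R} u →
      ∃ u', Comp {y | D o y ≤ R} u' ∧
        per G u' ≤ per G u
          - t * (((n : ℝ) - 1) * gQ G D x s u - 2 * gMom G D x s u + gNormal G D x s u)
          + t * e * per G u ∧
        vol G u - t * gFlux G D x s u - t * e * per G u ≤ vol G u' ∧
        gap G u' ≤ (1 + C * t) * gap G u

/-- A near-indicator supported in a ball has, at every small scale, a centre in the ball with the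
Gaussian perimeter of a hyperplane. -/
def StartPin (n : ℕ) : Prop :=
  2 ≤ n → ∀ (G : (Fin n → ℝ) → Matrix (Fin n) (Fin n) ℝ)
    (D : (Fin n → ℝ) → (Fin n → ℝ) → ℝ), IsCH G D →
    ∀ (o : Fin n → ℝ) (R P₀ v₀ ε s₁ : ℝ), 0 < R → 0 ≤ P₀ → 0 < v₀ → 0 < ε → 0 < s₁ →
    ∃ s₀ η : ℝ, 0 < s₀ ∧ s₀ ≤ s₁ ∧ 0 < η ∧
      ∀ u, Comp {y | D o y ≤ R} u → per G u ≤ P₀ → v₀ ≤ vol G u → gap G u ≤ η →
      ∃ x, D o x ≤ R ∧
        (1 - ε) * Real.sqrt (2 * Real.pi * s₀ ^ 2) ^ ((n : ℝ) - 1) ≤ gQ G D x s₀ u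

/-- A set violating the inequality gives almost minimisers which are almost indicators. -/
def MinPin (n : ℕ) : Prop :=
  2 ≤ n → ∀ (G : (Fin n → ℝ) → Matrix (Fin n) (Fin n) ℝ)
    (D : (Fin n → ℝ) → (Fin n → ℝ) → ℝ), IsCH G D →
    ∀ (Ω : Set (Fin n → ℝ)) (A l : ℝ), MeasurableSet Ω → Bornology.IsBounded Ω →
    PerimeterLE G Ω A → 0 < l → A < l * volG G Ω ^ (((n : ℝ) - 1) / n) →
    ∀ o : Fin n → ℝ, ∃ R M P₀ v₀ : ℝ, 0 < R ∧ 0 ≤ M ∧ 0 ≤ P₀ ∧ 0 < v₀ ∧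
      ∀ δ : ℝ, 0 < δ → ∃ u, Comp {y | D o y ≤ R} u ∧ per G u ≤ P₀ ∧ v₀ ≤ vol G u ∧
        gap G u ≤ δ ∧ per G u ≤ l * vol G u ^ (((n : ℝ) - 1) / n) ∧
        ∀ u', Comp {y | D o y ≤ R} u' →
          per G u - l * vol G u ^ (((n : ℝ) - 1) / n) + M * gap G u ≤
            per G u' - l * vol G u' ^ (((n : ℝ) - 1) / n) + M * gap G u' + δ

end Vale.Agent.P219.CH
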