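import Vale.Agent.P219.CH.StartBasic

/-!
# P219, Gaussian start: a point where the frozen Gaussian average is just above one half
-/

noncomputable section

open MeasureTheory ProbabilityTheory Set Filter Topology Matrix
open scoped ENNReal NNReal Real RealInnerProductSpace

namespace Vale.Agent.P219.CH

variable {n : ℕ} {G : (Fin n → ℝ) → Matrix (Fin n) (Fin n) ℝ}
  {D : (Fin n → ℝ) → (Fin n → ℝ) → ℝ}

theorem qf_frame {x : Fin n → ℝ} {A : Matrix (Fin n) (Fin n) ℝ} (hAt : A.transpose = A)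
    (hA : A * G x * A = 1) (z : EuclideanSpace ℝ (Fin n)) :
    qf G x (A *ᵥ WithLp.ofLp z) = ‖z‖ ^ 2 := by
  rw [qf, mulVec_mulVec, dotProduct_mulVec, ← vecMul_transpose, hAt, vecMul_vecMul,
    ← Matrix.mul_assoc, hA, vecMul_one, EuclideanSpace.real_norm_sq_eq]
  simp [dotProduct, sq]

theorem contDiff_D (h : IsCH G D) (x : Fin n → ℝ) : ContDiff ℝ 2 (D x) :=
  h.smooth_dist.comp (contDiff_const.prodMk contDiff_id)

theorem continuous_D (h : IsCH G D) (x : Fin n → ℝ) : Continuous (D x) :=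
  (contDiff_D h x).continuous

theorem continuous_avg (h : IsCH G D) {K : Set (Fin n → ℝ)} (hK : IsCompact K) (s : ℝ)
    {f : (Fin n → ℝ) → ℝ} (hf : Continuous f) (hfK : ∀ y, y ∉ K → f y = 0) :
    Continuous (avg G s f) := by
  have hc := continuous_parametric_integral_of_continuous (μ := volume)
    (f := fun x y => f y * ker G s x y)
    ((hf.comp continuous_snd).mul (continuous_ker h s)) hK
  refine hc.congr fun x => ?_
  exact setIntegral_eq_integral_of_forall_compl_eq_zero fun y hy => by rw [hfK y hy, zero_mul]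

theorem comp_eq_zero {K : Set (Fin n → ℝ)} {u : (Fin n → ℝ) → ℝ} (hu : Comp K u) {y : Fin n → ℝ}
    (hy : y ∉ K) : u y = 0 :=
  image_eq_zero_of_notMem_tsupport fun h => hy (hu.2.1 h)

theorem cd_eq_zero {K : Set (Fin n → ℝ)} {u : (Fin n → ℝ) → ℝ} (hu : Comp K u) {y : Fin n → ℝ}
    (hy : y ∉ K) : cd u y = 0 := by
  funext i
  simp [cd, fderiv_of_notMem_tsupport ℝ fun h => hy (hu.2.1 h)]

theorem comp_hasCompactSupport {K : Set (Fin n → ℝ)} (hK : IsCompact K) {u : (Fin n → ℝ) → ℝ}
    (hu : Comp K u) : HasCompactSupport u :=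
  hK.of_isClosed_subset (isClosed_tsupport u) hu.2.1

theorem integrable_per (h : IsCH G D) {K : Set (Fin n → ℝ)} (hK : IsCompact K)
    {u : (Fin n → ℝ) → ℝ} (hu : Comp K u) :
    Integrable fun y => conorm G y (cd u y) * dens G y :=
  (((continuous_conorm h).comp (continuous_id.prodMk (continuous_cd hu.1))).mul
    (continuous_dens h)).integrable_of_hasCompactSupport
    (HasCompactSupport.intro hK fun y hy => by simp [cd_eq_zero hu hy, conorm, pairing])

theorem abs_dot_le (h : IsCH G D) (y ξ v : Fin n → ℝ) :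
    |ξ ⬝ᵥ v| ≤ √(pairing G y ξ ξ) * √(qf G y v) := by
  have hM := h.posDef y
  set w := (G y)⁻¹ *ᵥ ξ
  have hGw : G y *ᵥ w = ξ := by
    rw [mulVec_mulVec, mul_nonsing_inv _ (isUnit_iff_ne_zero.2 hM.det_pos.ne'), one_mulVec]
  have hsym : ∀ a b : Fin n → ℝ, a ⬝ᵥ (G y *ᵥ b) = b ⬝ᵥ (G y *ᵥ a) := fun a b => by
    have ht : (G y).transpose = G y := by
      rw [← conjTranspose_eq_transpose_of_trivial]; exact hM.isHermitian.eq
    rw [dotProduct_mulVec, ← mulVec_transpose, ht, dotProduct_comm]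
  have key : ∀ t : ℝ, 0 ≤ qf G y v * (t * t) + 2 * (ξ ⬝ᵥ v) * t + pairing G y ξ ξ := fun t => by
    have := qf_nonneg h y (t • v + w)
    rw [qf, mulVec_add, mulVec_smul, hGw, add_dotProduct, smul_dotProduct, dotProduct_add,
      dotProduct_add, dotProduct_smul, dotProduct_smul, hsym w v, hGw, smul_eq_mul, smul_eq_mul,
      smul_eq_mul, dotProduct_comm v ξ, dotProduct_comm w ξ] at this
    simp only [qf, pairing]
    linarith
  have hd := discrim_le_zero key
  rw [discrim] at hd
  have hsq : (ξ ⬝ᵥ v) ^ 2 ≤ pairing G y ξ ξ * qf G y v := by linarith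
  rw [← Real.sqrt_mul (pairing_nonneg h y ξ), ← Real.sqrt_sq_eq_abs]
  exact Real.sqrt_le_sqrt hsq

/-- Half the squared distance is, near the diagonal, at most half the frozen quadratic form. -/
theorem D_upper (h : IsCH G D) {K : Set (Fin n → ℝ)} (hK : IsCompact K) {δ : ℝ} (hδ : 0 < δ) :
    ∃ ρ : ℝ, 0 < ρ ∧ ∀ x ∈ K, ∀ v, ‖v‖ ≤ ρ → D x (x + v) ≤ (1 + δ) * (qf G x v / 2) := by
  obtain ⟨ρ, hρ, -, hmod⟩ := exists_modulus (K := K) hK (continuous_qf h) (c := 2)
    (fun y v a _ => by rw [Real.rpow_two]; exact qf_smul y v a) two_pos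
    (fun y v hv => qf_pos h y hv) hδ
  refine ⟨ρ, hρ, fun x hx v hv => ?_⟩
  set M := √((1 + δ) * qf G x v)
  have hM : 0 ≤ (1 + δ) * qf G x v := mul_nonneg (by linarith) (qf_nonneg h x v)
  suffices hb : ∀ e : ℝ, 0 < e → 2 * D x (x + v) ≤ (√e + M) ^ 2 by
    have hlim : Tendsto (fun e : ℝ => (√e + M) ^ 2) (𝓝[>] 0) (𝓝 (M ^ 2)) := by
      have : Continuous fun e : ℝ => (√e + M) ^ 2 := by fun_prop
      simpa using (this.tendsto 0).mono_left nhdsWithin_le_nhds
    have h2 := ge_of_tendsto hlim (eventually_nhdsWithin_of_forall fun e he => hb e he)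
    rw [Real.sq_sqrt hM] at h2
    linarith
  intro e he
  set φ : ℝ → ℝ := fun τ => √(2 * D x (x + τ • v) + e)
  have hpos : ∀ τ : ℝ, 0 < 2 * D x (x + τ • v) + e := fun τ => by
    linarith [D_nonneg h x (x + τ • v)]
  set φ' : ℝ → ℝ := fun τ => 2 * (cd (D x) (x + τ • v) ⬝ᵥ v) / (2 * φ τ)
  have hder : ∀ τ, HasDerivAt φ (φ' τ) τ := fun τ => by
    have h0 : HasDerivAt (fun τ : ℝ => x + τ • v) v τ := by
      simpa using ((hasDerivAt_id τ).smul_const v).const_add x
    have h1 : HasDerivAt (fun τ : ℝ => D x (x + τ • v)) (fderiv ℝ (D x) (x + τ • v) v) τ :=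
      (((contDiff_D h x).differentiable two_ne_zero _).hasFDerivAt).comp_hasDerivAt τ h0
    rw [cd_dot] at h1
    exact ((h1.const_mul 2).add_const e).sqrt (hpos τ).ne'
  have hbound : ∀ τ ∈ Ico (0 : ℝ) 1, ‖φ' τ‖ ≤ M := fun τ hτ => by
    have hy : ‖x + τ • v - x‖ ≤ ρ := by
      rw [add_sub_cancel_left, norm_smul, Real.norm_of_nonneg hτ.1]
      exact (mul_le_of_le_one_left (norm_nonneg _) hτ.2.le).trans hv
    have hq := (hmod x hx _ hy v).2
    have hd := abs_dot_le h (x + τ • v) (cd (D x) (x + τ • v)) v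
    rw [h.eikonal] at hd
    have hφ : 0 < φ τ := Real.sqrt_pos.2 (hpos τ)
    have h3 : |cd (D x) (x + τ • v) ⬝ᵥ v| ≤ φ τ * M := hd.trans (mul_le_mul
      (Real.sqrt_le_sqrt (by linarith)) (Real.sqrt_le_sqrt hq) (Real.sqrt_nonneg _) hφ.le)
    rw [Real.norm_eq_abs, abs_div, abs_mul, abs_of_pos (by linarith : 0 < 2 * φ τ), abs_two,
      mul_div_mul_left _ _ two_ne_zero, div_le_iff₀ hφ, mul_comm M]
    exact h3
  have := norm_image_sub_le_of_norm_deriv_le_segment_01' (fun τ _ => (hder τ).hasDerivWithinAt)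
    hbound
  rw [Real.norm_eq_abs] at this
  have h1 : φ 1 ≤ √e + M := by
    have e0 : φ 0 = √e := by simp [φ, h.dist_self]
    linarith [(abs_le.1 this).2]
  have h2 := pow_le_pow_left₀ (Real.sqrt_nonneg _) h1 2
  simp only [φ, one_smul] at h2
  rw [Real.sq_sqrt (by linarith [D_nonneg h x (x + v)])] at h2
  linarith

theorem gaussianReal_Iic_le {v : ℝ≥0} (hv : v ≠ 0) {a : ℝ} (ha : 0 ≤ a) :
    gaussianReal 0 v (Iic a) ≤ ENNReal.ofReal (1 / 2 + a * (√(2 * π * v))⁻¹) := by
  have hneg : gaussianReal 0 v (Iio (0 : ℝ)) = gaussianReal 0 v (Ioi 0) := by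
    conv_lhs => rw [← neg_zero (G := ℝ), ← gaussianReal_map_neg]
    rw [Measure.map_apply measurable_neg measurableSet_Iio]
    congr 1
    ext x; simp
  have hhalf : gaussianReal 0 v (Iio (0 : ℝ)) ≤ ENNReal.ofReal (1 / 2) := by
    have h2 : gaussianReal 0 v (Iio (0 : ℝ)) + gaussianReal 0 v (Iio (0 : ℝ)) ≤ 1 := by
      nth_rw 2 [hneg]
      rw [← measure_union (Iio_disjoint_Ioi_same (a := (0 : ℝ))) measurableSet_Ioi]
      exact prob_le_one
    have h3 := ENNReal.toReal_mono ENNReal.one_ne_top h2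
    rw [ENNReal.toReal_add (measure_ne_top _ _) (measure_ne_top _ _), ENNReal.toReal_one] at h3
    rw [← ENNReal.ofReal_toReal (measure_ne_top (gaussianReal 0 v) (Iio (0 : ℝ)))]
    exact ENNReal.ofReal_le_ofReal (by linarith)
  have hband : gaussianReal 0 v (Icc 0 a) ≤ ENNReal.ofReal (a * (√(2 * π * v))⁻¹) := by
    rw [gaussianReal_apply 0 hv]
    calc ∫⁻ x in Icc 0 a, gaussianPDF 0 v x ≤ ∫⁻ _ in Icc 0 a, ENNReal.ofReal (√(2 * π * v))⁻¹ := by
          refine lintegral_mono fun x => ENNReal.ofReal_le_ofReal ?_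
          rw [gaussianPDFReal_def]
          refine mul_le_of_le_one_right (by positivity) (Real.exp_le_one_iff.2 ?_)
          exact div_nonpos_of_nonpos_of_nonneg (by nlinarith) (by positivity)
      _ = _ := by
          rw [setLIntegral_const, Real.volume_Icc, sub_zero, ← ENNReal.ofReal_mul (by positivity),
            mul_comm]
  calc gaussianReal 0 v (Iic a) ≤ gaussianReal 0 v (Iio (0 : ℝ)) + gaussianReal 0 v (Icc 0 a) :=
        (measure_mono fun x (hx : x ≤ a) => (lt_or_ge x 0).imp id fun h => ⟨h, hx⟩).trans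
          (measure_union_le _ _)
    _ ≤ _ := by
        rw [ENNReal.ofReal_add (by norm_num) (by positivity)]
        exact add_le_add hhalf hband

/-- On the boundary sphere the average is hardly more than one half. -/
theorem avg_boundary (h : IsCH G D) (o : Fin n → ℝ) {R : ℝ} (hR : 0 < R) {κ : ℝ} (hκ : 0 < κ) :
    ∃ σ : ℝ, 0 < σ ∧ ∀ s, 0 < s → s < σ → ∀ u, Comp {y | D o y ≤ R} u → ∀ b, D o b = R →
      avg G s u b ≤ 1 / 2 + κ := by
  set K := {y | D o y ≤ R}
  have hK : IsCompact K := h.proper o R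
  obtain ⟨B, hB⟩ := hK.isBounded.subset_closedBall (0 : Fin n → ℝ)
  obtain ⟨L2, hL2⟩ := (((contDiff_D h o).fderiv_right (m := 1) le_rfl).locallyLipschitz
    |>.locallyLipschitzOn).exists_lipschitzOnWith_of_compact
      (isCompact_closedBall (0 : Fin n → ℝ) (B + 1))
  obtain ⟨CA, hCA, hCAb⟩ := exists_comparison hK (f := fun p : (Fin n → ℝ) × (Fin n → ℝ) => ‖p.2‖)
    (g := fun p => √(qf G p.1 p.2)) (continuous_norm.comp continuous_snd)
    (Real.continuous_sqrt.comp (continuous_qf h))
    (fun y v a ha => by simp [norm_smul, abs_of_nonneg ha])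
    (fun y v a ha => by simp [qf_smul, Real.sqrt_mul (sq_nonneg a), Real.sqrt_sq ha])
    (fun y _ v hv => Real.sqrt_pos.2 (qf_pos h y hv))
  set γ := stdGaussian (EuclideanSpace ℝ (Fin n))
  obtain ⟨Z, hZ⟩ : ∃ Z : ℕ, γ {z | (Z : ℝ) < ‖z‖} < ENNReal.ofReal (κ / 2) := by
    have ht := tendsto_measure_iInter_atTop (μ := γ)
      (s := fun N : ℕ => {z : EuclideanSpace ℝ (Fin n) | (N : ℝ) < ‖z‖})
      (fun N => (measurableSet_lt measurable_const measurable_norm).nullMeasurableSet)
      (fun a b hab z (hz : (b : ℝ) < ‖z‖) => lt_of_le_of_lt (Nat.cast_le.2 hab) hz)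
      ⟨0, measure_ne_top _ _⟩
    have he : (⋂ N : ℕ, {z : EuclideanSpace ℝ (Fin n) | (N : ℝ) < ‖z‖}) = ∅ := by
      refine eq_empty_of_forall_notMem fun z hz => ?_
      obtain ⟨N, hN⟩ := exists_nat_ge ‖z‖
      exact absurd (mem_iInter.1 hz N) (not_lt.2 hN)
    rw [he, measure_empty] at ht
    exact ((tendsto_order.1 ht).2 _ (ENNReal.ofReal_pos.2 (by linarith))).exists
  set C3 : ℝ := L2 * (CA * Z) ^ 2
  set p : ℝ := (√(2 * π * (2 * R)))⁻¹
  refine ⟨min (1 / (CA * Z + 1)) (κ / 2 / (C3 * p + 1)), by positivity, fun s hs hsσ u hu b hb => ?_⟩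
  have hs1 : s * (CA * Z) ≤ 1 := by
    have := hsσ.le.trans (min_le_left _ _)
    rw [le_div_iff₀ (by positivity)] at this
    nlinarith
  have hs2 : s * C3 * p ≤ κ / 2 := by
    have := hsσ.le.trans (min_le_right _ _)
    rw [le_div_iff₀ (by positivity)] at this
    nlinarith
  have hbK : b ∈ K := hb.le
  obtain ⟨A, hAt, hA, hAA, hdet⟩ := exists_frame h b
  rw [← integral_toFrame h hs hAt hA hdet]
  set a : EuclideanSpace ℝ (Fin n) := WithLp.toLp 2 (cd (D o) b ᵥ* A)
  set L := InnerProductSpace.toDual ℝ (EuclideanSpace ℝ (Fin n)) a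
  have hLz : ∀ z, L z = cd (D o) b ⬝ᵥ (A *ᵥ WithLp.ofLp z) := fun z => by
    rw [InnerProductSpace.toDual_apply_apply, EuclideanSpace.inner_eq_star_dotProduct, star_trivial,
      dotProduct_mulVec, dotProduct_comm]
  have hLn : ‖L‖ ^ 2 = 2 * R := by
    rw [LinearIsometryEquiv.norm_map, EuclideanSpace.real_norm_sq_eq, ← hb, ← h.eikonal o b,
      pairing, ← hAA, ← mulVec_mulVec, dotProduct_mulVec, dotProduct]
    refine Finset.sum_congr rfl fun i => ?_
    intro _
    have : (A *ᵥ cd (D o) b) i = (cd (D o) b ᵥ* A) i := by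
      conv_lhs => rw [← hAt, mulVec_transpose]
    rw [this]
    simp [a, sq]
  set S := {z | D o (toFrame A s b z) ≤ R}
  have hT : Continuous (toFrame A s b) := by unfold toFrame; fun_prop
  have hSm : MeasurableSet S := (isClosed_le ((continuous_D h o).comp hT) continuous_const).measurableSet
  have hsub : S ⊆ {z | (Z : ℝ) < ‖z‖} ∪ L ⁻¹' Iic (s * C3) := by
    intro z hz
    rcases lt_or_ge (Z : ℝ) ‖z‖ with hz' | hz'
    · exact Or.inl hz'
    refine Or.inr ?_
    set w := A *ᵥ WithLp.ofLp z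
    have hw : ‖w‖ ≤ CA * Z := by
      have := hCAb b hbK w
      simp only at this
      rw [qf_frame hAt hA z, Real.sqrt_sq (norm_nonneg z)] at this
      exact this.trans (mul_le_mul_of_nonneg_left hz' hCA.le)
    have hsw : ‖s • w‖ ≤ s * (CA * Z) := by
      rw [norm_smul, Real.norm_of_nonneg hs.le]
      exact mul_le_mul_of_nonneg_left hw hs.le
    have hbB := hB hbK
    rw [mem_closedBall_zero_iff] at hbB
    have hball : Metric.closedBall b ‖s • w‖ ⊆ Metric.closedBall (0 : Fin n → ℝ) (B + 1) := by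
      intro y hy
      rw [mem_closedBall_zero_iff]
      rw [Metric.mem_closedBall, dist_eq_norm] at hy
      have := norm_le_norm_add_norm_sub' y b
      linarith
    have htaylor := (convex_closedBall b ‖s • w‖).norm_image_sub_le_of_norm_fderiv_le'
      (f := D o) (φ := fderiv ℝ (D o) b) (C := L2 * ‖s • w‖)
      (fun y _ => (contDiff_D h o).differentiable two_ne_zero y)
      (fun y hy => by
        have hy' := hball hy
        refine (hL2.norm_sub_le hy' (hball (Metric.mem_closedBall_self (norm_nonneg _)))).trans ?_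
        gcongr
        rwa [Metric.mem_closedBall, dist_eq_norm] at hy)
      (Metric.mem_closedBall_self (norm_nonneg _))
      (show b + s • w ∈ Metric.closedBall b ‖s • w‖ by simp [dist_eq_norm])
    rw [add_sub_cancel_left, hb, Real.norm_eq_abs, cd_dot, dotProduct_smul, smul_eq_mul] at htaylor
    have hz2 : D o (b + s • w) ≤ R := hz
    have h1 := (abs_le.1 htaylor).1
    have h2 : (L2 : ℝ) * ‖s • w‖ * ‖s • w‖ ≤ L2 * ((s * (CA * Z)) * (s * (CA * Z))) := by
      rw [mul_assoc]
      gcongr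
    show L z ≤ s * C3
    rw [hLz]
    refine le_of_mul_le_mul_left ?_ hs
    simp only [C3]
    linarith
  have hmap : γ (L ⁻¹' Iic (s * C3)) ≤ ENNReal.ofReal (1 / 2 + s * C3 * p) := by
    rw [← Measure.map_apply L.continuous.measurable measurableSet_Iic,
      IsGaussian.map_eq_gaussianReal, integral_strongDual_stdGaussian, variance_dual_stdGaussian,
      hLn]
    refine (gaussianReal_Iic_le (by simpa using hR) (by positivity)).trans (le_of_eq ?_)
    rw [Real.coe_toNNReal _ (by positivity)]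
  have hS : γ.real S ≤ 1 / 2 + κ := by
    rw [measureReal_def]
    refine ENNReal.toReal_le_of_le_ofReal (by linarith) ?_
    refine ((measure_mono hsub).trans (measure_union_le _ _)).trans ?_
    refine (add_le_add hZ.le hmap).trans ?_
    rw [← ENNReal.ofReal_add (by positivity) (by positivity)]
    exact ENNReal.ofReal_le_ofReal (by linarith)
  refine le_trans ?_ hS
  calc ∫ z, u (toFrame A s b z) ∂γ ≤ ∫ z, S.indicator 1 z ∂γ := by
        refine integral_mono_of_nonneg (Eventually.of_forall fun z => (hu.2.2 _).1)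
          ((integrable_const 1).indicator hSm) (Eventually.of_forall fun z => ?_)
        by_cases hz : z ∈ S
        · rw [indicator_of_mem hz]; exact (hu.2.2 _).2
        · show u (toFrame A s b z) ≤ _
          rw [indicator_of_notMem hz, comp_eq_zero hu (y := toFrame A s b z) hz]
    _ = γ.real S := integral_indicator_one hSm

theorem integrable_exp_norm_sq {a : ℝ} (ha : 0 < a) :
    Integrable fun z : Fin n → ℝ => Real.exp (-(a * ‖z‖ ^ 2)) := by
  have hp : Integrable fun z : Fin n → ℝ => ∏ i, Real.exp (-(a / (n + 1)) * z i ^ 2) :=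
    Integrable.fintype_prod fun _ => integrable_exp_neg_mul_sq (by positivity)
  refine hp.mono' (by fun_prop : Continuous fun z : Fin n → ℝ =>
    Real.exp (-(a * ‖z‖ ^ 2))).aestronglyMeasurable (Eventually.of_forall fun z => ?_)
  rw [Real.norm_of_nonneg (Real.exp_pos _).le, ← Real.exp_sum, ← Finset.mul_sum, Real.exp_le_exp]
  have h1 : ∑ i, z i ^ 2 ≤ (n + 1) * ‖z‖ ^ 2 := by
    calc ∑ i, z i ^ 2 ≤ ∑ _i : Fin n, ‖z‖ ^ 2 := Finset.sum_le_sum fun i _ => by
          rw [← sq_abs, ← Real.norm_eq_abs]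
          exact pow_le_pow_left₀ (norm_nonneg _) (norm_le_pi_norm z i) 2
      _ ≤ _ := by
          simp only [Finset.sum_const, Finset.card_univ, Fintype.card_fin, nsmul_eq_mul]
          nlinarith [sq_nonneg ‖z‖]
  have h2 := mul_le_mul_of_nonneg_left h1 (show 0 ≤ a / (n + 1) by positivity)
  rw [← mul_assoc, div_mul_cancel₀ a (by positivity)] at h2
  linarith

/-- A near indicator of positive volume has a point with average above one half. -/
theorem avg_interior (h : IsCH G D) {K : Set (Fin n → ℝ)} (hK : IsCompact K) {κ : ℝ}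
    (hκ : κ < 1 / 2) (P₀ : ℝ) {v₀ : ℝ} (hv₀ : 0 < v₀) :
    ∃ σ η : ℝ, 0 < σ ∧ 0 < η ∧ ∀ s, 0 < s → s < σ → ∀ u, Comp K u → per G u ≤ P₀ →
      v₀ ≤ vol G u → gap G u ≤ η → ∃ x ∈ K, 1 / 2 + κ < avg G s u x := by
  have hd := continuous_dens h
  obtain ⟨CA, hCA, hCAb⟩ := exists_comparison hK (f := fun p : (Fin n → ℝ) × (Fin n → ℝ) => ‖p.2‖)
    (g := fun p => √(qf G p.1 p.2)) (continuous_norm.comp continuous_snd)
    (Real.continuous_sqrt.comp (continuous_qf h))
    (fun y v a ha => by simp [norm_smul, abs_of_nonneg ha])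
    (fun y v a ha => by simp [qf_smul, Real.sqrt_mul (sq_nonneg a), Real.sqrt_sq ha])
    (fun y _ v hv => Real.sqrt_pos.2 (qf_pos h y hv))
  obtain ⟨CF, hCF, hCFb⟩ := exists_comparison hK
    (f := fun p : (Fin n → ℝ) × (Fin n → ℝ) => ∑ i, |p.2 i|)
    (g := fun p => conorm G p.1 p.2 * dens G p.1) (by fun_prop)
    ((continuous_conorm h).mul (hd.comp continuous_fst))
    (fun y v a ha => by simp [abs_mul, abs_of_nonneg ha, Finset.mul_sum])
    (fun y v a ha => by simp [conorm_smul h, abs_of_nonneg ha, mul_assoc])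
    (fun y _ v hv => mul_pos (Real.sqrt_pos.2 (pairing_pos h y hv)) (dens_pos h y))
  obtain ⟨dM, hdM⟩ := hK.exists_bound_of_continuousOn hd.continuousOn
  obtain ⟨dm, hdm, hdmb⟩ := hK.exists_forall_le' hd.continuousOn fun y _ => dens_pos h y
  set a := 1 / (2 * CA ^ 2) with ha_def
  have ha : 0 < a := by positivity
  set E0 := fun z : Fin n → ℝ => Real.exp (-(a * ‖z‖ ^ 2))
  have hE0 : Integrable E0 := integrable_exp_norm_sq ha
  set E1 := fun z : Fin n → ℝ => E0 z * ‖z‖
  have hE1 : Integrable E1 := by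
    refine ((integrable_exp_norm_sq (n := n) (half_pos ha)).const_mul (1 + 2 / a)).mono'
      (by fun_prop : Continuous E1).aestronglyMeasurable (Eventually.of_forall fun z => ?_)
    have h1 : ‖z‖ ≤ (1 + 2 / a) * Real.exp (a / 2 * ‖z‖ ^ 2) := by
      have h2 := Real.add_one_le_exp (a / 2 * ‖z‖ ^ 2)
      refine le_trans ?_ (mul_le_mul_of_nonneg_left h2 (by positivity))
      have h3 : ‖z‖ ≤ 1 + ‖z‖ ^ 2 := by nlinarith [sq_nonneg (‖z‖ - 1)]
      have h4 : (1 + 2 / a) * (a / 2 * ‖z‖ ^ 2 + 1)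
          = a / 2 * ‖z‖ ^ 2 + ‖z‖ ^ 2 + (1 + 2 / a) := by field_simp; try ring
      have : 0 ≤ a / 2 * ‖z‖ ^ 2 := by positivity
      have : 0 ≤ 2 / a := by positivity
      linarith
    rw [Real.norm_of_nonneg (by positivity)]
    refine (mul_le_mul_of_nonneg_left h1 (Real.exp_pos _).le).trans (le_of_eq ?_)
    show Real.exp (-(a * ‖z‖ ^ 2)) * _ = _
    rw [mul_left_comm, ← Real.exp_add]
    congr 2
    ring
  set I0 := ∫ z, E0 z
  set I1 := ∫ z, E1 z
  have hI0 : 0 ≤ I0 := integral_nonneg fun z => (Real.exp_pos _).le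
  have hI1 : 0 ≤ I1 := integral_nonneg fun z => mul_nonneg (Real.exp_pos _).le (norm_nonneg _)
  set Cd := |dM| + 1
  set Ck := Cd / √(2 * π) ^ n
  set A1 := Cd * Ck * I0 / dm with hA1
  set A2 := Cd * Ck * I1 * (CF * |P₀|) with hA2
  have hA1' : 0 ≤ A1 := by positivity
  have hA2' : 0 ≤ A2 := by positivity
  set q := v₀ * (1 / 2 - κ)
  have hq : 0 < q := mul_pos hv₀ (by linarith)
  refine ⟨q / 3 / (A2 + 1), q / 3 / (A1 + 1), by positivity, by positivity,
    fun s hs hsσ u hu hper hvol hgap => ?_⟩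
  by_contra hcon
  push Not at hcon
  have huc := hu.1.continuous
  have hucs := comp_hasCompactSupport hK hu
  -- the scaled kernel
  set k := fun x z : Fin n → ℝ => s ^ n * ker G s x (x + s • z)
  have hk : ∀ x z, k x z = dens G x / √(2 * π) ^ n * Real.exp (-(qf G x z / 2)) := fun x z => by
    simp only [k, ker, add_sub_cancel_left, qf_smul]
    field_simp
    rw [mul_pow]
    ring
  have hscale : ∀ (f : (Fin n → ℝ) → ℝ) x, avg G s f x = ∫ z, f (x + s • z) * k x z := fun f x => by
    have h1 := Measure.integral_comp_smul_of_nonneg (μ := (volume : Measure (Fin n → ℝ)))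
      (fun w => f (x + w) * ker G s x (x + w)) s (hR := hs.le)
    simp only [Module.finrank_fintype_fun_eq_card, Fintype.card_fin, smul_eq_mul] at h1
    simp only [k]
    rw [integral_congr_ae (Eventually.of_forall fun z => mul_left_comm (f (x + s • z)) (s ^ n) _),
      integral_const_mul, h1, ← mul_assoc, mul_inv_cancel₀ (pow_ne_zero _ hs.ne'), one_mul,
      integral_add_left_eq_self fun y => f y * ker G s x y, avg]
  have hkb : ∀ x ∈ K, ∀ z, k x z ≤ Ck * E0 z := fun x hx z => by
    rw [hk]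
    refine mul_le_mul (div_le_div_of_nonneg_right ?_ (by positivity)) ?_ (Real.exp_pos _).le
      (by positivity)
    · have := hdM x hx
      rw [Real.norm_of_nonneg (dens_pos h x).le] at this
      linarith [le_abs_self dM]
    · refine Real.exp_le_exp.2 ?_
      have h1 := pow_le_pow_left₀ (norm_nonneg z) (hCAb x hx z) 2
      rw [mul_pow, Real.sq_sqrt (qf_nonneg h x z)] at h1
      have h2 := mul_le_mul_of_nonneg_left h1 ha.le
      have e : a * (CA ^ 2 * qf G x z) = qf G x z / 2 := by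
        rw [ha_def]; field_simp
      linarith
  have hk0 : ∀ x z, 0 ≤ k x z := fun x z => by
    rw [hk]; have := dens_pos h x; positivity
  have hkc : ∀ x, Continuous (k x) := fun x =>
    continuous_const.mul ((continuous_ker h s).comp
      (continuous_const.prodMk (continuous_const.add (continuous_id.const_smul s))))
  have hki : ∀ x ∈ K, Integrable (k x) := fun x hx =>
    (hE0.const_mul Ck).mono' (hkc x).aestronglyMeasurable (Eventually.of_forall fun z => by
      rw [Real.norm_of_nonneg (hk0 x z)]; exact hkb x hx z)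
  have hk1 : ∀ x, ∫ z, k x z = 1 := fun x => by
    obtain ⟨A, hAt, hA, -, hdet⟩ := exists_frame h x
    have h1 := integral_toFrame h hs hAt hA hdet (fun _ => (1 : ℝ))
    rw [hscale (fun _ => (1 : ℝ))] at h1
    simpa using h1.symm
  -- the double integral
  set F : (Fin n → ℝ) × (Fin n → ℝ) → ℝ := fun p => u p.1 * (1 - u (p.1 + s • p.2)) * E0 p.2
  have hu01 := hu.2.2
  have hui : Integrable u := huc.integrable_of_hasCompactSupport hucs
  have hFi : Integrable F (volume.prod volume) := by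
    refine (hui.mul_prod hE0).mono' (by fun_prop : Continuous F).aestronglyMeasurable
      (Eventually.of_forall fun p => ?_)
    have := hu01 p.1
    have := hu01 (p.1 + s • p.2)
    simp only [mem_Icc] at *
    rw [Real.norm_of_nonneg (mul_nonneg (mul_nonneg (by linarith) (by linarith)) (Real.exp_pos _).le)]
    exact mul_le_mul_of_nonneg_right (mul_le_of_le_one_right (by linarith) (by linarith))
      (Real.exp_pos _).le
  set G0 := ∫ x, u x * (1 - u x)
  set P' := ∫ x, ‖fderiv ℝ u x‖
  have hgi : Integrable fun x => u x * (1 - u x) :=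
    (huc.mul (continuous_const.sub huc)).integrable_of_hasCompactSupport hucs.mul_right
  have hG0 : G0 ≤ (q / 3 / (A1 + 1)) / dm := by
    rw [le_div_iff₀ hdm]
    refine le_trans ?_ hgap
    rw [mul_comm, ← integral_const_mul, gap]
    refine integral_mono (hgi.const_mul _) ((huc.mul (continuous_const.sub huc)).mul hd
      |>.integrable_of_hasCompactSupport hucs.mul_right.mul_right) fun x => ?_
    simp only
    by_cases hx : x ∈ K
    · rw [mul_comm dm]
      exact mul_le_mul_of_nonneg_left (hdmb x hx)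
        (mul_nonneg (hu01 x).1 (by linarith [(hu01 x).2]))
    · simp [comp_eq_zero hu hx]
  have hP' : P' ≤ CF * |P₀| := by
    refine le_trans ?_ (mul_le_mul_of_nonneg_left (hper.trans (le_abs_self _)) hCF.le)
    rw [per, ← integral_const_mul]
    refine integral_mono_of_nonneg (Eventually.of_forall fun x => norm_nonneg _)
      ((integrable_per h hK hu).const_mul _) (Eventually.of_forall fun x => ?_)
    simp only
    by_cases hx : x ∈ K
    · refine le_trans ?_ (hCFb x hx (cd u x))
      refine ContinuousLinearMap.opNorm_le_bound _ (Finset.sum_nonneg fun i _ => abs_nonneg _)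
        fun v => ?_
      rw [cd_dot, Real.norm_eq_abs, dotProduct, Finset.sum_mul]
      refine (Finset.abs_sum_le_sum_abs _ _).trans (Finset.sum_le_sum fun i _ => ?_)
      rw [abs_mul]
      exact mul_le_mul_of_nonneg_left
        (by rw [← Real.norm_eq_abs]; exact norm_le_pi_norm v i) (abs_nonneg _)
    · rw [fderiv_of_notMem_tsupport ℝ fun hm => hx (hu.2.1 hm), norm_zero]
      exact mul_nonneg hCF.le (mul_nonneg (Real.sqrt_nonneg _) (dens_pos h x).le)
  have hupper : ∫ p, F p ∂volume.prod volume ≤ G0 * I0 + s * P' * I1 := by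
    rw [integral_prod_symm _ hFi, ← integral_const_mul, ← integral_const_mul,
      ← integral_add (hE0.const_mul _) (hE1.const_mul _)]
    refine integral_mono hFi.integral_prod_right ((hE0.const_mul _).add (hE1.const_mul _)) fun z => ?_
    simp only [F, E1]
    rw [integral_mul_const]
    have hdi : Integrable fun x => |u (x + s • z) - u x| := ((hui.comp_add_right _).sub hui).abs
    have h1 : ∫ x, u x * (1 - u (x + s • z)) ≤ G0 + ∫ x, |u (x + s • z) - u x| := by
      simp only [G0]
      rw [← integral_add hgi hdi]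
      refine integral_mono_of_nonneg (Eventually.of_forall fun x =>
        mul_nonneg (hu01 x).1 (sub_nonneg.2 (hu01 _).2)) (hgi.add hdi)
        (Eventually.of_forall fun x => ?_)
      simp only [Pi.add_apply]
      have h5 : u x * (u x - u (x + s • z)) ≤ |u (x + s • z) - u x| := by
        rw [abs_sub_comm]
        refine (le_abs_self _).trans ?_
        rw [abs_mul, abs_of_nonneg (hu01 x).1]
        exact mul_le_of_le_one_left (abs_nonneg _) (hu01 x).2
      linarith
    have h2 := integral_translate_le hu.1 hucs (s • z)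
    rw [norm_smul, Real.norm_of_nonneg hs.le] at h2
    calc (∫ x, u x * (1 - u (x + s • z))) * E0 z ≤ (G0 + s * ‖z‖ * P') * E0 z :=
          mul_le_mul_of_nonneg_right (h1.trans (by linarith)) (Real.exp_pos _).le
      _ = _ := by ring
  have hlower : vol G u * (1 / 2 - κ) ≤ Cd * Ck * ∫ p, F p ∂volume.prod volume := by
    rw [vol, ← integral_mul_const, integral_prod _ hFi, ← integral_const_mul]
    refine integral_mono (((huc.mul hd).integrable_of_hasCompactSupport hucs.mul_right).mul_const _)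
      (hFi.integral_prod_left.const_mul _) fun x => ?_
    simp only [F]
    by_cases hx : x ∈ K
    swap
    · simp [comp_eq_zero hu hx]
    have hui' : Integrable fun z => u (x + s • z) * k x z :=
      (hki x hx).mono' ((huc.comp (by fun_prop)).mul (hkc x)).aestronglyMeasurable
        (Eventually.of_forall fun z => by
          rw [Real.norm_of_nonneg (mul_nonneg (hu01 _).1 (hk0 x z))]
          exact mul_le_of_le_one_left (hk0 x z) (hu01 _).2)
    have h1 : 1 - avg G s u x ≤ Ck * ∫ z, (1 - u (x + s • z)) * E0 z := by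
      rw [hscale u x]
      conv_lhs => arg 1; rw [← hk1 x]
      rw [← integral_sub (hki x hx) hui', ← integral_const_mul]
      refine integral_mono_of_nonneg (Eventually.of_forall fun z => ?_) ?_
        (Eventually.of_forall fun z => ?_)
      · show 0 ≤ k x z - u (x + s • z) * k x z
        have := mul_le_of_le_one_left (hk0 x z) (hu01 (x + s • z)).2
        linarith
      · refine Integrable.const_mul (hE0.mono'
          ((continuous_const.sub (huc.comp (by fun_prop))).mul (by fun_prop :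
            Continuous E0)).aestronglyMeasurable (Eventually.of_forall fun z => ?_)) _
        show ‖(1 - u (x + s • z)) * Real.exp (-(a * ‖z‖ ^ 2))‖ ≤ _
        rw [Real.norm_of_nonneg (mul_nonneg (sub_nonneg.2 (hu01 _).2) (Real.exp_pos _).le)]
        exact mul_le_of_le_one_left (Real.exp_pos _).le (by linarith [(hu01 (x + s • z)).1])
      · simp only
        have := mul_le_mul_of_nonneg_left (hkb x hx z) (sub_nonneg.2 (hu01 (x + s • z)).2)
        linarith
    have h2 := hcon x hx
    have hdx : dens G x ≤ Cd := by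
      have := hdM x hx
      rw [Real.norm_of_nonneg (dens_pos h x).le] at this
      linarith [le_abs_self dM]
    calc u x * dens G x * (1 / 2 - κ) ≤ u x * dens G x * (1 - avg G s u x) :=
          mul_le_mul_of_nonneg_left (by linarith) (mul_nonneg (hu01 x).1 (dens_pos h x).le)
      _ ≤ u x * Cd * (Ck * ∫ z, (1 - u (x + s • z)) * E0 z) :=
          mul_le_mul (mul_le_mul_of_nonneg_left hdx (hu01 x).1) h1 (by linarith)
            (mul_nonneg (hu01 x).1 (by positivity))
      _ = _ := by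
          simp only [mul_assoc]
          rw [integral_const_mul]
          ring
  have hv : q ≤ vol G u * (1 / 2 - κ) := mul_le_mul_of_nonneg_right hvol (by linarith)
  have hP'0 : 0 ≤ P' := integral_nonneg fun x => norm_nonneg _
  have hG00 : 0 ≤ G0 :=
    integral_nonneg fun x => mul_nonneg (hu01 x).1 (sub_nonneg.2 (hu01 x).2)
  have h5 : Cd * Ck * (G0 * I0) ≤ q / 3 := by
    calc Cd * Ck * (G0 * I0) ≤ Cd * Ck * ((q / 3 / (A1 + 1)) / dm * I0) := by gcongr
      _ = A1 / (A1 + 1) * (q / 3) := by rw [hA1]; field_simp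
      _ ≤ q / 3 := mul_le_of_le_one_left (by positivity) ((div_le_one (by positivity)).2 (by linarith))
  have h6 : Cd * Ck * (s * P' * I1) ≤ q / 3 := by
    calc Cd * Ck * (s * P' * I1) ≤ Cd * Ck * ((q / 3 / (A2 + 1)) * (CF * |P₀|) * I1) := by gcongr
      _ = A2 / (A2 + 1) * (q / 3) := by rw [hA2]; field_simp
      _ ≤ q / 3 := mul_le_of_le_one_left (by positivity) ((div_le_one (by positivity)).2 (by linarith))
  have h7 := mul_le_mul_of_nonneg_left hupper (show 0 ≤ Cd * Ck by positivity)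
  linarith

/-- A point of the ball where the average is exactly `1 / 2 + κ`. -/
theorem exists_median (h : IsCH G D) (hn : 1 ≤ n) (o : Fin n → ℝ) {R : ℝ} (hR : 0 < R) {κ : ℝ}
    (hκ0 : 0 < κ) (hκ : κ < 1 / 2) (P₀ : ℝ) {v₀ : ℝ} (hv₀ : 0 < v₀) :
    ∃ σ η : ℝ, 0 < σ ∧ 0 < η ∧ ∀ s, 0 < s → s < σ → ∀ u, Comp {y | D o y ≤ R} u → per G u ≤ P₀ →
      v₀ ≤ vol G u → gap G u ≤ η → ∃ x, D o x ≤ R ∧ avg G s u x = 1 / 2 + κ := by
  set K := {y | D o y ≤ R}
  have hK : IsCompact K := h.proper o R
  obtain ⟨σ1, hσ1, hbd⟩ := avg_boundary h o hR (half_pos hκ0)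
  obtain ⟨σ2, η, hσ2, hη, hint⟩ := avg_interior h hK hκ P₀ hv₀
  refine ⟨min σ1 σ2, η, lt_min hσ1 hσ2, hη, fun s hs hsσ u hu hper hvol hgap => ?_⟩
  obtain ⟨x₁, hx₁, hθ⟩ := hint s hs (hsσ.trans_le (min_le_right _ _)) u hu hper hvol hgap
  obtain ⟨B, hB⟩ := hK.isBounded.subset_closedBall (0 : Fin n → ℝ)
  set e : Fin n → ℝ := Pi.single ⟨0, hn⟩ 1
  have he : ‖e‖ = 1 := by simp [e, Pi.norm_single]
  set T : ℝ := |B| + ‖x₁‖ + 1
  have hT : 0 ≤ T := by positivity
  set ψ : ℝ → Fin n → ℝ := fun t => x₁ + t • e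
  have hψ : Continuous ψ := by fun_prop
  have hTout : R ≤ D o (ψ T) := by
    by_contra hc
    have := hB (show ψ T ∈ K from (not_le.1 hc).le)
    rw [mem_closedBall_zero_iff] at this
    have h1 := norm_sub_le (x₁ + T • e) x₁
    rw [add_sub_cancel_left, norm_smul, he, mul_one, Real.norm_of_nonneg hT] at h1
    simp only [ψ] at this
    have := le_abs_self B
    have : T = |B| + ‖x₁‖ + 1 := rfl
    linarith
  set S := Icc 0 T ∩ {t | R ≤ D o (ψ t)}
  have hDc : Continuous fun t => D o (ψ t) := (continuous_D h o).comp hψ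
  have hS : IsCompact S := isCompact_Icc.inter_right (isClosed_le continuous_const hDc)
  obtain ⟨t₀, ht₀, hmin⟩ := hS.exists_isLeast ⟨T, ⟨hT, le_rfl⟩, hTout⟩
  have hin : ∀ t ∈ Ico 0 t₀, D o (ψ t) ≤ R := fun t ht => by
    by_contra hc
    exact absurd (hmin ⟨⟨ht.1, ht.2.le.trans ht₀.1.2⟩, (not_le.1 hc).le⟩) (not_le.2 ht.2)
  have hle : D o (ψ t₀) ≤ R := by
    rcases ht₀.1.1.eq_or_lt with h0 | h0
    · rw [← h0]; simp only [ψ, zero_smul, add_zero]; exact hx₁
    · refine le_of_tendsto ((hDc.tendsto t₀).mono_left nhdsWithin_le_nhds : Tendsto _ (𝓝[<] t₀) _) ?_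
      filter_upwards [Ioo_mem_nhdsLT h0] with t ht using hin t ⟨ht.1.le, ht.2⟩
  have hθb := hbd s hs (hsσ.trans_le (min_le_left _ _)) u hu (ψ t₀) (le_antisymm hle ht₀.2)
  have hc : Continuous fun t => avg G s u (ψ t) :=
    (continuous_avg h hK s hu.1.continuous fun y hy => comp_eq_zero hu hy).comp hψ
  obtain ⟨t, ht, hteq⟩ := intermediate_value_Icc' ht₀.1.1 hc.continuousOn
    (show 1 / 2 + κ ∈ Icc (avg G s u (ψ t₀)) (avg G s u (ψ 0)) from
      ⟨by linarith, by simpa [ψ] using hθ.le⟩)
  refine ⟨ψ t, ?_, hteq⟩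
  rcases ht.2.eq_or_lt with h0 | h0
  · rw [h0]; exact hle
  · exact hin t ⟨ht.1, h0⟩

end Vale.Agent.P219.CH
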