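import Vale.Agent.P219.CH.VarField

/-!
# The small step map: support, change of variables and the flux step
-/

noncomputable section

open MeasureTheory Set Filter Topology Matrix

namespace Vale.Agent.P219.CH

variable {n : ℕ} {G : (Fin n → ℝ) → Matrix (Fin n) (Fin n) ℝ}
  {D : (Fin n → ℝ) → (Fin n → ℝ) → ℝ}

/-- A cutoff equal to one near a bounded set, with uniform bounds on the cut fields. -/
theorem IsCH.exists_cutoff (h : IsCH G D) {K : Set (Fin n → ℝ)} (hK : IsCompact K) (q₀ q₁ : ℝ) :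
    ∃ (χ : (Fin n → ℝ) → ℝ) (r B : ℝ), ContDiff ℝ 1 χ ∧ HasCompactSupport χ ∧
      (∀ y, χ y ∈ Icc (0 : ℝ) 1) ∧ 0 < r ∧ K ⊆ Metric.closedBall 0 r ∧ 0 ≤ B ∧
      (∀ y, ‖y‖ < r + 2 → χ =ᶠ[𝓝 y] fun _ => (1 : ℝ)) ∧
      ∀ p ∈ K ×ˢ Icc q₀ q₁, ∀ y, ‖cutField G D χ p y‖ ≤ B ∧ ‖fderiv ℝ (cutField G D χ p) y‖ ≤ B := by
  obtain ⟨r, hr, hKr⟩ := hK.isBounded.subset_closedBall_lt 0 0
  obtain ⟨φ, hφd⟩ : ∃ φ : ContDiffBump (0 : Fin n → ℝ), φ.rIn = r + 2 :=
    ⟨⟨r + 2, r + 3, by linarith, by linarith⟩, rfl⟩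
  have hφ : ContDiff ℝ 1 φ := φ.contDiff
  have hc : HasCompactSupport φ := φ.hasCompactSupport
  set S := tsupport φ
  have hS : IsCompact S := hc
  obtain ⟨B₁, hB₁⟩ := ((hK.prod isCompact_Icc).prod hS).bddAbove_image
    (f := fun w : ((Fin n → ℝ) × ℝ) × (Fin n → ℝ) => ‖cutField G D φ w.1 w.2‖)
    ((h.contDiff_cutField hφ).continuous.norm.continuousOn (s := (K ×ˢ Icc q₀ q₁) ×ˢ S))
  obtain ⟨B₂, hB₂⟩ := ((hK.prod isCompact_Icc).prod hS).bddAbove_image
    (f := fun w : ((Fin n → ℝ) × ℝ) × (Fin n → ℝ) => ‖fderiv ℝ (cutField G D φ w.1) w.2‖)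
    ((h.continuous_fderiv_cutField hφ).norm.continuousOn (s := (K ×ˢ Icc q₀ q₁) ×ˢ S))
  refine ⟨φ, r, max (max B₁ B₂) 0, hφ, hc, fun y => ⟨φ.nonneg, φ.le_one⟩, hr, hKr,
    le_max_right _ _, fun y hy => φ.eventuallyEq_one_of_mem_ball (by simpa [hφd] using hy),
    fun p hp y => ?_⟩
  by_cases hy : y ∈ S
  · exact ⟨(hB₁ ⟨(p, y), ⟨hp, hy⟩, rfl⟩).trans ((le_max_left _ _).trans (le_max_left _ _)),
      (hB₂ ⟨(p, y), ⟨hp, hy⟩, rfl⟩).trans ((le_max_right _ _).trans (le_max_left _ _))⟩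
  · have hev : cutField G D φ p =ᶠ[𝓝 y] fun _ => 0 := by
      filter_upwards [(isClosed_tsupport φ).isOpen_compl.mem_nhds hy] with z hz
      simp [cutField, image_eq_zero_of_notMem_tsupport (f := (φ : (Fin n → ℝ) → ℝ)) hz]
    rw [hev.fderiv_eq, hev.eq_of_nhds]
    simp

/-- A step along a field of small Lipschitz constant is injective. -/
lemma injective_step {Z : (Fin n → ℝ) → Fin n → ℝ} (hZ : Differentiable ℝ Z) {B t : ℝ}
    (hB : ∀ y, ‖fderiv ℝ Z y‖ ≤ B) (ht : 0 ≤ t) (htB : t * B < 1) :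
    Function.Injective fun y => y + t • Z y := by
  intro y y' he
  simp only at he
  have h1 : ‖Z y' - Z y‖ ≤ B * ‖y' - y‖ := convex_univ.norm_image_sub_le_of_norm_fderiv_le
    (fun z _ => hZ z) (fun z _ => hB z) (mem_univ y) (mem_univ y')
  have h2 : y - y' = t • (Z y' - Z y) := by
    rw [smul_sub]; linear_combination (norm := module) he
  have h3 : ‖y - y'‖ ≤ t * B * ‖y - y'‖ := by
    calc ‖y - y'‖ = t * ‖Z y' - Z y‖ := by
          rw [h2, norm_smul, Real.norm_eq_abs, abs_of_nonneg ht]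
      _ ≤ t * (B * ‖y' - y‖) := mul_le_mul_of_nonneg_left h1 ht
      _ = _ := by rw [norm_sub_rev]; ring
  by_contra hne
  have : 0 < ‖y - y'‖ := norm_pos_iff.2 (sub_ne_zero.2 hne)
  nlinarith

/-- Pushing a nonnegative integral forward by the step map does not increase it. -/
theorem setIntegral_step_le {K : Set (Fin n → ℝ)} (hK : MeasurableSet K)
    {Z : (Fin n → ℝ) → Fin n → ℝ} (hZ : Differentiable ℝ Z) {B t : ℝ}
    (hB : ∀ y, ‖fderiv ℝ Z y‖ ≤ B) (ht : 0 ≤ t) (htB : t * B < 1)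
    (hdet : ∀ y ∈ K, 0 ≤ (1 + t • opMat (fderiv ℝ Z y)).det)
    {g : (Fin n → ℝ) → ℝ} (hg : Integrable g) (hg0 : ∀ y, 0 ≤ g y) :
    IntegrableOn (fun y => (1 + t • opMat (fderiv ℝ Z y)).det * g (y + t • Z y)) K ∧
      ∫ y in K, (1 + t • opMat (fderiv ℝ Z y)).det * g (y + t • Z y) ≤ ∫ y, g y := by
  have hd : ∀ y ∈ K, HasFDerivWithinAt (fun y => y + t • Z y)
      (ContinuousLinearMap.id ℝ (Fin n → ℝ) + t • fderiv ℝ Z y) K y := fun y _ =>
    ((hasFDerivAt_id y).add ((hZ y).hasFDerivAt.const_smul t)).hasFDerivWithinAt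
  have hi := (injective_step hZ hB ht htB).injOn (s := K)
  have he : ∀ y ∈ K, |(ContinuousLinearMap.id ℝ (Fin n → ℝ) + t • fderiv ℝ Z y).det| •
      g (y + t • Z y) = (1 + t • opMat (fderiv ℝ Z y)).det * g (y + t • Z y) := fun y hy => by
    rw [det_id_add_smul, abs_of_nonneg (hdet y hy), smul_eq_mul]
  refine ⟨?_, ?_⟩
  · exact ((integrableOn_image_iff_integrableOn_abs_det_fderiv_smul volume hK hd hi g).1
      hg.integrableOn).congr_fun he hK
  · rw [← setIntegral_congr_fun hK he, ← integral_image_eq_integral_abs_det_fderiv_smul volume hK hd hi]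
    exact setIntegral_le_integral hg (Eventually.of_forall hg0)

/-- The step map pushes outward, so it only reaches a ball from inside it. -/
theorem IsCH.exists_support_step (h : IsCH G D) (o : Fin n → ℝ) (R : ℝ)
    {χ : (Fin n → ℝ) → ℝ} {r B : ℝ}
    (hKr : {y | D o y ≤ R} ⊆ Metric.closedBall 0 r) (hB0 : 0 ≤ B)
    (hone : ∀ y, ‖y‖ < r + 2 → χ =ᶠ[𝓝 y] fun _ => (1 : ℝ))
    {P : Set ((Fin n → ℝ) × ℝ)} (hP : ∀ p ∈ P, p.1 ∈ {y | D o y ≤ R} ∧ 0 ≤ p.2)
    (hB : ∀ p ∈ P, ∀ y, ‖cutField G D χ p y‖ ≤ B) :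
    ∃ τ : ℝ, 0 < τ ∧ ∀ t ∈ Icc 0 τ, ∀ p ∈ P, ∀ y,
      D o (y + t • cutField G D χ p y) ≤ R → D o y ≤ R := by
  set S := Metric.closedBall (0 : Fin n → ℝ) (r + 2)
  have hS : IsCompact S := isCompact_closedBall _ _
  obtain ⟨C, hC0, hC⟩ := h.exists_norm_inv_mulVec_le hS
  have hf' : ContDiff ℝ 1 (fderiv ℝ (D o)) := (h.contDiff_D o).fderiv_right le_rfl
  obtain ⟨C₂, hC₂⟩ := hS.bddAbove_image (hf'.continuous_fderiv one_ne_zero).norm.continuousOn
  set C₃ := max C₂ 0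
  refine ⟨min (1 / (B + 1)) (1 / (2 * C₃ * C ^ 2 + 1)), by positivity, ?_⟩
  rintro t ⟨ht0, htτ⟩ p hp y hy
  by_contra hR
  rw [not_le] at hR
  obtain ⟨hx, hq⟩ := hP p hp
  obtain ⟨v, hv⟩ : ∃ v, v = cutField G D χ p y := ⟨_, rfl⟩
  rw [← hv] at hy
  have hz : ‖y + t • v‖ ≤ r := by simpa using hKr hy
  have htv : ‖t • v‖ ≤ 1 := by
    rw [norm_smul, Real.norm_eq_abs, abs_of_nonneg ht0]
    have h1 := hB p hp y
    rw [← hv] at h1
    calc t * ‖v‖ ≤ 1 / (B + 1) * B :=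
          mul_le_mul (htτ.trans (min_le_left _ _)) h1 (norm_nonneg _) (by positivity)
      _ ≤ 1 := by rw [div_mul_eq_mul_div, div_le_one (by positivity)]; linarith
  have hyr : ‖y‖ ≤ r + 1 := by
    have := norm_sub_le (y + t • v) (t • v)
    rw [add_sub_cancel_right] at this
    linarith
  have hyS : y ∈ S := by simp [S]; linarith
  have hzS : y + t • v ∈ S := by simp [S]; linarith
  obtain ⟨w, hwd⟩ : ∃ w, w = Real.exp (-(p.2 * D p.1 y)) := ⟨_, rfl⟩
  have hw0 : 0 < w := hwd ▸ Real.exp_pos _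
  have hw1 : w ≤ 1 := by
    rw [hwd, Real.exp_le_one_iff]
    nlinarith [h.dist_nonneg p.1 y]
  have hvw : v = w • grad G (D p.1) y := by
    rw [hv, cutField, (hone y (by linarith)).eq_of_nhds, one_smul, hwd]
  have hlin : w * D p.1 y ≤ fderiv ℝ (D o) y v := by
    rw [hvw, map_smul, smul_eq_mul, ← pairing_cd]
    refine mul_le_mul_of_nonneg_left ?_ hw0.le
    have h1 := h.cosine o p.1 y
    have h2 : D o p.1 ≤ R := hx
    linarith
  have hnorm : ‖v‖ ^ 2 ≤ C ^ 2 * w * (2 * D p.1 y) := by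
    rw [hvw, norm_smul, Real.norm_eq_abs, abs_of_pos hw0, mul_pow, ← h.eikonal, ← h.conorm_sq]
    have h1 := pow_le_pow_left₀ (norm_nonneg _) (hC y hyS (cd (D p.1) y)) 2
    rw [mul_pow] at h1
    calc w ^ 2 * ‖grad G (D p.1) y‖ ^ 2 ≤ w * (C ^ 2 * conorm G y (cd (D p.1) y) ^ 2) := by
          refine mul_le_mul ?_ h1 (sq_nonneg _) hw0.le
          rw [sq]; exact mul_le_of_le_one_left hw0.le hw1
      _ = _ := by ring
  -- second order bound on the segment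
  have hseg : segment ℝ y (y + t • v) ⊆ S := (convex_closedBall _ _).segment_subset hyS hzS
  have hT : |D o (y + t • v) - D o y - fderiv ℝ (D o) y (t • v)| ≤ C₃ * ‖t • v‖ * ‖t • v‖ := by
    have h1 := (convex_segment y (y + t • v)).norm_image_sub_le_of_norm_fderiv_le'
      (f := D o) (φ := fderiv ℝ (D o) y) (C := C₃ * ‖t • v‖)
      (fun z _ => (h.contDiff_D o).differentiable two_ne_zero z) (fun z hz => ?_)
      (left_mem_segment ℝ _ _) (right_mem_segment ℝ _ _)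
    · simpa using h1
    · have h2 := (convex_closedBall (0 : Fin n → ℝ) (r + 2)).norm_image_sub_le_of_norm_fderiv_le
        (f := fderiv ℝ (D o)) (C := C₃) (fun w _ => hf'.differentiable one_ne_zero w)
        (fun w hw => (hC₂ ⟨w, hw, rfl⟩).trans (le_max_left _ _)) hyS (hseg hz)
      refine h2.trans (mul_le_mul_of_nonneg_left ?_ (le_max_right _ _))
      have := segment_subset_closedBall_left y (y + t • v) hz
      simpa [Metric.mem_closedBall, dist_eq_norm] using this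
  rw [map_smul, smul_eq_mul, norm_smul, Real.norm_eq_abs t, abs_of_nonneg ht0] at hT
  have h1 := (abs_le.1 hT).1
  have ht2 : t * (2 * C₃ * C ^ 2) ≤ 1 := by
    calc t * (2 * C₃ * C ^ 2) ≤ 1 / (2 * C₃ * C ^ 2 + 1) * (2 * C₃ * C ^ 2) :=
          mul_le_mul_of_nonneg_right (htτ.trans (min_le_right _ _)) (by positivity)
      _ ≤ 1 := by rw [div_mul_eq_mul_div, div_le_one (by positivity)]; linarith
  have h3 : C₃ * (t * ‖v‖) * (t * ‖v‖) ≤ C₃ * t ^ 2 * (C ^ 2 * w * (2 * D p.1 y)) := by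
    calc _ = C₃ * t ^ 2 * ‖v‖ ^ 2 := by ring
      _ ≤ _ := mul_le_mul_of_nonneg_left hnorm (by positivity)
  have h4 : C₃ * t ^ 2 * (C ^ 2 * w * (2 * D p.1 y)) ≤ t * (w * D p.1 y) := by
    calc C₃ * t ^ 2 * (C ^ 2 * w * (2 * D p.1 y)) =
          t * (2 * C₃ * C ^ 2) * (t * (w * D p.1 y)) := by ring
      _ ≤ 1 * (t * (w * D p.1 y)) := mul_le_mul_of_nonneg_right ht2
          (mul_nonneg ht0 (mul_nonneg hw0.le (h.dist_nonneg _ _)))
      _ = _ := one_mul _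
  linarith [mul_le_mul_of_nonneg_left hlin ht0]

/-- The flux step, uniformly on a compact set. -/
theorem IsCH.exists_flux_step (h : IsCH G D) {K : Set (Fin n → ℝ)} (hK : IsCompact K) (q₀ q₁ : ℝ)
    {e : ℝ} (he : 0 < e) :
    ∃ τ : ℝ, 0 < τ ∧ ∀ t ∈ Icc 0 τ, ∀ p ∈ K ×ˢ Icc q₀ q₁, ∀ y ∈ K, ∀ ξ : Fin n → ℝ,
      |ξ ⬝ᵥ cutField G D (fun _ => 1) p y| * dens G y ≤
        (1 + t • opMat (fderiv ℝ (cutField G D (fun _ => 1) p) y)).det *
          dens G (y + t • cutField G D (fun _ => 1) p y) *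
        (|ξ ⬝ᵥ cutField G D (fun _ => 1) p (y + t • cutField G D (fun _ => 1) p y)| +
          e * conorm G (y + t • cutField G D (fun _ => 1) p y) ξ) := by
  set c : (Fin n → ℝ) → ℝ := fun _ => 1
  set W := ((Fin n → ℝ) × ℝ) × (Fin n → ℝ) × (Fin n → ℝ)
  set P : Set W := (K ×ˢ Icc q₀ q₁) ×ˢ (K ×ˢ Metric.sphere 0 1)
  have hP : IsCompact P := (hK.prod isCompact_Icc).prod (hK.prod (isCompact_sphere _ _))
  set lhs : ℝ → W → ℝ := fun _ w => |w.2.2 ⬝ᵥ cutField G D c w.1 w.2.1| * dens G w.2.1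
  set rhs : ℝ → W → ℝ := fun t w => (1 + t • opMat (fderiv ℝ (cutField G D c w.1) w.2.1)).det *
          dens G (w.2.1 + t • cutField G D c w.1 w.2.1) *
        (|w.2.2 ⬝ᵥ cutField G D c w.1 (w.2.1 + t • cutField G D c w.1 w.2.1)| +
          e * conorm G (w.2.1 + t • cutField G D c w.1 w.2.1) w.2.2)
  have hF : Continuous (Function.uncurry (cutField G D c)) :=
    (h.contDiff_cutField contDiff_const).continuous
  have hy : Continuous fun a : ℝ × W => a.2.2.1 :=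
    continuous_fst.comp (continuous_snd.comp continuous_snd)
  have hξ : Continuous fun a : ℝ × W => a.2.2.2 :=
    continuous_snd.comp (continuous_snd.comp continuous_snd)
  have hv : Continuous fun a : ℝ × W => cutField G D c a.2.1 a.2.2.1 :=
    hF.comp ((continuous_fst.comp continuous_snd).prodMk hy)
  have hz : Continuous fun a : ℝ × W => a.2.2.1 + a.1 • cutField G D c a.2.1 a.2.2.1 :=
    hy.add (continuous_fst.smul hv)
  have hl : Continuous (Function.uncurry lhs) :=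
    (hξ.dotProduct hv).abs.mul (h.continuous_dens.comp hy)
  have hr : Continuous (Function.uncurry rhs) := by
    refine ((Continuous.matrix_det ?_).mul (h.continuous_dens.comp hz)).mul
      ((hξ.dotProduct (hF.comp ((continuous_fst.comp continuous_snd).prodMk hz))).abs.add
        (continuous_const.mul (h.continuous_conorm.comp (hz.prodMk hξ))))
    exact continuous_const.add (continuous_fst.smul (continuous_opMat.comp
      ((h.continuous_fderiv_cutField contDiff_const).comp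
        ((continuous_fst.comp continuous_snd).prodMk hy))))
  have h0 : ∀ w ∈ P, ∀ᶠ a : ℝ × W in 𝓝 ((0 : ℝ), w), lhs a.1 a.2 < rhs a.1 a.2 := by
    rintro ⟨p, y, ξ⟩ ⟨-, -, hs⟩
    refine (hl.tendsto ((0 : ℝ), (p, y, ξ))).eventually_lt (hr.tendsto ((0 : ℝ), (p, y, ξ))) ?_
    have hξ0 : ξ ≠ 0 := fun h0 => by simp [h0] at hs
    have := mul_pos (h.dens_pos y) (mul_pos he (h.conorm_pos y hξ0))
    simp only [Function.uncurry, lhs, rhs, zero_smul, add_zero, Matrix.det_one, one_mul]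
    linarith
  obtain ⟨τ, hτ, hsub⟩ := Metric.eventually_nhds_iff.1
    (hP.eventually_forall_of_forall_eventually (P := fun t w => lhs t w < rhs t w) h0)
  refine ⟨τ / 2, by positivity, fun t ht p hp y hy ξ => ?_⟩
  rcases eq_or_ne ξ 0 with rfl | hξ0
  · simp [conorm_zero]
  have hn : 0 < ‖ξ‖ := norm_pos_iff.2 hξ0
  have hu : ‖ξ‖⁻¹ • ξ ∈ Metric.sphere (0 : Fin n → ℝ) 1 := by
    rw [mem_sphere_zero_iff_norm, norm_smul, norm_inv, norm_norm, inv_mul_cancel₀ hn.ne']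
  have h1 := hsub (show dist t 0 < τ by
    rw [dist_zero_right, Real.norm_eq_abs, abs_of_nonneg ht.1]; linarith [ht.2])
    (p, y, ‖ξ‖⁻¹ • ξ) ⟨hp, hy, hu⟩
  simp only [lhs, rhs, smul_dotProduct, smul_eq_mul, abs_mul, h.conorm_smul, abs_inv,
    abs_norm] at h1
  refine le_of_mul_le_mul_left ?_ (inv_pos.2 hn)
  linarith

/-- The Jacobian of a small step is at least one half. -/
theorem exists_det_step (B : ℝ) :
    ∃ τ : ℝ, 0 < τ ∧ ∀ t ∈ Icc 0 τ, ∀ L : (Fin n → ℝ) →L[ℝ] (Fin n → ℝ), ‖L‖ ≤ B →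
      1 / 2 ≤ (1 + t • opMat L).det := by
  have hc : Continuous fun a : ℝ × ((Fin n → ℝ) →L[ℝ] (Fin n → ℝ)) =>
      (1 + a.1 • opMat a.2).det :=
    Continuous.matrix_det (continuous_const.add
      (continuous_fst.smul (continuous_opMat.comp continuous_snd)))
  have h0 : ∀ L ∈ Metric.closedBall (0 : (Fin n → ℝ) →L[ℝ] (Fin n → ℝ)) B,
      ∀ᶠ a : ℝ × ((Fin n → ℝ) →L[ℝ] (Fin n → ℝ)) in 𝓝 ((0 : ℝ), L),
        1 / 2 < (1 + a.1 • opMat a.2).det := fun L _ =>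
    tendsto_const_nhds.eventually_lt (hc.tendsto ((0 : ℝ), L)) (by norm_num)
  obtain ⟨τ, hτ, hsub⟩ := Metric.eventually_nhds_iff.1
    ((isCompact_closedBall (0 : (Fin n → ℝ) →L[ℝ] (Fin n → ℝ)) B).eventually_forall_of_forall_eventually
      (x₀ := (0 : ℝ))
      (P := fun (t : ℝ) L => 1 / 2 < (1 + t • opMat L).det) h0)
  refine ⟨τ / 2, by positivity, fun t ht L hL => (hsub ?_ L (by simpa using hL)).le⟩
  rw [dist_zero_right, Real.norm_eq_abs, abs_of_nonneg ht.1]; linarith [ht.2]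

end Vale.Agent.P219.CH
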