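import Vale.Agent.P219.CH.VarAlgebra

/-!
# The uniform pointwise step of the first variation
-/

noncomputable section

open MeasureTheory Set Filter Topology Matrix

namespace Vale.Agent.P219.CH

/-- Uniform first order bound of `defect` along the Gaussian gradient field on a compact set. -/
def DefectPin (n : ℕ) : Prop :=
  ∀ (G : (Fin n → ℝ) → Matrix (Fin n) (Fin n) ℝ) (D : (Fin n → ℝ) → (Fin n → ℝ) → ℝ), IsCH G D →
    ∀ K : Set (Fin n → ℝ), IsCompact K → ∀ a b e : ℝ, 0 < a → a ≤ b → 0 < e →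
      ∃ τ : ℝ, 0 < τ ∧ ∀ t ∈ Icc 0 τ, ∀ x ∈ K, ∀ s ∈ Icc a b, ∀ y ∈ K, ∀ ξ : Fin n → ℝ,
        defect G y (gfield G D x s y) (fderiv ℝ (gfield G D x s) y) ξ t ≤
          -(t * ((1 + t • opMat (fderiv ℝ (gfield G D x s) y)).det *
            dens G (y + t • gfield G D x s y) *
            (firstVar G D x s (y + t • gfield G D x s y) ξ -
              e * conorm G (y + t • gfield G D x s y) ξ)))

end Vale.Agent.P219.CH
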